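import Mathlib
import Crest.Prelude.Def_BoxFlow

/-!
# Shared definitions for S0170 (box flows)

Everything here is a plain definition; no proofs of substance.  See the team plan (LEAD MESSAGE #9).
-/

set_option autoImplicit false

open scoped ContDiff
open Crest.AnalysisR.BoxFlow

namespace Crest.Agent.Box

/-- A smooth function of one real variable all of whose derivatives are computably approximable
at rational points and globally bounded by `K ^ ((r+1)^2)`. -/
structure Eff1 (f : ℝ → ℝ) : Prop where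
  smooth : ContDiff ℝ ∞ f
  approx : ∃ e : ℕ × ℚ × ℕ → ℚ, Computable e ∧
    ∀ (r : ℕ) (q : ℚ) (n : ℕ),
      |iteratedDeriv r f (q : ℝ) - (e (r, q, n) : ℝ)| ≤ 1 / ((n : ℝ) + 1)
  bound : ∃ K : ℕ, ∀ (r : ℕ) (x : ℝ), |iteratedDeriv r f x| ≤ (K : ℝ) ^ ((r + 1) ^ 2)

/-- A smooth effective step function: `0` on `(-∞, 0]`, `1` on `[1, ∞)`, values in `[0, 1]`. -/
structure IsStep (s : ℝ → ℝ) : Prop where
  eff : Eff1 s
  zero : ∀ x : ℝ, x ≤ 0 → s x = 0
  one : ∀ x : ℝ, 1 ≤ x → s x = 1
  mem01 : ∀ x : ℝ, 0 ≤ s x ∧ s x ≤ 1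

/-- The pure tensor field `(t, x) ↦ f₀ t * fs 0 (x 0) * fs 1 (x 1) * fs 2 (x 2)` in direction `c`. -/
noncomputable def tensorField (f₀ : ℝ → ℝ) (fs : Fin 3 → ℝ → ℝ) (c : Fin 3) : Field :=
  fun p => Pi.single c (f₀ p.1 * fs 0 (p.2 0) * fs 1 (p.2 1) * fs 2 (p.2 2))

/-- Data of an elementary move: on the inner box `∏ [lo k, hi k]` the velocity is
`(α + a * (x j - c)) • e_i` (a translation along axis `i` when `a = 0`, a shear otherwise);
the field is cut off to vanish outside the open outer box `∏ (lo k - δ, hi k + δ)`. -/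
structure Move where
  i : Fin 3
  j : Fin 3
  hij : i ≠ j
  α : ℚ
  a : ℚ
  c : ℚ
  lo : Fin 3 → ℚ
  hi : Fin 3 → ℚ
  δ : ℚ
  hδ : 0 < δ

namespace Move

/-- The velocity of the move on its inner box. -/
noncomputable def vel (m : Move) (x : Fin 3 → ℝ) : Fin 3 → ℝ :=
  Pi.single m.i ((m.α : ℝ) + (m.a : ℝ) * (x m.j - (m.c : ℝ)))

/-- The closed inner box. -/
def inner (m : Move) : Set (Fin 3 → ℝ) :=
  {x | ∀ k : Fin 3, (m.lo k : ℝ) ≤ x k ∧ x k ≤ (m.hi k : ℝ)}

/-- The open outer box. -/
def outer (m : Move) : Set (Fin 3 → ℝ) :=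
  {x | ∀ k : Fin 3, (m.lo k : ℝ) - (m.δ : ℝ) < x k ∧ x k < (m.hi k : ℝ) + (m.δ : ℝ)}

/-- The point is carried by the move: it and its image lie in the inner box. -/
def Inside (m : Move) (x : Fin 3 → ℝ) : Prop := x ∈ m.inner ∧ x + m.vel x ∈ m.inner

/-- The point is not touched by the move: it lies outside the open outer box. -/
def Outside (m : Move) (x : Fin 3 → ℝ) : Prop := x ∉ m.outer

open Classical in
/-- The effect of the move on a point. -/
noncomputable def step (m : Move) (x : Fin 3 → ℝ) : Fin 3 → ℝ :=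
  if m.Inside x then x + m.vel x else x

/-- The reversed move. -/
def rev (m : Move) : Move := { m with α := -m.α, a := -m.a }

end Move

/-- The effect of a list of moves (performed from the head on). -/
noncomputable def run : List Move → (Fin 3 → ℝ) → (Fin 3 → ℝ)
  | [], x => x
  | m :: ms, x => run ms (m.step x)

/-- Every move of the list either carries the (current image of the) point or leaves it alone. -/
def TrackOK : List Move → (Fin 3 → ℝ) → Prop
  | [], _ => True
  | m :: ms, x => (m.Inside x ∨ m.Outside x) ∧ TrackOK ms (m.step x)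

/-- One-variable cutoff: `1` on `[lo, hi]`, `0` outside `(lo - δ, hi + δ)`. -/
noncomputable def cutoff (s : ℝ → ℝ) (lo hi δ : ℚ) : ℝ → ℝ :=
  fun y => s (((1 / δ : ℚ) : ℝ) * y + (((δ - lo) / δ : ℚ) : ℝ)) *
    s (((-1 / δ : ℚ) : ℝ) * y + (((hi + δ) / δ : ℚ) : ℝ))

/-- The cutoff of a move along axis `k`. -/
noncomputable def Move.chi (s : ℝ → ℝ) (m : Move) (k : Fin 3) : ℝ → ℝ :=
  cutoff s (m.lo k) (m.hi k) m.δ

/-- The one-variable potential of a move: its derivative is `α + a * (y - c)`. -/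
noncomputable def Move.pot (m : Move) : ℝ → ℝ :=
  fun y => (m.α : ℝ) * y + (m.a : ℝ) * (y - (m.c : ℝ)) ^ 2 / 2

/-- The cut-off potential (a function of the shear variable `x j`). -/
noncomputable def Move.gfun (s : ℝ → ℝ) (m : Move) : ℝ → ℝ :=
  fun y => m.pot y * m.chi s m.j y

/-- The time profile of a move in the window `[t₀, t₀ + τ]`: the derivative of
`t ↦ s ((t - t₀) / τ)`. -/
noncomputable def timeProfile (s : ℝ → ℝ) (t₀ τ : ℚ) : ℝ → ℝ :=
  fun t => ((1 / τ : ℚ) : ℝ) * deriv s (((1 / τ : ℚ) : ℝ) * t + ((-t₀ / τ : ℚ) : ℝ))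

/-- The velocity field of a move performed in the time window `[t₀, t₀ + τ]`:
component `i` is `θ'(t) χ_i(x_i) g'(x_j) χ_l(x_l)` and component `j` is
`- θ'(t) χ_i'(x_i) g(x_j) χ_l(x_l)`; it is divergence-free, equals `θ'(t) • vel x` on the inner box
and vanishes outside the outer box. -/
noncomputable def moveField (s : ℝ → ℝ) (m : Move) (t₀ τ : ℚ) : Field :=
  tensorField (timeProfile s t₀ τ) (Function.update (m.chi s) m.j (deriv (m.gfun s))) m.i +
  tensorField (fun t => - timeProfile s t₀ τ t)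
    (Function.update (Function.update (m.chi s) m.i (deriv (m.chi s m.i))) m.j (m.gfun s)) m.j

/-- The field of a list of moves performed in consecutive windows of length `τ` starting at `t₀`. -/
noncomputable def planField (s : ℝ → ℝ) (τ : ℚ) : ℚ → List Move → Field
  | _, [] => 0
  | t₀, m :: ms => moveField s m t₀ τ + planField s τ (t₀ + τ) ms

end Crest.Agent.Box
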