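import Mathlib
import Crest.Agent.Helper2.QComp

/-!
# Layer 0 for S0170: computability of rational arithmetic

`ℚ` carries the `Primcodable` structure coming from `Denumerable ℚ`
(`Denumerable.ofEncodableOfInfinite`).  All statements are about Mathlib's `Computable`.
The core (numerator/denominator extraction and fraction formation for the rank coding) is in
`Crest.Agent.Helper2.QComp`; this file restates it with the agreed interface.
-/

set_option autoImplicit false

namespace Crest.Agent.Box

open Crest.Agent.Helper2 in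
theorem comp_rat_num : Computable (fun q : ℚ => q.num) := by
  refine Computable.encode_iff.1 ?_
  refine QComp.computable_of_base (fun q : ℚ => Encodable.encode q.num) (fun k => k.unpair.1)
    (Primrec.fst.comp Primrec.unpair).to_comp fun q => ?_
  rw [QComp.base_eq, Nat.unpair_pair]

open Crest.Agent.Helper2 in
theorem comp_rat_den : Computable (fun q : ℚ => q.den) := QComp.rat_den

open Crest.Agent.Helper2 in
theorem comp_int_toNat : Computable (fun z : ℤ => z.toNat) := by
  have h : Computable (fun z : ℤ => QComp.zpos (Encodable.encode z)) :=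
    QComp.primrec_zpos.to_comp.comp Computable.encode
  exact h.of_eq fun z => QComp.zpos_encode z

open Crest.Agent.Helper2 in
theorem comp_int_neg_toNat : Computable (fun z : ℤ => (-z).toNat) := by
  have h : Computable (fun z : ℤ => QComp.zneg (Encodable.encode z)) :=
    QComp.primrec_zneg.to_comp.comp Computable.encode
  exact h.of_eq fun z => QComp.zneg_encode z

open Crest.Agent.Helper2 in
theorem comp_rat_divInt : Computable₂ (fun (z : ℤ) (d : ℕ) => (z : ℚ) / (d : ℚ)) := by
  have hG : Computable (fun x : ℤ × ℕ => (x.1.toNat, (-x.1).toNat, x.2)) :=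
    (comp_int_toNat.comp Computable.fst).pair
      ((comp_int_neg_toNat.comp Computable.fst).pair Computable.snd)
  have h := QComp.rat_mk.comp hG
  refine h.of_eq fun x => ?_
  have h1 : ((x.1.toNat : ℤ) - ((-x.1).toNat : ℤ)) = x.1 := Int.toNat_sub_toNat_neg x.1
  have h2 : ((x.1.toNat : ℚ) - ((-x.1).toNat : ℚ)) = (x.1 : ℚ) := by exact_mod_cast h1
  simp only
  rw [h2]

open Crest.Agent.Helper2 in
theorem comp_rat_natCast : Computable (fun n : ℕ => (n : ℚ)) := QComp.rat_natCast

theorem comp_rat_intCast : Computable (fun z : ℤ => (z : ℚ)) := by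
  have h : Computable (fun z : ℤ => (z : ℚ) / ((1 : ℕ) : ℚ)) :=
    comp_rat_divInt.comp Computable.id (Computable.const 1)
  exact h.of_eq fun z => by simp

open Crest.Agent.Helper2 in
theorem comp_rat_add : Computable₂ ((· + ·) : ℚ → ℚ → ℚ) := QComp.rat_add

open Crest.Agent.Helper2 in
theorem comp_rat_sub : Computable₂ ((· - ·) : ℚ → ℚ → ℚ) := QComp.rat_sub

open Crest.Agent.Helper2 in
theorem comp_rat_mul : Computable₂ ((· * ·) : ℚ → ℚ → ℚ) := QComp.rat_mul

open Crest.Agent.Helper2 in
theorem comp_rat_div : Computable₂ ((· / ·) : ℚ → ℚ → ℚ) := QComp.rat_div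

open Crest.Agent.Helper2 in
theorem comp_rat_neg : Computable (fun q : ℚ => -q) := QComp.rat_neg

theorem comp_rat_pow : Computable₂ (fun (q : ℚ) (n : ℕ) => q ^ n) := by
  have h : Computable (fun x : ℚ × ℕ =>
      Nat.rec (motive := fun _ => ℚ) (1 : ℚ) (fun (_ : ℕ) (IH : ℚ) => IH * x.1) x.2) :=
    Computable.nat_rec (f := fun x : ℚ × ℕ => x.2) (g := fun _ => (1 : ℚ))
      (h := fun x p => p.2 * x.1) Computable.snd (Computable.const 1)
      (comp_rat_mul.comp (Computable.snd.comp Computable.snd) (Computable.fst.comp Computable.fst))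
  refine h.of_eq fun x => ?_
  obtain ⟨q, n⟩ := x
  show Nat.rec (motive := fun _ => ℚ) (1 : ℚ) (fun (_ : ℕ) (IH : ℚ) => IH * q) n = q ^ n
  induction n with
  | zero => simp
  | succ n ih => simp only [ih, pow_succ]

open Crest.Agent.Helper2 in
theorem comp_rat_le : Computable₂ (fun (q r : ℚ) => decide (q ≤ r)) := QComp.rat_le

theorem comp_rat_max : Computable₂ (max : ℚ → ℚ → ℚ) := by
  have h : Computable (fun x : ℚ × ℚ => bif decide (x.1 ≤ x.2) then x.2 else x.1) :=
    Computable.cond (comp_rat_le.comp Computable.fst Computable.snd) Computable.snd Computable.fst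
  refine h.of_eq fun x => ?_
  show (bif decide (x.1 ≤ x.2) then x.2 else x.1) = max x.1 x.2
  by_cases hx : x.1 ≤ x.2
  · simp [hx]
  · simp [hx, max_eq_left (le_of_not_ge hx)]

theorem comp_rat_abs : Computable (fun q : ℚ => |q|) := by
  have h : Computable (fun q : ℚ => max q (-q)) :=
    comp_rat_max.comp Computable.id comp_rat_neg
  exact h.of_eq fun q => rfl

open Crest.Agent.Helper2 in
/-- A computable natural upper bound for `|q|`. -/
theorem comp_rat_natAbs : Computable (fun q : ℚ => q.num.natAbs) := QComp.rat_natAbs_num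

open Crest.Agent.Helper2 in
theorem abs_le_natAbs_num (q : ℚ) : |q| ≤ (q.num.natAbs : ℚ) := QComp.abs_le_natAbs_num q

/-- Finite sums of a computable family are computable. -/
theorem comp_rat_sum {α : Type*} [Primcodable α] {f : α → ℕ → ℚ} (hf : Computable₂ f) :
    Computable₂ (fun (a : α) (n : ℕ) => ∑ i ∈ Finset.range n, f a i) := by
  have h : Computable (fun x : α × ℕ =>
      Nat.rec (motive := fun _ => ℚ) (0 : ℚ) (fun (y : ℕ) (IH : ℚ) => IH + f x.1 y) x.2) :=
    Computable.nat_rec (f := fun x : α × ℕ => x.2) (g := fun _ => (0 : ℚ))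
      (h := fun x p => p.2 + f x.1 p.1) Computable.snd (Computable.const 0)
      (comp_rat_add.comp (Computable.snd.comp Computable.snd)
        (hf.comp (Computable.fst.comp Computable.fst) (Computable.fst.comp Computable.snd)))
  refine h.of_eq fun x => ?_
  obtain ⟨a, n⟩ := x
  show Nat.rec (motive := fun _ => ℚ) (0 : ℚ) (fun (y : ℕ) (IH : ℚ) => IH + f a y) n
    = ∑ i ∈ Finset.range n, f a i
  induction n with
  | zero => simp
  | succ n ih => simp only [ih, Finset.sum_range_succ]

theorem primrec_nat_factorial : Primrec Nat.factorial := by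
  have h : Primrec (Nat.rec (motive := fun _ => ℕ) 1 (fun (n : ℕ) (IH : ℕ) => (n + 1) * IH)) :=
    Primrec.nat_rec₁ 1 (Primrec.nat_mul.comp (Primrec.succ.comp Primrec.fst) Primrec.snd)
  refine h.of_eq fun n => ?_
  induction n with
  | zero => rfl
  | succ n ih => simp only [ih, Nat.factorial_succ]

theorem comp_nat_factorial : Computable Nat.factorial := primrec_nat_factorial.to_comp

theorem primrec_nat_choose : Primrec₂ Nat.choose := by
  have h : Primrec (fun x : ℕ × ℕ =>
      if x.2 ≤ x.1 then x.1.factorial / (x.2.factorial * (x.1 - x.2).factorial) else 0) :=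
    Primrec.ite (Primrec.nat_le.comp Primrec.snd Primrec.fst)
      (Primrec.nat_div.comp (primrec_nat_factorial.comp Primrec.fst)
        (Primrec.nat_mul.comp (primrec_nat_factorial.comp Primrec.snd)
          (primrec_nat_factorial.comp (Primrec.nat_sub.comp Primrec.fst Primrec.snd))))
      (Primrec.const 0)
  refine h.of_eq fun x => ?_
  obtain ⟨n, k⟩ := x
  show (if k ≤ n then n.factorial / (k.factorial * (n - k).factorial) else 0) = n.choose k
  split_ifs with hk
  · exact (Nat.choose_eq_factorial_div_factorial hk).symm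
  · exact (Nat.choose_eq_zero_of_lt (not_le.mp hk)).symm

theorem comp_nat_choose : Computable₂ Nat.choose := primrec_nat_choose.to_comp

theorem primrec_nat_pow : Primrec₂ ((· ^ ·) : ℕ → ℕ → ℕ) :=
  Primrec₂.unpaired'.1 Nat.Primrec.pow

theorem comp_nat_pow : Computable₂ ((· ^ ·) : ℕ → ℕ → ℕ) := primrec_nat_pow.to_comp

end Crest.Agent.Box
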