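import Crest.Agent.Box.Defs
import Crest.Agent.Box.QComp

/-!
# Layer 1 for S0170: closure properties of effective one-variable functions
-/

set_option autoImplicit false
open scoped ContDiff

namespace Crest.Agent.Box

/-! ### Helpers -/

private theorem Eff1.cd {f : ℝ → ℝ} (hf : Eff1 f) (n : ℕ) : ContDiff ℝ n f :=
  hf.smooth.of_le (by exact_mod_cast le_top)

private theorem Eff1.cda {f : ℝ → ℝ} (hf : Eff1 f) (n : ℕ) (x : ℝ) : ContDiffAt ℝ n f x :=
  (hf.cd n).contDiffAt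

private theorem Eff1.bound_pos {f : ℝ → ℝ} (hf : Eff1 f) :
    ∃ K : ℕ, 1 ≤ K ∧ ∀ (r : ℕ) (x : ℝ), |iteratedDeriv r f x| ≤ (K : ℝ) ^ ((r + 1) ^ 2) := by
  obtain ⟨K, hK⟩ := hf.bound
  refine ⟨K + 1, by omega, fun r x => (hK r x).trans ?_⟩
  push_cast
  exact pow_le_pow_left₀ (Nat.cast_nonneg K) (by linarith) _

/-- `|c| ≤ natAbs (num c)` for a rational `c`. -/
private theorem abs_ratCast_le_natAbs (c : ℚ) : |(c : ℝ)| ≤ (c.num.natAbs : ℝ) := by
  have h1 : (c : ℝ) = (c.num : ℝ) / (c.den : ℝ) := Rat.cast_def c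
  have hden : (1 : ℝ) ≤ (c.den : ℝ) := by exact_mod_cast c.pos
  have h2 : ((c.num.natAbs : ℕ) : ℝ) = |(c.num : ℝ)| := by
    rw [← Int.cast_abs, Int.abs_eq_natAbs]; simp
  rw [h1, abs_div, h2, abs_of_pos (by linarith : (0 : ℝ) < (c.den : ℝ))]
  exact div_le_self (abs_nonneg _) hden

private theorem abs_ratCast_le_natAbs_succ (c : ℚ) : |(c : ℝ)| ≤ ((c.num.natAbs + 1 : ℕ) : ℝ) := by
  have := abs_ratCast_le_natAbs c
  push_cast
  linarith

/-- `K ≤ K ^ ((r+1)^2)` for a natural `K ≥ 1`. -/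
private theorem le_pow_sq {K : ℕ} (hK : 1 ≤ K) (r : ℕ) : (K : ℝ) ≤ (K : ℝ) ^ ((r + 1) ^ 2) :=
  le_self_pow₀ (by exact_mod_cast hK) (by positivity)

private theorem one_le_pow_sq {K : ℕ} (hK : 1 ≤ K) (r : ℕ) : (1 : ℝ) ≤ (K : ℝ) ^ ((r + 1) ^ 2) :=
  one_le_pow₀ (by exact_mod_cast hK)

private theorem pow_sq_mono {K : ℕ} (hK : 1 ≤ K) {i r : ℕ} (hi : i ≤ r) :
    (K : ℝ) ^ ((i + 1) ^ 2) ≤ (K : ℝ) ^ ((r + 1) ^ 2) :=
  pow_le_pow_right₀ (by exact_mod_cast hK) (Nat.pow_le_pow_left (by omega) 2)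

private theorem half_prec (n : ℕ) : (1 : ℝ) / (((2 * n + 1 : ℕ) : ℝ) + 1) = 1 / ((n : ℝ) + 1) / 2 := by
  push_cast
  field_simp
  ring

/-- If `η ≤ 1 / (M * (n + 1))`-type precision is requested, it is achieved at index `M * (n+1)`. -/
private theorem prec_scale (M n : ℕ) (hM : 1 ≤ M) :
    (M : ℝ) * (1 / (((M * (n + 1) : ℕ) : ℝ) + 1)) ≤ 1 / ((n : ℝ) + 1) := by
  have hM' : (1 : ℝ) ≤ (M : ℝ) := by exact_mod_cast hM
  have hn : (0 : ℝ) < (n : ℝ) + 1 := by positivity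
  push_cast
  rw [mul_one_div, div_le_div_iff₀ (by positivity) hn]
  nlinarith

private theorem cadd : Computable₂ ((· + ·) : ℕ → ℕ → ℕ) := Primrec.nat_add.to_comp
private theorem cmul : Computable₂ ((· * ·) : ℕ → ℕ → ℕ) := Primrec.nat_mul.to_comp
private theorem csub : Computable₂ ((· - ·) : ℕ → ℕ → ℕ) := Primrec.nat_sub.to_comp

private theorem comp_q : Computable (fun p : ℕ × ℚ × ℕ => p.2.1) :=
  Computable.fst.comp Computable.snd
private theorem comp_n : Computable (fun p : ℕ × ℚ × ℕ => p.2.2) :=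
  Computable.snd.comp Computable.snd

/-! ### Closure lemmas -/

theorem Eff1.const (c : ℚ) : Eff1 (fun _ : ℝ => (c : ℝ)) := by
  refine ⟨contDiff_const, ⟨fun p => Nat.casesOn p.1 c (fun _ => 0), ?_, ?_⟩,
    ⟨c.num.natAbs + 1, ?_⟩⟩
  · exact Computable.nat_casesOn Computable.fst (Computable.const c)
      (Computable.const (0 : ℚ)).to₂
  · intro r q n
    rw [iteratedDeriv_const]
    have hn : (0 : ℝ) ≤ 1 / ((n : ℝ) + 1) := by positivity
    cases r with
    | zero => simpa using hn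
    | succ r => simpa using hn
  · intro r x
    rw [iteratedDeriv_const]
    have h1 := abs_ratCast_le_natAbs_succ c
    have h2 := le_pow_sq (K := c.num.natAbs + 1) (by omega) r
    split_ifs
    · exact h1.trans h2
    · rw [abs_zero]; positivity

theorem Eff1.add {f g : ℝ → ℝ} (hf : Eff1 f) (hg : Eff1 g) : Eff1 (fun y => f y + g y) := by
  obtain ⟨ef, hef, hef'⟩ := hf.approx
  obtain ⟨eg, heg, heg'⟩ := hg.approx
  obtain ⟨Kf, hKf1, hKf⟩ := hf.bound_pos
  obtain ⟨Kg, hKg1, hKg⟩ := hg.bound_pos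
  have hid : ∀ (r : ℕ) (x : ℝ), iteratedDeriv r (fun y => f y + g y) x
      = iteratedDeriv r f x + iteratedDeriv r g x :=
    fun r x => iteratedDeriv_fun_add (hf.cda r x) (hg.cda r x)
  have hN : Computable (fun p : ℕ × ℚ × ℕ => (p.1, p.2.1, 2 * p.2.2 + 1)) :=
    Computable.fst.pair (comp_q.pair
      (cadd.comp (cmul.comp (Computable.const 2) comp_n) (Computable.const 1)))
  refine ⟨hf.smooth.add hg.smooth,
    ⟨fun p => ef (p.1, p.2.1, 2 * p.2.2 + 1) + eg (p.1, p.2.1, 2 * p.2.2 + 1), ?_, ?_⟩,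
    ⟨Kf + Kg, ?_⟩⟩
  · exact comp_rat_add.comp (hef.comp hN) (heg.comp hN)
  · intro r q n
    have h1 := hef' r q (2 * n + 1)
    have h2 := heg' r q (2 * n + 1)
    rw [half_prec] at h1 h2
    rw [hid]
    push_cast
    have : iteratedDeriv r f (q : ℝ) + iteratedDeriv r g (q : ℝ)
        - ((ef (r, q, 2 * n + 1) : ℝ) + (eg (r, q, 2 * n + 1) : ℝ))
        = (iteratedDeriv r f (q : ℝ) - (ef (r, q, 2 * n + 1) : ℝ))
          + (iteratedDeriv r g (q : ℝ) - (eg (r, q, 2 * n + 1) : ℝ)) := by ring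
    rw [this]
    refine (abs_add_le _ _).trans ?_
    linarith
  · intro r x
    rw [hid]
    refine (abs_add_le _ _).trans ?_
    push_cast
    refine le_trans (add_le_add (hKf r x) (hKg r x)) ?_
    exact pow_add_pow_le (Nat.cast_nonneg _) (Nat.cast_nonneg _) (by positivity)

theorem Eff1.neg {f : ℝ → ℝ} (hf : Eff1 f) : Eff1 (fun y => - f y) := by
  obtain ⟨ef, hef, hef'⟩ := hf.approx
  obtain ⟨Kf, hKf⟩ := hf.bound
  refine ⟨hf.smooth.neg, ⟨fun p => - ef p, comp_rat_neg.comp hef, ?_⟩, ⟨Kf, ?_⟩⟩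
  · intro r q n
    rw [iteratedDeriv_fun_neg]
    push_cast
    have : - iteratedDeriv r f (q : ℝ) - - (ef (r, q, n) : ℝ)
        = - (iteratedDeriv r f (q : ℝ) - (ef (r, q, n) : ℝ)) := by ring
    rw [this, abs_neg]
    exact hef' r q n
  · intro r x
    rw [iteratedDeriv_fun_neg, abs_neg]
    exact hKf r x

theorem Eff1.const_mul (c : ℚ) {f : ℝ → ℝ} (hf : Eff1 f) : Eff1 (fun y => (c : ℝ) * f y) := by
  obtain ⟨ef, hef, hef'⟩ := hf.approx
  obtain ⟨Kf, hKf1, hKf⟩ := hf.bound_pos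
  set M : ℕ := c.num.natAbs + 1 with hM
  have hM1 : 1 ≤ M := by omega
  have hcM : |(c : ℝ)| ≤ (M : ℝ) := abs_ratCast_le_natAbs_succ c
  have hN : Computable (fun p : ℕ × ℚ × ℕ => (p.1, p.2.1, M * (p.2.2 + 1))) :=
    Computable.fst.pair (comp_q.pair
      (cmul.comp (Computable.const M) (cadd.comp comp_n (Computable.const 1))))
  refine ⟨contDiff_const.mul hf.smooth,
    ⟨fun p => c * ef (p.1, p.2.1, M * (p.2.2 + 1)), ?_, ?_⟩, ⟨M * Kf, ?_⟩⟩
  · exact comp_rat_mul.comp (Computable.const c) (hef.comp hN)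
  · intro r q n
    rw [iteratedDeriv_const_mul_field]
    push_cast
    have h1 := hef' r q (M * (n + 1))
    have : (c : ℝ) * iteratedDeriv r f (q : ℝ) - (c : ℝ) * (ef (r, q, M * (n + 1)) : ℝ)
        = (c : ℝ) * (iteratedDeriv r f (q : ℝ) - (ef (r, q, M * (n + 1)) : ℝ)) := by ring
    rw [this, abs_mul]
    refine le_trans (mul_le_mul hcM h1 (abs_nonneg _) (Nat.cast_nonneg _)) ?_
    exact prec_scale M n hM1
  · intro r x
    rw [iteratedDeriv_const_mul_field, abs_mul]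
    push_cast
    rw [mul_pow]
    refine mul_le_mul (hcM.trans (le_pow_sq hM1 r)) (hKf r x) (abs_nonneg _) (by positivity)

/-- Rational affine reparametrisation. -/
theorem Eff1.comp_affine {f : ℝ → ℝ} (hf : Eff1 f) (l m : ℚ) :
    Eff1 (fun y => f ((l : ℝ) * y + (m : ℝ))) := by
  obtain ⟨ef, hef, hef'⟩ := hf.approx
  obtain ⟨Kf, hKf1, hKf⟩ := hf.bound_pos
  set M : ℕ := l.num.natAbs + 1 with hM
  have hM1 : 1 ≤ M := by omega
  have hM1' : (1 : ℝ) ≤ (M : ℝ) := by exact_mod_cast hM1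
  have hlM : |(l : ℝ)| ≤ (M : ℝ) := abs_ratCast_le_natAbs_succ l
  have hid : ∀ (r : ℕ) (x : ℝ), iteratedDeriv r (fun y => f ((l : ℝ) * y + (m : ℝ))) x
      = (l : ℝ) ^ r * iteratedDeriv r f ((l : ℝ) * x + (m : ℝ)) := by
    intro r x
    have hg : ContDiff ℝ r (fun z => f (z + (m : ℝ))) :=
      (hf.cd r).comp (contDiff_id.add contDiff_const)
    have h1 := iteratedDeriv_comp_const_mul hg (l : ℝ)
    have h2 := iteratedDeriv_comp_add_const r f (m : ℝ)
    have h3 := congrFun h1 x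
    rw [h2] at h3
    exact h3
  have hlr : ∀ r : ℕ, |(l : ℝ)| ^ r ≤ (M : ℝ) ^ r := fun r =>
    pow_le_pow_left₀ (abs_nonneg _) hlM r
  have hN : Computable (fun p : ℕ × ℚ × ℕ => (p.1, l * p.2.1 + m, M ^ p.1 * (p.2.2 + 1))) :=
    Computable.fst.pair
      ((comp_rat_add.comp (comp_rat_mul.comp (Computable.const l) comp_q) (Computable.const m)).pair
        (cmul.comp (comp_nat_pow.comp (Computable.const M) Computable.fst)
          (cadd.comp comp_n (Computable.const 1))))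
  refine ⟨hf.smooth.comp ((contDiff_const.mul contDiff_id).add contDiff_const),
    ⟨fun p => l ^ p.1 * ef (p.1, l * p.2.1 + m, M ^ p.1 * (p.2.2 + 1)), ?_, ?_⟩, ⟨M * Kf, ?_⟩⟩
  · exact comp_rat_mul.comp (comp_rat_pow.comp (Computable.const l) Computable.fst) (hef.comp hN)
  · intro r q n
    rw [hid]
    have h1 := hef' r (l * q + m) (M ^ r * (n + 1))
    push_cast at h1 ⊢
    have : (l : ℝ) ^ r * iteratedDeriv r f ((l : ℝ) * (q : ℝ) + (m : ℝ))
          - (l : ℝ) ^ r * (ef (r, l * q + m, M ^ r * (n + 1)) : ℝ)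
        = (l : ℝ) ^ r * (iteratedDeriv r f ((l : ℝ) * (q : ℝ) + (m : ℝ))
          - (ef (r, l * q + m, M ^ r * (n + 1)) : ℝ)) := by ring
    rw [this, abs_mul, abs_pow]
    refine le_trans (mul_le_mul (hlr r) h1 (abs_nonneg _) (by positivity)) ?_
    have h2 := prec_scale (M ^ r) n (Nat.one_le_pow _ _ (by omega))
    push_cast at h2
    exact h2
  · intro r x
    rw [hid, abs_mul, abs_pow]
    push_cast
    rw [mul_pow]
    have hr : r ≤ (r + 1) ^ 2 := by nlinarith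
    refine mul_le_mul ((hlr r).trans (pow_le_pow_right₀ hM1' hr)) (hKf r _) (abs_nonneg _)
      (by positivity)

theorem Eff1.deriv {f : ℝ → ℝ} (hf : Eff1 f) : Eff1 (deriv f) := by
  obtain ⟨ef, hef, hef'⟩ := hf.approx
  obtain ⟨Kf, hKf1, hKf⟩ := hf.bound_pos
  have hN : Computable (fun p : ℕ × ℚ × ℕ => (p.1 + 1, p.2.1, p.2.2)) :=
    (cadd.comp Computable.fst (Computable.const 1)).pair (comp_q.pair comp_n)
  refine ⟨ContDiff.deriv' hf.smooth,
    ⟨fun p => ef (p.1 + 1, p.2.1, p.2.2), hef.comp hN, ?_⟩, ⟨Kf ^ 4, ?_⟩⟩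
  · intro r q n
    rw [← iteratedDeriv_succ']
    exact hef' (r + 1) q n
  · intro r x
    rw [← iteratedDeriv_succ']
    refine (hKf (r + 1) x).trans ?_
    push_cast
    rw [← pow_mul]
    refine pow_le_pow_right₀ (by exact_mod_cast hKf1) ?_
    calc (r + 1 + 1) ^ 2 ≤ (2 * (r + 1)) ^ 2 := Nat.pow_le_pow_left (by omega) 2
      _ = 4 * (r + 1) ^ 2 := by ring

/-! ### Products -/

/-- Error of a product of approximations. -/
private theorem prod_err {a a' b b' A B η : ℝ} (ha : |a| ≤ A) (hb : |b| ≤ B) (ha' : |a - a'| ≤ η)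
    (hb' : |b - b'| ≤ η) (hη : η ≤ 1) (hA : 0 ≤ A) :
    |a * b - a' * b'| ≤ η * (A + B + 1) := by
  have hη0 : 0 ≤ η := (abs_nonneg _).trans ha'
  have hb'' : |b'| ≤ B + 1 := by
    have : |b'| ≤ |b| + |b - b'| := by
      have h := abs_sub_abs_le_abs_sub b' b
      rw [abs_sub_comm b' b] at h
      linarith
    linarith
  have h1 : a * b - a' * b' = a * (b - b') + (a - a') * b' := by ring
  rw [h1]
  refine (abs_add_le _ _).trans ?_
  rw [abs_mul, abs_mul]
  have h2 : |a| * |b - b'| ≤ A * η := mul_le_mul ha hb' (abs_nonneg _) hA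
  have h3 : |a - a'| * |b'| ≤ η * (B + 1) :=
    mul_le_mul ha' hb'' (abs_nonneg _) hη0
  nlinarith

private theorem sum_choose_real (r : ℕ) :
    ∑ i ∈ Finset.range (r + 1), ((r.choose i : ℕ) : ℝ) = (2 : ℝ) ^ r := by
  have := Nat.sum_range_choose r
  exact_mod_cast this

theorem Eff1.mul {f g : ℝ → ℝ} (hf : Eff1 f) (hg : Eff1 g) : Eff1 (fun y => f y * g y) := by
  obtain ⟨ef, hef, hef'⟩ := hf.approx
  obtain ⟨eg, heg, heg'⟩ := hg.approx
  obtain ⟨Kf, hKf1, hKf⟩ := hf.bound_pos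
  obtain ⟨Kg, hKg1, hKg⟩ := hg.bound_pos
  have hid : ∀ (r : ℕ) (x : ℝ), iteratedDeriv r (fun y => f y * g y) x
      = ∑ i ∈ Finset.range (r + 1),
          ((r.choose i : ℕ) : ℝ) * iteratedDeriv i f x * iteratedDeriv (r - i) g x :=
    fun r x => iteratedDeriv_fun_mul (hf.cda r x) (hg.cda r x)
  -- the precision index
  let N : ℕ × ℚ × ℕ → ℕ := fun p =>
    2 ^ p.1 * (Kf ^ ((p.1 + 1) ^ 2) + Kg ^ ((p.1 + 1) ^ 2) + 1) * (p.2.2 + 1)
  have hsq : Computable (fun p : ℕ × ℚ × ℕ => (p.1 + 1) ^ 2) :=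
    comp_nat_pow.comp (cadd.comp Computable.fst (Computable.const 1)) (Computable.const 2)
  have hNc : Computable N :=
    cmul.comp
      (cmul.comp (comp_nat_pow.comp (Computable.const 2) Computable.fst)
        (cadd.comp (cadd.comp (comp_nat_pow.comp (Computable.const Kf) hsq)
          (comp_nat_pow.comp (Computable.const Kg) hsq)) (Computable.const 1)))
      (cadd.comp comp_n (Computable.const 1))
  -- the summand
  let F : ℕ × ℚ × ℕ → ℕ → ℚ := fun p i =>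
    ((p.1.choose i : ℕ) : ℚ) * ef (i, p.2.1, N p) * eg (p.1 - i, p.2.1, N p)
  have hFc : Computable₂ F := by
    have h1 : Computable (fun x : (ℕ × ℚ × ℕ) × ℕ => ((x.1.1.choose x.2 : ℕ) : ℚ)) :=
      comp_rat_natCast.comp
        (comp_nat_choose.comp (Computable.fst.comp Computable.fst) Computable.snd)
    have h2 : Computable (fun x : (ℕ × ℚ × ℕ) × ℕ => ef (x.2, x.1.2.1, N x.1)) :=
      hef.comp (Computable.snd.pair ((comp_q.comp Computable.fst).pair
        (hNc.comp Computable.fst)))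
    have h3 : Computable (fun x : (ℕ × ℚ × ℕ) × ℕ => eg (x.1.1 - x.2, x.1.2.1, N x.1)) :=
      heg.comp ((csub.comp (Computable.fst.comp Computable.fst) Computable.snd).pair
        ((comp_q.comp Computable.fst).pair (hNc.comp Computable.fst)))
    exact comp_rat_mul.comp (comp_rat_mul.comp h1 h2) h3
  refine ⟨hf.smooth.mul hg.smooth,
    ⟨fun p => ∑ i ∈ Finset.range (p.1 + 1), F p i, ?_, ?_⟩, ⟨2 * Kf * Kg, ?_⟩⟩
  · exact (comp_rat_sum hFc).comp Computable.id (cadd.comp Computable.fst (Computable.const 1))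
  · intro r q n
    rw [hid]
    set Nn : ℕ := N (r, q, n) with hNn
    set η : ℝ := 1 / ((Nn : ℝ) + 1) with hη
    set A : ℝ := (Kf : ℝ) ^ ((r + 1) ^ 2) with hA
    set B : ℝ := (Kg : ℝ) ^ ((r + 1) ^ 2) with hB
    have hA1 : 1 ≤ A := one_le_pow_sq hKf1 r
    have hB1 : 1 ≤ B := one_le_pow_sq hKg1 r
    have hη1 : η ≤ 1 := by
      rw [hη, div_le_one (by positivity)]
      have : (0 : ℝ) ≤ (Nn : ℝ) := Nat.cast_nonneg _
      linarith
    have hNval : (Nn : ℝ) = 2 ^ r * (A + B + 1) * ((n : ℝ) + 1) := by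
      rw [hNn]; simp only [N]; push_cast; rfl
    have hcast : ((∑ i ∈ Finset.range (r + 1), F (r, q, n) i : ℚ) : ℝ)
        = ∑ i ∈ Finset.range (r + 1),
          ((r.choose i : ℕ) : ℝ) * (ef (i, q, Nn) : ℝ) * (eg (r - i, q, Nn) : ℝ) := by
      rw [Rat.cast_sum]
      refine Finset.sum_congr rfl (fun i _ => ?_)
      show ((((r.choose i : ℕ) : ℚ) * ef (i, q, Nn) * eg (r - i, q, Nn) : ℚ) : ℝ) = _
      push_cast
      rfl
    rw [hcast, ← Finset.sum_sub_distrib]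
    refine (Finset.abs_sum_le_sum_abs _ _).trans ?_
    have hterm : ∀ i ∈ Finset.range (r + 1),
        |((r.choose i : ℕ) : ℝ) * iteratedDeriv i f (q : ℝ) * iteratedDeriv (r - i) g (q : ℝ)
          - ((r.choose i : ℕ) : ℝ) * (ef (i, q, Nn) : ℝ) * (eg (r - i, q, Nn) : ℝ)|
        ≤ ((r.choose i : ℕ) : ℝ) * (η * (A + B + 1)) := by
      intro i hi
      have hir : i ≤ r := by
        have := Finset.mem_range.mp hi
        omega
      have e1 : ((r.choose i : ℕ) : ℝ) * iteratedDeriv i f (q : ℝ)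
            * iteratedDeriv (r - i) g (q : ℝ)
          - ((r.choose i : ℕ) : ℝ) * (ef (i, q, Nn) : ℝ) * (eg (r - i, q, Nn) : ℝ)
          = ((r.choose i : ℕ) : ℝ) * (iteratedDeriv i f (q : ℝ) * iteratedDeriv (r - i) g (q : ℝ)
            - (ef (i, q, Nn) : ℝ) * (eg (r - i, q, Nn) : ℝ)) := by ring
      rw [e1, abs_mul, Nat.abs_cast]
      refine mul_le_mul_of_nonneg_left ?_ (Nat.cast_nonneg _)
      exact prod_err ((hKf i _).trans (pow_sq_mono hKf1 hir))
        ((hKg (r - i) _).trans (pow_sq_mono hKg1 (Nat.sub_le r i)))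
        (hef' i q Nn) (heg' (r - i) q Nn) hη1 (by linarith)
    refine (Finset.sum_le_sum hterm).trans ?_
    rw [← Finset.sum_mul, sum_choose_real, hη, hNval]
    have hn : (0 : ℝ) < (n : ℝ) + 1 := by positivity
    have hpos : (0 : ℝ) < 2 ^ r * (A + B + 1) := by positivity
    rw [show (2 : ℝ) ^ r * (1 / (2 ^ r * (A + B + 1) * ((n : ℝ) + 1) + 1) * (A + B + 1))
        = (2 ^ r * (A + B + 1)) / (2 ^ r * (A + B + 1) * ((n : ℝ) + 1) + 1) by ring]
    rw [div_le_div_iff₀ (by positivity) hn]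
    nlinarith
  · intro r x
    rw [hid]
    refine (Finset.abs_sum_le_sum_abs _ _).trans ?_
    set A : ℝ := (Kf : ℝ) ^ ((r + 1) ^ 2) with hA
    set B : ℝ := (Kg : ℝ) ^ ((r + 1) ^ 2) with hB
    have hA1 : 1 ≤ A := one_le_pow_sq hKf1 r
    have hB1 : 1 ≤ B := one_le_pow_sq hKg1 r
    have hterm : ∀ i ∈ Finset.range (r + 1),
        |((r.choose i : ℕ) : ℝ) * iteratedDeriv i f x * iteratedDeriv (r - i) g x|
        ≤ ((r.choose i : ℕ) : ℝ) * (A * B) := by
      intro i hi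
      have hir : i ≤ r := by
        have := Finset.mem_range.mp hi
        omega
      rw [mul_assoc, abs_mul, Nat.abs_cast, abs_mul]
      refine mul_le_mul_of_nonneg_left ?_ (Nat.cast_nonneg _)
      exact mul_le_mul ((hKf i _).trans (pow_sq_mono hKf1 hir))
        ((hKg (r - i) _).trans (pow_sq_mono hKg1 (Nat.sub_le r i))) (abs_nonneg _) (by linarith)
    refine (Finset.sum_le_sum hterm).trans ?_
    rw [← Finset.sum_mul, sum_choose_real]
    push_cast
    rw [mul_pow, mul_pow]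
    have h2 : (2 : ℝ) ^ r ≤ (2 : ℝ) ^ ((r + 1) ^ 2) :=
      pow_le_pow_right₀ (by norm_num) (by nlinarith)
    have hAB : 0 ≤ A * B := by positivity
    calc (2 : ℝ) ^ r * (A * B) ≤ (2 : ℝ) ^ ((r + 1) ^ 2) * (A * B) :=
          mul_le_mul_of_nonneg_right h2 hAB
      _ = (2 : ℝ) ^ ((r + 1) ^ 2) * A * B := by ring

/-! ### Multiplication by the variable -/

private theorem iteratedDeriv_eq_zero_of_abs_gt {f : ℝ → ℝ} {R : ℝ} (hR : ∀ y : ℝ, R ≤ |y| → f y = 0)
    (j : ℕ) {x : ℝ} (hx : R < |x|) : iteratedDeriv j f x = 0 := by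
  have hopen : IsOpen {y : ℝ | R < |y|} := isOpen_lt continuous_const continuous_abs
  have h : f =ᶠ[nhds x] fun _ => (0 : ℝ) := by
    filter_upwards [hopen.mem_nhds hx] with y hy using hR y (le_of_lt hy)
  rw [h.iteratedDeriv_eq j]
  exact iteratedDeriv_fun_const_zero

/-- The derivatives of the identity at a rational point. -/
private def idDer (i : ℕ) (q : ℚ) : ℚ := Nat.casesOn i q (fun j => Nat.casesOn j 1 (fun _ => 0))

private theorem idDer_cast (i : ℕ) (q : ℚ) :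
    ((idDer i q : ℚ) : ℝ) = iteratedDeriv i (fun y : ℝ => y) (q : ℝ) := by
  rw [iteratedDeriv_fun_id]
  rcases i with _ | _ | i <;> simp [idDer]

private theorem abs_iteratedDeriv_id_le (i : ℕ) (x : ℝ) :
    |iteratedDeriv i (fun y : ℝ => y) x| ≤ |x| + 1 := by
  rw [iteratedDeriv_fun_id]
  have := abs_nonneg x
  split_ifs
  · linarith
  · rw [abs_one]; linarith
  · rw [abs_zero]; linarith

/-- Multiplication by the variable, for a function vanishing outside `[-R, R]`. -/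
theorem Eff1.id_mul {f : ℝ → ℝ} (hf : Eff1 f) (R : ℚ) (hR : ∀ y : ℝ, (R : ℝ) ≤ |y| → f y = 0) :
    Eff1 (fun y => y * f y) := by
  obtain ⟨ef, hef, hef'⟩ := hf.approx
  obtain ⟨Kf, hKf1, hKf⟩ := hf.bound_pos
  have hidc : ∀ (n : ℕ) (x : ℝ), ContDiffAt ℝ n (fun y : ℝ => y) x :=
    fun n x => contDiff_id.contDiffAt
  have hid : ∀ (r : ℕ) (x : ℝ), iteratedDeriv r (fun y => y * f y) x
      = ∑ i ∈ Finset.range (r + 1),
          ((r.choose i : ℕ) : ℝ) * iteratedDeriv i (fun y : ℝ => y) x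
            * iteratedDeriv (r - i) f x :=
    fun r x => iteratedDeriv_fun_mul (hidc r x) (hf.cda r x)
  -- the precision index
  let N : ℕ × ℚ × ℕ → ℕ := fun p => 2 ^ p.1 * (p.2.1.num.natAbs + 2) * (p.2.2 + 1)
  have hNc : Computable N :=
    cmul.comp
      (cmul.comp (comp_nat_pow.comp (Computable.const 2) Computable.fst)
        (cadd.comp (comp_rat_natAbs.comp comp_q) (Computable.const 2)))
      (cadd.comp comp_n (Computable.const 1))
  -- the summand
  let F : ℕ × ℚ × ℕ → ℕ → ℚ := fun p i =>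
    ((p.1.choose i : ℕ) : ℚ) * idDer i p.2.1 * ef (p.1 - i, p.2.1, N p)
  have hFc : Computable₂ F := by
    have h1 : Computable (fun x : (ℕ × ℚ × ℕ) × ℕ => ((x.1.1.choose x.2 : ℕ) : ℚ)) :=
      comp_rat_natCast.comp
        (comp_nat_choose.comp (Computable.fst.comp Computable.fst) Computable.snd)
    have h2 : Computable (fun x : (ℕ × ℚ × ℕ) × ℕ => idDer x.2 x.1.2.1) := by
      have hin : Computable₂ (fun (_ : (ℕ × ℚ × ℕ) × ℕ) (j : ℕ) =>
          (Nat.casesOn j 1 (fun _ => 0) : ℚ)) :=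
        Computable.nat_casesOn Computable.snd (Computable.const (1 : ℚ))
          (Computable.const (0 : ℚ)).to₂
      exact Computable.nat_casesOn Computable.snd (comp_q.comp Computable.fst) hin
    have h3 : Computable (fun x : (ℕ × ℚ × ℕ) × ℕ => ef (x.1.1 - x.2, x.1.2.1, N x.1)) :=
      hef.comp ((csub.comp (Computable.fst.comp Computable.fst) Computable.snd).pair
        ((comp_q.comp Computable.fst).pair (hNc.comp Computable.fst)))
    exact comp_rat_mul.comp (comp_rat_mul.comp h1 h2) h3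
  set Rn : ℕ := R.num.natAbs + 1 with hRn
  have hRRn : |(R : ℝ)| ≤ (Rn : ℝ) := abs_ratCast_le_natAbs_succ R
  refine ⟨contDiff_id.mul hf.smooth,
    ⟨fun p => ∑ i ∈ Finset.range (p.1 + 1), F p i, ?_, ?_⟩, ⟨2 * (Rn + 1) * Kf, ?_⟩⟩
  · exact (comp_rat_sum hFc).comp Computable.id (cadd.comp Computable.fst (Computable.const 1))
  · intro r q n
    rw [hid]
    set Nn : ℕ := N (r, q, n) with hNn
    set η : ℝ := 1 / ((Nn : ℝ) + 1) with hη
    set Q : ℝ := ((q.num.natAbs : ℕ) : ℝ) + 2 with hQ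
    have hqQ : |(q : ℝ)| + 1 ≤ Q := by
      have := abs_ratCast_le_natAbs q
      rw [hQ]; linarith
    have hη0 : 0 ≤ η := by rw [hη]; positivity
    have hNval : (Nn : ℝ) = 2 ^ r * Q * ((n : ℝ) + 1) := by
      rw [hNn]; simp only [N]; push_cast; rfl
    have hcast : ((∑ i ∈ Finset.range (r + 1), F (r, q, n) i : ℚ) : ℝ)
        = ∑ i ∈ Finset.range (r + 1),
          ((r.choose i : ℕ) : ℝ) * iteratedDeriv i (fun y : ℝ => y) (q : ℝ)
            * (ef (r - i, q, Nn) : ℝ) := by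
      rw [Rat.cast_sum]
      refine Finset.sum_congr rfl (fun i _ => ?_)
      show ((((r.choose i : ℕ) : ℚ) * idDer i q * ef (r - i, q, Nn) : ℚ) : ℝ) = _
      push_cast
      rw [idDer_cast]
    rw [hcast, ← Finset.sum_sub_distrib]
    refine (Finset.abs_sum_le_sum_abs _ _).trans ?_
    have hterm : ∀ i ∈ Finset.range (r + 1),
        |((r.choose i : ℕ) : ℝ) * iteratedDeriv i (fun y : ℝ => y) (q : ℝ)
            * iteratedDeriv (r - i) f (q : ℝ)
          - ((r.choose i : ℕ) : ℝ) * iteratedDeriv i (fun y : ℝ => y) (q : ℝ)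
            * (ef (r - i, q, Nn) : ℝ)|
        ≤ ((r.choose i : ℕ) : ℝ) * (Q * η) := by
      intro i _
      have e1 : ((r.choose i : ℕ) : ℝ) * iteratedDeriv i (fun y : ℝ => y) (q : ℝ)
            * iteratedDeriv (r - i) f (q : ℝ)
          - ((r.choose i : ℕ) : ℝ) * iteratedDeriv i (fun y : ℝ => y) (q : ℝ)
            * (ef (r - i, q, Nn) : ℝ)
          = ((r.choose i : ℕ) : ℝ) * (iteratedDeriv i (fun y : ℝ => y) (q : ℝ)
            * (iteratedDeriv (r - i) f (q : ℝ) - (ef (r - i, q, Nn) : ℝ))) := by ring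
      rw [e1, abs_mul, Nat.abs_cast, abs_mul]
      refine mul_le_mul_of_nonneg_left ?_ (Nat.cast_nonneg _)
      exact mul_le_mul ((abs_iteratedDeriv_id_le i _).trans hqQ) (hef' (r - i) q Nn)
        (abs_nonneg _) (by linarith [abs_nonneg (q : ℝ)])
    refine (Finset.sum_le_sum hterm).trans ?_
    rw [← Finset.sum_mul, sum_choose_real, hη, hNval]
    have hn : (0 : ℝ) < (n : ℝ) + 1 := by positivity
    have hQpos : (0 : ℝ) < Q := by rw [hQ]; positivity
    have hpos : (0 : ℝ) < 2 ^ r * Q := by positivity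
    rw [show (2 : ℝ) ^ r * (Q * (1 / (2 ^ r * Q * ((n : ℝ) + 1) + 1)))
        = (2 ^ r * Q) / (2 ^ r * Q * ((n : ℝ) + 1) + 1) by ring]
    rw [div_le_div_iff₀ (by positivity) hn]
    nlinarith
  · intro r x
    set A : ℝ := (Kf : ℝ) ^ ((r + 1) ^ 2) with hA
    have hA1 : 1 ≤ A := one_le_pow_sq hKf1 r
    have hgoal0 : (0 : ℝ) ≤ ((2 * (Rn + 1) * Kf : ℕ) : ℝ) ^ ((r + 1) ^ 2) := by positivity
    rw [hid]
    by_cases hx : |x| ≤ (Rn : ℝ)
    · refine (Finset.abs_sum_le_sum_abs _ _).trans ?_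
      have hterm : ∀ i ∈ Finset.range (r + 1),
          |((r.choose i : ℕ) : ℝ) * iteratedDeriv i (fun y : ℝ => y) x
            * iteratedDeriv (r - i) f x|
          ≤ ((r.choose i : ℕ) : ℝ) * (((Rn : ℝ) + 1) * A) := by
        intro i _
        rw [mul_assoc, abs_mul, Nat.abs_cast, abs_mul]
        refine mul_le_mul_of_nonneg_left ?_ (Nat.cast_nonneg _)
        exact mul_le_mul ((abs_iteratedDeriv_id_le i x).trans (by linarith))
          ((hKf (r - i) _).trans (pow_sq_mono hKf1 (Nat.sub_le r i))) (abs_nonneg _)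
          (by positivity)
      refine (Finset.sum_le_sum hterm).trans ?_
      rw [← Finset.sum_mul, sum_choose_real]
      push_cast
      rw [mul_pow, mul_pow]
      have h2 : (2 : ℝ) ^ r ≤ (2 : ℝ) ^ ((r + 1) ^ 2) :=
        pow_le_pow_right₀ (by norm_num) (by nlinarith)
      have h3 : (Rn : ℝ) + 1 ≤ ((Rn : ℝ) + 1) ^ ((r + 1) ^ 2) :=
        le_self_pow₀ (by linarith [(Nat.cast_nonneg Rn : (0 : ℝ) ≤ (Rn : ℝ))]) (by positivity)
      have hRA : 0 ≤ ((Rn : ℝ) + 1) * A := by positivity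
      calc (2 : ℝ) ^ r * (((Rn : ℝ) + 1) * A)
          ≤ (2 : ℝ) ^ ((r + 1) ^ 2) * (((Rn : ℝ) + 1) * A) :=
            mul_le_mul_of_nonneg_right h2 hRA
        _ ≤ (2 : ℝ) ^ ((r + 1) ^ 2) * (((Rn : ℝ) + 1) ^ ((r + 1) ^ 2) * A) := by
            refine mul_le_mul_of_nonneg_left ?_ (by positivity)
            exact mul_le_mul_of_nonneg_right h3 (by linarith)
        _ = (2 : ℝ) ^ ((r + 1) ^ 2) * ((Rn : ℝ) + 1) ^ ((r + 1) ^ 2) * A := by ring
    · push Not at hx
      have hx' : (R : ℝ) < |x| := lt_of_le_of_lt ((le_abs_self _).trans hRRn) hx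
      have hz : ∀ i ∈ Finset.range (r + 1),
          ((r.choose i : ℕ) : ℝ) * iteratedDeriv i (fun y : ℝ => y) x
            * iteratedDeriv (r - i) f x = 0 := by
        intro i _
        rw [iteratedDeriv_eq_zero_of_abs_gt hR (r - i) hx', mul_zero]
      rw [Finset.sum_eq_zero hz, abs_zero]
      exact hgoal0

/-! ### The one-variable building blocks of a move field -/

theorem eff1_cutoff {s : ℝ → ℝ} (hs : IsStep s) (lo hi δ : ℚ) (hδ : 0 < δ) :
    Eff1 (cutoff s lo hi δ) :=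
  Eff1.mul (hs.eff.comp_affine (1 / δ) ((δ - lo) / δ)) (hs.eff.comp_affine (-1 / δ) ((hi + δ) / δ))

/-- The cutoff vanishes far out. -/
private theorem cutoff_eq_zero {s : ℝ → ℝ} (hs : IsStep s) (lo hi δ : ℚ) (hδ : 0 < δ) (y : ℝ)
    (hy : ((|lo - δ| + |hi + δ| : ℚ) : ℝ) ≤ |y|) : cutoff s lo hi δ y = 0 := by
  have hδ' : (0 : ℝ) < (δ : ℝ) := by exact_mod_cast hδ
  push_cast at hy
  unfold cutoff
  rcases le_or_gt 0 y with h0 | h0
  · -- y ≥ hi + δ
    rw [abs_of_nonneg h0] at hy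
    have h1 : (hi : ℝ) + (δ : ℝ) ≤ y := by
      have := le_abs_self ((hi : ℝ) + (δ : ℝ))
      have := abs_nonneg ((lo : ℝ) - (δ : ℝ))
      linarith
    have h2 : ((-1 / δ : ℚ) : ℝ) * y + (((hi + δ) / δ : ℚ) : ℝ) ≤ 0 := by
      push_cast
      have : -1 / (δ : ℝ) * y + ((hi : ℝ) + (δ : ℝ)) / (δ : ℝ)
          = ((hi : ℝ) + (δ : ℝ) - y) / (δ : ℝ) := by ring
      rw [this]
      exact div_nonpos_of_nonpos_of_nonneg (by linarith) hδ'.le
    rw [hs.zero _ h2, mul_zero]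
  · -- y ≤ lo - δ
    rw [abs_of_neg h0] at hy
    have h1 : y ≤ (lo : ℝ) - (δ : ℝ) := by
      have := neg_abs_le ((lo : ℝ) - (δ : ℝ))
      have := abs_nonneg ((hi : ℝ) + (δ : ℝ))
      linarith
    have h2 : ((1 / δ : ℚ) : ℝ) * y + (((δ - lo) / δ : ℚ) : ℝ) ≤ 0 := by
      push_cast
      have : 1 / (δ : ℝ) * y + ((δ : ℝ) - (lo : ℝ)) / (δ : ℝ)
          = (y - ((lo : ℝ) - (δ : ℝ))) / (δ : ℝ) := by ring
      rw [this]
      exact div_nonpos_of_nonpos_of_nonneg (by linarith) hδ'.le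
    rw [hs.zero _ h2, zero_mul]

theorem eff1_gfun {s : ℝ → ℝ} (hs : IsStep s) (m : Move) : Eff1 (m.gfun s) := by
  set χ : ℝ → ℝ := cutoff s (m.lo m.j) (m.hi m.j) m.δ with hχ
  set R : ℚ := |m.lo m.j - m.δ| + |m.hi m.j + m.δ| with hR
  have e0 : Eff1 χ := eff1_cutoff hs _ _ _ m.hδ
  have z0 : ∀ y : ℝ, (R : ℝ) ≤ |y| → χ y = 0 :=
    fun y hy => cutoff_eq_zero hs _ _ _ m.hδ y hy
  have e1 : Eff1 (fun y => y * χ y) := e0.id_mul R z0
  have z1 : ∀ y : ℝ, (R : ℝ) ≤ |y| → y * χ y = 0 := fun y hy => by rw [z0 y hy, mul_zero]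
  have e2 : Eff1 (fun y => y * (y * χ y)) := e1.id_mul R z1
  have e3 := ((((e1.const_mul m.α).add (e2.const_mul (m.a / 2))).add
    (e1.const_mul (-(m.a * m.c)))).add (e0.const_mul (m.a * m.c ^ 2 / 2)))
  have heq : m.gfun s = fun y => (m.α : ℝ) * (y * χ y) + ((m.a / 2 : ℚ) : ℝ) * (y * (y * χ y))
      + ((-(m.a * m.c) : ℚ) : ℝ) * (y * χ y) + ((m.a * m.c ^ 2 / 2 : ℚ) : ℝ) * χ y := by
    funext y
    show m.pot y * m.chi s m.j y = _
    unfold Move.pot Move.chi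
    rw [← hχ]
    push_cast
    ring
  rw [heq]
  exact e3

theorem eff1_timeProfile {s : ℝ → ℝ} (hs : IsStep s) (t₀ τ : ℚ) (hτ : 0 < τ) :
    Eff1 (timeProfile s t₀ τ) :=
  Eff1.const_mul (1 / τ) (hs.eff.deriv.comp_affine (1 / τ) (-t₀ / τ))

end Crest.Agent.Box
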