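import Crest.Agent.Box.Defs
import Crest.Agent.Box.QComp

/-!
# Layer 1 for S0170 (helper9's part): `Eff1` is closed under rational affine reparametrisation
and under differentiation
-/

set_option autoImplicit false
open scoped ContDiff

namespace Crest.Agent.Box
namespace Eff1Aux

theorem contDiff_iteratedDeriv {f : ℝ → ℝ} (hf : ContDiff ℝ ∞ f) (r : ℕ) :
    ContDiff ℝ ∞ (iteratedDeriv r f) := by
  rw [iteratedDeriv_eq_iterate]
  exact hf.iterate_deriv _

theorem iteratedDeriv_comp_affine {f : ℝ → ℝ} (hf : ContDiff ℝ ∞ f) (l m : ℝ) (r : ℕ) :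
    iteratedDeriv r (fun y => f (l * y + m)) = fun y => l ^ r * iteratedDeriv r f (l * y + m) := by
  induction r with
  | zero => simp
  | succ r ih =>
    rw [iteratedDeriv_succ, ih]
    funext y
    have hd : DifferentiableAt ℝ (iteratedDeriv r f) (l * y + m) :=
      (contDiff_iteratedDeriv hf r).differentiable (by simp) _
    have h1 : HasDerivAt (fun y : ℝ => l * y + m) l y := by
      simpa using ((hasDerivAt_id y).const_mul l).add_const m
    have h2 : HasDerivAt (fun y => iteratedDeriv r f (l * y + m))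
        (deriv (iteratedDeriv r f) (l * y + m) * l) y :=
      HasDerivAt.comp (h₂ := iteratedDeriv r f) y hd.hasDerivAt h1
    have h3 := h2.const_mul (l ^ r)
    rw [h3.deriv, iteratedDeriv_succ]
    ring

/-- Differentiation. -/
theorem deriv {f : ℝ → ℝ} (hf : Eff1 f) : Eff1 (_root_.deriv f) := by
  obtain ⟨e, he, happ⟩ := hf.approx
  obtain ⟨K, hK⟩ := hf.bound
  refine ⟨?_, ?_, ?_⟩
  · have := contDiff_iteratedDeriv hf.smooth 1
    rwa [iteratedDeriv_one] at this
  · refine ⟨fun a => e (a.1 + 1, a.2), ?_, ?_⟩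
    · exact he.comp (Computable.pair (Computable.succ.comp Computable.fst) Computable.snd)
    · intro r q n
      rw [← iteratedDeriv_succ']
      exact happ (r + 1) q n
  · refine ⟨(K + 1) ^ 4, ?_⟩
    intro r x
    rw [← iteratedDeriv_succ']
    have h1 : (K : ℝ) ≤ ((K + 1 : ℕ) : ℝ) := by push_cast; linarith
    have h2 : (1 : ℝ) ≤ ((K + 1 : ℕ) : ℝ) := by
      push_cast; linarith [Nat.cast_nonneg (α := ℝ) K]
    have h3 : (r + 1 + 1) ^ 2 ≤ 4 * (r + 1) ^ 2 := by
      calc (r + 1 + 1) ^ 2 ≤ (2 * (r + 1)) ^ 2 := Nat.pow_le_pow_left (by omega) 2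
        _ = 4 * (r + 1) ^ 2 := by ring
    calc |iteratedDeriv (r + 1) f x| ≤ (K : ℝ) ^ ((r + 1 + 1) ^ 2) := hK (r + 1) x
      _ ≤ ((K + 1 : ℕ) : ℝ) ^ ((r + 1 + 1) ^ 2) := by gcongr
      _ ≤ ((K + 1 : ℕ) : ℝ) ^ (4 * (r + 1) ^ 2) := pow_le_pow_right₀ h2 h3
      _ = (((K + 1) ^ 4 : ℕ) : ℝ) ^ ((r + 1) ^ 2) := by
        push_cast
        rw [← pow_mul]

/-- Rational affine reparametrisation. -/
theorem comp_affine {f : ℝ → ℝ} (hf : Eff1 f) (l m : ℚ) :
    Eff1 (fun y => f ((l : ℝ) * y + (m : ℝ))) := by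
  obtain ⟨e, he, happ⟩ := hf.approx
  obtain ⟨K, hK⟩ := hf.bound
  have hA : |(l : ℝ)| ≤ (l.num.natAbs : ℝ) := by
    have := abs_le_natAbs_num l
    have h2 : ((|l| : ℚ) : ℝ) ≤ (((l.num.natAbs : ℕ) : ℚ) : ℝ) := by exact_mod_cast this
    simpa using h2
  have hA0 : (0 : ℝ) ≤ (l.num.natAbs : ℝ) := Nat.cast_nonneg _
  refine ⟨?_, ?_, ?_⟩
  · exact hf.smooth.comp ((contDiff_const.mul contDiff_id).add contDiff_const)
  · refine ⟨fun a => l ^ a.1 * e (a.1, l * a.2.1 + m, l.num.natAbs ^ a.1 * (a.2.2 + 1)), ?_, ?_⟩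
    · have h1 : Computable (fun a : ℕ × ℚ × ℕ => l ^ a.1) :=
        comp_rat_pow.comp (Computable.const l) Computable.fst
      have h2 : Computable (fun a : ℕ × ℚ × ℕ => l * a.2.1 + m) :=
        comp_rat_add.comp (comp_rat_mul.comp (Computable.const l)
          (Computable.fst.comp Computable.snd)) (Computable.const m)
      have h3 : Computable (fun a : ℕ × ℚ × ℕ => l.num.natAbs ^ a.1 * (a.2.2 + 1)) :=
        Primrec.nat_mul.to_comp.comp (comp_nat_pow.comp (Computable.const _) Computable.fst)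
          (Computable.succ.comp (Computable.snd.comp Computable.snd))
      exact comp_rat_mul.comp h1 (he.comp (Computable.pair Computable.fst (Computable.pair h2 h3)))
    · intro r q n
      rw [iteratedDeriv_comp_affine hf.smooth]
      have h1 := happ r (l * q + m) (l.num.natAbs ^ r * (n + 1))
      push_cast at h1 ⊢
      rw [← mul_sub, abs_mul, abs_pow]
      have h4 : |(l : ℝ)| ^ r ≤ (l.num.natAbs : ℝ) ^ r := by gcongr
      have h5 : (0 : ℝ) ≤ (l.num.natAbs : ℝ) ^ r := by positivity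
      calc |(l : ℝ)| ^ r * |iteratedDeriv r f ((l : ℝ) * q + m) -
              (e (r, l * q + m, l.num.natAbs ^ r * (n + 1)) : ℝ)|
          ≤ (l.num.natAbs : ℝ) ^ r * (1 / ((l.num.natAbs : ℝ) ^ r * ((n : ℝ) + 1) + 1)) := by
            gcongr
        _ ≤ 1 / ((n : ℝ) + 1) := by
            rw [mul_one_div, div_le_div_iff₀ (by positivity) (by positivity)]
            linarith
  · refine ⟨(l.num.natAbs + 1) * (K + 1), ?_⟩
    intro r x
    rw [iteratedDeriv_comp_affine hf.smooth]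
    simp only []
    rw [abs_mul, abs_pow]
    have h1 : |(l : ℝ)| ≤ (l.num.natAbs : ℝ) + 1 := by linarith
    have h2 : (1 : ℝ) ≤ (l.num.natAbs : ℝ) + 1 := by linarith
    have h3 : (K : ℝ) ≤ (K : ℝ) + 1 := by linarith
    have h4 : r ≤ (r + 1) ^ 2 := by nlinarith
    have h5 : (0 : ℝ) ≤ (K : ℝ) := Nat.cast_nonneg _
    calc |(l : ℝ)| ^ r * |iteratedDeriv r f ((l : ℝ) * x + m)|
        ≤ ((l.num.natAbs : ℝ) + 1) ^ r * (K : ℝ) ^ ((r + 1) ^ 2) := by
          gcongr
          exact hK r _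
      _ ≤ ((l.num.natAbs : ℝ) + 1) ^ ((r + 1) ^ 2) * ((K : ℝ) + 1) ^ ((r + 1) ^ 2) := by
          gcongr
      _ = (((l.num.natAbs + 1) * (K + 1) : ℕ) : ℝ) ^ ((r + 1) ^ 2) := by
          push_cast
          rw [mul_pow]

end Eff1Aux
end Crest.Agent.Box
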