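import Crest.Agent.Box.Defs
import Crest.Agent.Box.QComp

/-!
# S0170, Layer 1 (part): products of effective one-variable functions

`Eff1Aux.mul` (Leibniz rule) and `Eff1Aux.id_mul` (multiplication by the variable for a function
vanishing outside a bounded interval), with the statements of the stubs in `Box/Eff1.lean`.
-/

set_option autoImplicit false
open scoped ContDiff

namespace Crest.Agent.Box.Eff1Aux

open Crest.Agent.Box

/-- A bound constant can be taken `≥ 1` and common to two functions. -/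
theorem common_bound {f g : ℝ → ℝ} (hf : Eff1 f) (hg : Eff1 g) :
    ∃ K : ℕ, 1 ≤ K ∧ (∀ (r : ℕ) (x : ℝ), |iteratedDeriv r f x| ≤ (K : ℝ) ^ ((r + 1) ^ 2)) ∧
      (∀ (r : ℕ) (x : ℝ), |iteratedDeriv r g x| ≤ (K : ℝ) ^ ((r + 1) ^ 2)) := by
  obtain ⟨Kf, hKf⟩ := hf.bound
  obtain ⟨Kg, hKg⟩ := hg.bound
  refine ⟨Kf + Kg + 1, by omega, fun r x => (hKf r x).trans ?_, fun r x => (hKg r x).trans ?_⟩
  · push_cast
    exact pow_le_pow_left₀ (by positivity) (by linarith [Nat.cast_nonneg (α := ℝ) Kg]) _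
  · push_cast
    exact pow_le_pow_left₀ (by positivity) (by linarith [Nat.cast_nonneg (α := ℝ) Kf]) _

/-- The Leibniz rule for smooth functions. -/
theorem leibniz {f g : ℝ → ℝ} (hf : ContDiff ℝ ∞ f) (hg : ContDiff ℝ ∞ g) (r : ℕ) (x : ℝ) :
    iteratedDeriv r (fun y => f y * g y) x =
      ∑ k ∈ Finset.range (r + 1),
        (r.choose k : ℝ) * iteratedDeriv k f x * iteratedDeriv (r - k) g x := by
  have hf' : ContDiffAt ℝ r f x := (hf.of_le (by exact_mod_cast le_top)).contDiffAt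
  have hg' : ContDiffAt ℝ r g x := (hg.of_le (by exact_mod_cast le_top)).contDiffAt
  exact iteratedDeriv_fun_mul hf' hg'

theorem sq_add_sq_le (r k : ℕ) (hk : k ≤ r) :
    (k + 1) ^ 2 + (r - k + 1) ^ 2 ≤ (r + 1) ^ 2 + 1 := by
  obtain ⟨d, rfl⟩ := Nat.exists_eq_add_of_le hk
  simp only [Nat.add_sub_cancel_left]
  nlinarith [Nat.zero_le k, Nat.zero_le d, Nat.zero_le (k * d)]

theorem mul {f g : ℝ → ℝ} (hf : Eff1 f) (hg : Eff1 g) : Eff1 (fun y => f y * g y) := by
  obtain ⟨ef, hef, hfa⟩ := hf.approx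
  obtain ⟨eg, heg, hga⟩ := hg.approx
  obtain ⟨K, hK1, hKf, hKg⟩ := common_bound hf hg
  have hK1' : (1 : ℝ) ≤ (K : ℝ) := by exact_mod_cast hK1
  refine ⟨hf.smooth.mul hg.smooth, ?_, ?_⟩
  · -- approximation
    let N : ℕ × ℚ × ℕ → ℕ := fun x => (x.2.2 + 1) * 2 ^ x.1 * 3 * K ^ ((x.1 + 1) ^ 2)
    have hN : Computable N := by
      have h1 : Computable (fun x : ℕ × ℚ × ℕ => x.2.2 + 1) :=
        Computable.succ.comp (Computable.snd.comp Computable.snd)
      have h2 : Computable (fun x : ℕ × ℚ × ℕ => 2 ^ x.1) :=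
        comp_nat_pow.comp (Computable.const 2) Computable.fst
      have h3 : Computable (fun x : ℕ × ℚ × ℕ => K ^ ((x.1 + 1) ^ 2)) :=
        comp_nat_pow.comp (Computable.const K)
          (comp_nat_pow.comp (Computable.succ.comp Computable.fst) (Computable.const 2))
      exact Primrec.nat_mul.to_comp.comp
        (Primrec.nat_mul.to_comp.comp (Primrec.nat_mul.to_comp.comp h1 h2) (Computable.const 3)) h3
    let F : ℕ × ℚ × ℕ → ℕ → ℚ := fun x k =>
      (x.1.choose k : ℚ) * ef (k, x.2.1, N x) * eg (x.1 - k, x.2.1, N x)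
    have hF : Computable₂ F := by
      have hq : Computable (fun p : (ℕ × ℚ × ℕ) × ℕ => p.1.2.1) :=
        Computable.fst.comp (Computable.snd.comp Computable.fst)
      have hr : Computable (fun p : (ℕ × ℚ × ℕ) × ℕ => p.1.1) :=
        Computable.fst.comp Computable.fst
      have hNN : Computable (fun p : (ℕ × ℚ × ℕ) × ℕ => N p.1) := hN.comp Computable.fst
      have hk : Computable (fun p : (ℕ × ℚ × ℕ) × ℕ => p.2) := Computable.snd
      have hc : Computable (fun p : (ℕ × ℚ × ℕ) × ℕ => ((p.1.1.choose p.2 : ℕ) : ℚ)) :=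
        comp_rat_natCast.comp (comp_nat_choose.comp hr hk)
      have ha : Computable (fun p : (ℕ × ℚ × ℕ) × ℕ => ef (p.2, p.1.2.1, N p.1)) :=
        hef.comp (Computable.pair hk (Computable.pair hq hNN))
      have hb : Computable (fun p : (ℕ × ℚ × ℕ) × ℕ => eg (p.1.1 - p.2, p.1.2.1, N p.1)) :=
        heg.comp (Computable.pair (Primrec.nat_sub.to_comp.comp hr hk) (Computable.pair hq hNN))
      exact comp_rat_mul.comp (comp_rat_mul.comp hc ha) hb
    refine ⟨fun x => ∑ k ∈ Finset.range (x.1 + 1), F x k, ?_, ?_⟩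
    · exact (comp_rat_sum hF).comp Computable.id (Computable.succ.comp Computable.fst)
    · intro r q n
      rw [leibniz hf.smooth hg.smooth]
      set M : ℕ := N (r, q, n) with hM
      have hMpos : (0 : ℝ) < (M : ℝ) + 1 := by positivity
      have hP : (1 : ℝ) ≤ (K : ℝ) ^ ((r + 1) ^ 2) := one_le_pow₀ hK1'
      have hterm : ∀ k ∈ Finset.range (r + 1),
          |(r.choose k : ℝ) * iteratedDeriv k f q * iteratedDeriv (r - k) g q -
            (r.choose k : ℝ) * (ef (k, q, M) : ℝ) * (eg (r - k, q, M) : ℝ)| ≤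
          (r.choose k : ℝ) * (3 * (K : ℝ) ^ ((r + 1) ^ 2) / ((M : ℝ) + 1)) := by
        intro k hk
        have hk' : k ≤ r := Nat.lt_succ_iff.mp (Finset.mem_range.mp hk)
        have h1 := hfa k q M
        have h2 := hga (r - k) q M
        have hle1 : (1 : ℝ) / ((M : ℝ) + 1) ≤ 1 := by
          rw [div_le_one hMpos]; linarith [Nat.cast_nonneg (α := ℝ) M]
        have hA : |iteratedDeriv k f q| ≤ (K : ℝ) ^ ((r + 1) ^ 2) :=
          (hKf k q).trans (pow_le_pow_right₀ hK1' (by gcongr))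
        have hB : |iteratedDeriv (r - k) g q| ≤ (K : ℝ) ^ ((r + 1) ^ 2) :=
          (hKg (r - k) q).trans (pow_le_pow_right₀ hK1' (by gcongr; omega))
        have hA' : |(ef (k, q, M) : ℝ)| ≤ (K : ℝ) ^ ((r + 1) ^ 2) + 1 := by
          have := abs_sub_abs_le_abs_sub ((ef (k, q, M) : ℝ)) (iteratedDeriv k f q)
          rw [abs_sub_comm] at this
          linarith
        have hC : (0 : ℝ) ≤ (r.choose k : ℝ) := Nat.cast_nonneg _
        have key : |iteratedDeriv k f q * iteratedDeriv (r - k) g q -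
            (ef (k, q, M) : ℝ) * (eg (r - k, q, M) : ℝ)| ≤
            3 * (K : ℝ) ^ ((r + 1) ^ 2) / ((M : ℝ) + 1) := by
          have e1 : iteratedDeriv k f q * iteratedDeriv (r - k) g q -
              (ef (k, q, M) : ℝ) * (eg (r - k, q, M) : ℝ) =
              (iteratedDeriv k f q - (ef (k, q, M) : ℝ)) * iteratedDeriv (r - k) g q +
              (ef (k, q, M) : ℝ) * (iteratedDeriv (r - k) g q - (eg (r - k, q, M) : ℝ)) := by
            ring
          rw [e1]
          refine (abs_add_le _ _).trans ?_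
          rw [abs_mul, abs_mul]
          have t1 : |iteratedDeriv k f q - (ef (k, q, M) : ℝ)| * |iteratedDeriv (r - k) g q| ≤
              1 / ((M : ℝ) + 1) * (K : ℝ) ^ ((r + 1) ^ 2) :=
            mul_le_mul h1 hB (abs_nonneg _) (by positivity)
          have t2 : |(ef (k, q, M) : ℝ)| * |iteratedDeriv (r - k) g q - (eg (r - k, q, M) : ℝ)| ≤
              ((K : ℝ) ^ ((r + 1) ^ 2) + 1) * (1 / ((M : ℝ) + 1)) :=
            mul_le_mul hA' h2 (abs_nonneg _) (by positivity)
          have t3 : 1 / ((M : ℝ) + 1) * (K : ℝ) ^ ((r + 1) ^ 2) +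
              ((K : ℝ) ^ ((r + 1) ^ 2) + 1) * (1 / ((M : ℝ) + 1)) ≤
              3 * (K : ℝ) ^ ((r + 1) ^ 2) / ((M : ℝ) + 1) := by
            rw [div_mul_eq_mul_div, mul_one_div, ← add_div]
            apply div_le_div_of_nonneg_right _ hMpos.le
            linarith
          linarith
        have e2 : (r.choose k : ℝ) * iteratedDeriv k f q * iteratedDeriv (r - k) g q -
            (r.choose k : ℝ) * (ef (k, q, M) : ℝ) * (eg (r - k, q, M) : ℝ) =
            (r.choose k : ℝ) * (iteratedDeriv k f q * iteratedDeriv (r - k) g q -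
              (ef (k, q, M) : ℝ) * (eg (r - k, q, M) : ℝ)) := by ring
        rw [e2, abs_mul, abs_of_nonneg hC]
        exact mul_le_mul_of_nonneg_left key hC
      have hcast : (((∑ k ∈ Finset.range (r + 1), F (r, q, n) k : ℚ)) : ℝ) =
          ∑ k ∈ Finset.range (r + 1),
            (r.choose k : ℝ) * (ef (k, q, M) : ℝ) * (eg (r - k, q, M) : ℝ) := by
        rw [Rat.cast_sum]
        refine Finset.sum_congr rfl fun k _ => ?_
        show (((r.choose k : ℚ) * ef (k, q, M) * eg (r - k, q, M) : ℚ) : ℝ) = _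
        push_cast
        rfl
      show |_ - (((∑ k ∈ Finset.range (r + 1), F (r, q, n) k : ℚ)) : ℝ)| ≤ _
      rw [hcast, ← Finset.sum_sub_distrib]
      calc |∑ k ∈ Finset.range (r + 1),
              ((r.choose k : ℝ) * iteratedDeriv k f q * iteratedDeriv (r - k) g q -
                (r.choose k : ℝ) * (ef (k, q, M) : ℝ) * (eg (r - k, q, M) : ℝ))|
          ≤ ∑ k ∈ Finset.range (r + 1),
              |(r.choose k : ℝ) * iteratedDeriv k f q * iteratedDeriv (r - k) g q -
                (r.choose k : ℝ) * (ef (k, q, M) : ℝ) * (eg (r - k, q, M) : ℝ)| :=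
            Finset.abs_sum_le_sum_abs _ _
        _ ≤ ∑ k ∈ Finset.range (r + 1),
              (r.choose k : ℝ) * (3 * (K : ℝ) ^ ((r + 1) ^ 2) / ((M : ℝ) + 1)) :=
            Finset.sum_le_sum hterm
        _ = (2 : ℝ) ^ r * (3 * (K : ℝ) ^ ((r + 1) ^ 2) / ((M : ℝ) + 1)) := by
            rw [← Finset.sum_mul]
            congr 1
            exact_mod_cast Nat.sum_range_choose r
        _ ≤ 1 / ((n : ℝ) + 1) := by
            have hn : (0 : ℝ) < (n : ℝ) + 1 := by positivity
            have hMval : (M : ℝ) = ((n : ℝ) + 1) * 2 ^ r * 3 * (K : ℝ) ^ ((r + 1) ^ 2) := by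
              rw [hM]; simp only [N]; push_cast; ring
            rw [mul_div_assoc', div_le_div_iff₀ hMpos hn, hMval]
            nlinarith
  · -- bound
    refine ⟨2 * K * K, fun r x => ?_⟩
    rw [leibniz hf.smooth hg.smooth]
    have hterm : ∀ k ∈ Finset.range (r + 1),
        |(r.choose k : ℝ) * iteratedDeriv k f x * iteratedDeriv (r - k) g x| ≤
          (r.choose k : ℝ) * (K : ℝ) ^ ((r + 1) ^ 2 + 1) := by
      intro k hk
      have hk' : k ≤ r := Nat.lt_succ_iff.mp (Finset.mem_range.mp hk)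
      have hC : (0 : ℝ) ≤ (r.choose k : ℝ) := Nat.cast_nonneg _
      rw [mul_assoc, abs_mul, abs_of_nonneg hC, abs_mul]
      refine mul_le_mul_of_nonneg_left ?_ hC
      calc |iteratedDeriv k f x| * |iteratedDeriv (r - k) g x|
          ≤ (K : ℝ) ^ ((k + 1) ^ 2) * (K : ℝ) ^ ((r - k + 1) ^ 2) :=
            mul_le_mul (hKf k x) (hKg (r - k) x) (abs_nonneg _) (by positivity)
        _ = (K : ℝ) ^ ((k + 1) ^ 2 + (r - k + 1) ^ 2) := (pow_add _ _ _).symm
        _ ≤ (K : ℝ) ^ ((r + 1) ^ 2 + 1) := pow_le_pow_right₀ hK1' (sq_add_sq_le r k hk')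
    calc |∑ k ∈ Finset.range (r + 1),
            (r.choose k : ℝ) * iteratedDeriv k f x * iteratedDeriv (r - k) g x|
        ≤ ∑ k ∈ Finset.range (r + 1),
            |(r.choose k : ℝ) * iteratedDeriv k f x * iteratedDeriv (r - k) g x| :=
          Finset.abs_sum_le_sum_abs _ _
      _ ≤ ∑ k ∈ Finset.range (r + 1), (r.choose k : ℝ) * (K : ℝ) ^ ((r + 1) ^ 2 + 1) :=
          Finset.sum_le_sum hterm
      _ = (2 : ℝ) ^ r * (K : ℝ) ^ ((r + 1) ^ 2 + 1) := by
          rw [← Finset.sum_mul]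
          congr 1
          exact_mod_cast Nat.sum_range_choose r
      _ ≤ ((2 * K * K : ℕ) : ℝ) ^ ((r + 1) ^ 2) := by
          push_cast
          rw [mul_pow, mul_pow, pow_succ, mul_assoc]
          have h2 : (2 : ℝ) ^ r ≤ (2 : ℝ) ^ ((r + 1) ^ 2) :=
            pow_le_pow_right₀ (by norm_num) (by nlinarith)
          have h3 : (K : ℝ) ≤ (K : ℝ) ^ ((r + 1) ^ 2) :=
            le_self_pow₀ hK1' (by positivity)
          have h4 : (0 : ℝ) ≤ (K : ℝ) ^ ((r + 1) ^ 2) := by positivity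
          exact mul_le_mul h2 (mul_le_mul_of_nonneg_left h3 h4) (by positivity) (by positivity)

/-! ### Multiplication by the variable -/

theorem iteratedDeriv_id_mul {f : ℝ → ℝ} (hf : ContDiff ℝ ∞ f) (r : ℕ) :
    iteratedDeriv r (fun y => y * f y) =
      fun x => x * iteratedDeriv r f x + (r : ℝ) * iteratedDeriv (r - 1) f x := by
  induction r with
  | zero => funext x; simp
  | succ r ih =>
    funext x
    rw [iteratedDeriv_succ, ih]
    have hA : DifferentiableAt ℝ (iteratedDeriv r f) x :=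
      (hf.differentiable_iteratedDeriv r (WithTop.coe_lt_coe.mpr (ENat.natCast_lt_top r))).differentiableAt
    have hB : DifferentiableAt ℝ (iteratedDeriv (r - 1) f) x :=
      (hf.differentiable_iteratedDeriv (r - 1)
        (WithTop.coe_lt_coe.mpr (ENat.natCast_lt_top (r - 1)))).differentiableAt
    have h1 : HasDerivAt
        (fun x => x * iteratedDeriv r f x + (r : ℝ) * iteratedDeriv (r - 1) f x)
        (1 * iteratedDeriv r f x + x * deriv (iteratedDeriv r f) x +
          (r : ℝ) * deriv (iteratedDeriv (r - 1) f) x) x :=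
      ((hasDerivAt_id x).mul hA.hasDerivAt).add (hB.hasDerivAt.const_mul _)
    rw [h1.deriv, ← iteratedDeriv_succ, ← iteratedDeriv_succ]
    cases r with
    | zero => simp; ring
    | succ r =>
      simp only [Nat.add_sub_cancel]
      push_cast
      ring

theorem iteratedDeriv_eq_zero_of_lt {f : ℝ → ℝ} (R : ℝ) (hR : ∀ y : ℝ, R ≤ |y| → f y = 0)
    (r : ℕ) (x : ℝ) (hx : R < |x|) : iteratedDeriv r f x = 0 := by
  have hev : f =ᶠ[nhds x] (fun _ => (0 : ℝ)) := by
    have h1 : ∀ᶠ y in nhds x, R < |y| :=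
      continuous_abs.continuousAt.eventually (lt_mem_nhds hx)
    filter_upwards [h1] with y hy using hR y hy.le
  rw [hev.iteratedDeriv_eq r]
  simp

theorem add_le_pow (a r : ℕ) : a + r ≤ (a + 2) ^ ((r + 1) ^ 2) := by
  have h1 : a + r ≤ (a + 2) ^ (r + 1) := by
    induction r with
    | zero => simp
    | succ r ih =>
      rw [pow_succ]
      nlinarith [ih, Nat.zero_le a, Nat.zero_le r, Nat.one_le_pow (r + 1) (a + 2) (by omega),
        Nat.zero_le ((a + 2) ^ (r + 1) * a)]
  exact h1.trans (Nat.pow_le_pow_right (by omega) (by nlinarith))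

theorem id_mul {f : ℝ → ℝ} (hf : Eff1 f) (R : ℚ) (hR : ∀ y : ℝ, (R : ℝ) ≤ |y| → f y = 0) :
    Eff1 (fun y => y * f y) := by
  obtain ⟨ef, hef, hfa⟩ := hf.approx
  obtain ⟨K, hK1, hKf, -⟩ := common_bound hf hf
  have hK1' : (1 : ℝ) ≤ (K : ℝ) := by exact_mod_cast hK1
  refine ⟨contDiff_id.mul hf.smooth, ?_, ?_⟩
  · -- approximation
    let N : ℕ × ℚ × ℕ → ℕ := fun x => (x.2.2 + 1) * (x.2.1.num.natAbs + x.1)
    have hN : Computable N := by
      have h1 : Computable (fun x : ℕ × ℚ × ℕ => x.2.2 + 1) :=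
        Computable.succ.comp (Computable.snd.comp Computable.snd)
      have h2 : Computable (fun x : ℕ × ℚ × ℕ => x.2.1.num.natAbs) :=
        comp_rat_natAbs.comp (Computable.fst.comp Computable.snd)
      exact Primrec.nat_mul.to_comp.comp h1 (Primrec.nat_add.to_comp.comp h2 Computable.fst)
    refine ⟨fun x => x.2.1 * ef (x.1, x.2.1, N x) + (x.1 : ℚ) * ef (x.1 - 1, x.2.1, N x), ?_, ?_⟩
    · have hq : Computable (fun x : ℕ × ℚ × ℕ => x.2.1) := Computable.fst.comp Computable.snd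
      have hr : Computable (fun x : ℕ × ℚ × ℕ => x.1) := Computable.fst
      have ha : Computable (fun x : ℕ × ℚ × ℕ => ef (x.1, x.2.1, N x)) :=
        hef.comp (Computable.pair hr (Computable.pair hq hN))
      have hb : Computable (fun x : ℕ × ℚ × ℕ => ef (x.1 - 1, x.2.1, N x)) :=
        hef.comp (Computable.pair (Primrec.nat_sub.to_comp.comp hr (Computable.const 1))
          (Computable.pair hq hN))
      exact comp_rat_add.comp (comp_rat_mul.comp hq ha)
        (comp_rat_mul.comp (comp_rat_natCast.comp hr) hb)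
    · intro r q n
      rw [iteratedDeriv_id_mul hf.smooth]
      set M : ℕ := N (r, q, n) with hM
      have hMpos : (0 : ℝ) < (M : ℝ) + 1 := by positivity
      have h1 := hfa r q M
      have h2 := hfa (r - 1) q M
      have hq : |(q : ℝ)| ≤ (q.num.natAbs : ℝ) := by
        have := abs_le_natAbs_num q
        exact_mod_cast (Rat.cast_le (K := ℝ)).mpr this
      show |(q : ℝ) * iteratedDeriv r f q + (r : ℝ) * iteratedDeriv (r - 1) f q -
          ((q * ef (r, q, M) + (r : ℚ) * ef (r - 1, q, M) : ℚ) : ℝ)| ≤ _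
      push_cast
      have e1 : (q : ℝ) * iteratedDeriv r f q + (r : ℝ) * iteratedDeriv (r - 1) f q -
          ((q : ℝ) * (ef (r, q, M) : ℝ) + (r : ℝ) * (ef (r - 1, q, M) : ℝ)) =
          (q : ℝ) * (iteratedDeriv r f q - (ef (r, q, M) : ℝ)) +
          (r : ℝ) * (iteratedDeriv (r - 1) f q - (ef (r - 1, q, M) : ℝ)) := by ring
      rw [e1]
      refine (abs_add_le _ _).trans ?_
      rw [abs_mul, abs_mul, abs_of_nonneg (Nat.cast_nonneg (α := ℝ) r)]
      have t1 : |(q : ℝ)| * |iteratedDeriv r f q - (ef (r, q, M) : ℝ)| ≤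
          (q.num.natAbs : ℝ) * (1 / ((M : ℝ) + 1)) :=
        mul_le_mul hq h1 (abs_nonneg _) (Nat.cast_nonneg _)
      have t2 : (r : ℝ) * |iteratedDeriv (r - 1) f q - (ef (r - 1, q, M) : ℝ)| ≤
          (r : ℝ) * (1 / ((M : ℝ) + 1)) :=
        mul_le_mul_of_nonneg_left h2 (Nat.cast_nonneg _)
      have hn : (0 : ℝ) < (n : ℝ) + 1 := by positivity
      have hMval : (M : ℝ) = ((n : ℝ) + 1) * ((q.num.natAbs : ℝ) + (r : ℝ)) := by
        rw [hM]; simp only [N]; push_cast; ring
      have t3 : (q.num.natAbs : ℝ) * (1 / ((M : ℝ) + 1)) + (r : ℝ) * (1 / ((M : ℝ) + 1)) ≤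
          1 / ((n : ℝ) + 1) := by
        rw [← add_mul, mul_one_div, div_le_div_iff₀ hMpos hn, hMval]
        nlinarith
      linarith
  · -- bound
    refine ⟨(⌈R⌉₊ + 2) * K, fun r x => ?_⟩
    rw [iteratedDeriv_id_mul hf.smooth]
    have hRc : (R : ℝ) ≤ ((⌈R⌉₊ : ℕ) : ℝ) := by
      have := Nat.le_ceil R
      exact_mod_cast (Rat.cast_le (K := ℝ)).mpr this
    have hP : (0 : ℝ) ≤ (K : ℝ) ^ ((r + 1) ^ 2) := by positivity
    have t1 : |x| * |iteratedDeriv r f x| ≤ ((⌈R⌉₊ : ℕ) : ℝ) * (K : ℝ) ^ ((r + 1) ^ 2) := by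
      by_cases hx : |x| ≤ ((⌈R⌉₊ : ℕ) : ℝ)
      · exact mul_le_mul hx (hKf r x) (abs_nonneg _) (Nat.cast_nonneg _)
      · have hx' : (R : ℝ) < |x| := lt_of_le_of_lt hRc (not_le.mp hx)
        rw [iteratedDeriv_eq_zero_of_lt (R : ℝ) hR r x hx']
        simp only [abs_zero, mul_zero]
        positivity
    have t2 : (r : ℝ) * |iteratedDeriv (r - 1) f x| ≤ (r : ℝ) * (K : ℝ) ^ ((r + 1) ^ 2) := by
      refine mul_le_mul_of_nonneg_left ((hKf (r - 1) x).trans ?_) (Nat.cast_nonneg _)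
      exact pow_le_pow_right₀ hK1' (by gcongr; omega)
    calc |x * iteratedDeriv r f x + (r : ℝ) * iteratedDeriv (r - 1) f x|
        ≤ |x| * |iteratedDeriv r f x| + (r : ℝ) * |iteratedDeriv (r - 1) f x| := by
          refine (abs_add_le _ _).trans ?_
          rw [abs_mul, abs_mul, abs_of_nonneg (Nat.cast_nonneg (α := ℝ) r)]
      _ ≤ (((⌈R⌉₊ : ℕ) : ℝ) + (r : ℝ)) * (K : ℝ) ^ ((r + 1) ^ 2) := by linarith
      _ ≤ (((⌈R⌉₊ + 2 : ℕ) : ℝ)) ^ ((r + 1) ^ 2) * (K : ℝ) ^ ((r + 1) ^ 2) := by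
          refine mul_le_mul_of_nonneg_right ?_ hP
          exact_mod_cast add_le_pow ⌈R⌉₊ r
      _ = (((⌈R⌉₊ + 2) * K : ℕ) : ℝ) ^ ((r + 1) ^ 2) := by
          push_cast
          rw [mul_pow]

end Crest.Agent.Box.Eff1Aux
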