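import Mathlib

/-!
# S0170, Layer B (helper5): the step function as a fixed point of an averaging operator

`(T f)(x) = ∫_{3x-1}^{3x} f`.  On the class `Good` of continuous functions with values in
`[0, 1]` that vanish on `(-∞, 0]` and equal `1` on `[1/2, ∞)`, `T` contracts the sup-distance by
`1/2`.  Iterating `T` on the ramp `base x = max 0 (min (3x) 1)` gives a uniformly convergent
sequence `Pseq n`; its limit `g` satisfies `g = T g`, hence `g' (x) = 3 g(3x) - 3 g(3x-1)`, and
all derivatives of `g` are given by the tower `G`.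
-/

set_option autoImplicit false

open MeasureTheory intervalIntegral Filter Topology

namespace Crest.Agent.Box.Step

/-- The averaging operator. -/
noncomputable def T (f : ℝ → ℝ) (x : ℝ) : ℝ := ∫ y in (3 * x - 1)..(3 * x), f y

/-- Continuous functions with values in `[0,1]`, `0` on `(-∞,0]` and `1` on `[1/2,∞)`. -/
structure Good (f : ℝ → ℝ) : Prop where
  cont : Continuous f
  zero : ∀ x, x ≤ 0 → f x = 0
  one : ∀ x, 1 / 2 ≤ x → f x = 1
  nonneg : ∀ x, 0 ≤ f x
  le_one : ∀ x, f x ≤ 1

theorem T_hasDerivAt {f : ℝ → ℝ} (hf : Continuous f) (x : ℝ) :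
    HasDerivAt (T f) (3 * f (3 * x) - 3 * f (3 * x - 1)) x := by
  have e : T f = fun x => (∫ y in (0 : ℝ)..(3 * x), f y) - ∫ y in (0 : ℝ)..(3 * x - 1), f y := by
    funext x
    rw [T, integral_interval_sub_left (hf.intervalIntegrable _ _) (hf.intervalIntegrable _ _)]
  rw [e]
  have h1 : HasDerivAt (fun x : ℝ => 3 * x) 3 x := by
    simpa using (hasDerivAt_id x).const_mul (3 : ℝ)
  have h2 : HasDerivAt (fun x : ℝ => 3 * x - 1) 3 x := h1.sub_const 1
  have h3 := ((hf.integral_hasStrictDerivAt 0 (3 * x)).hasDerivAt).comp x h1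
  have h4 := ((hf.integral_hasStrictDerivAt 0 (3 * x - 1)).hasDerivAt).comp x h2
  have h5 := h3.sub h4
  have e2 : f (3 * x) * 3 - f (3 * x - 1) * 3 = 3 * f (3 * x) - 3 * f (3 * x - 1) := by ring
  rw [e2] at h5
  exact h5

theorem T_continuous {f : ℝ → ℝ} (hf : Continuous f) : Continuous (T f) :=
  continuous_iff_continuousAt.2 fun x => (T_hasDerivAt hf x).continuousAt

theorem Good.T {f : ℝ → ℝ} (hf : Good f) : Good (T f) where
  cont := T_continuous hf.cont
  zero := fun x hx => by
    have h : Set.EqOn f (fun _ => (0 : ℝ)) (Set.uIcc (3 * x - 1) (3 * x)) := by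
      intro y hy
      rw [Set.uIcc_of_le (by linarith)] at hy
      exact hf.zero y (by linarith [hy.2])
    rw [Step.T, integral_congr h]
    simp
  one := fun x hx => by
    have h : Set.EqOn f (fun _ => (1 : ℝ)) (Set.uIcc (3 * x - 1) (3 * x)) := by
      intro y hy
      rw [Set.uIcc_of_le (by linarith)] at hy
      exact hf.one y (by linarith [hy.1])
    rw [Step.T, integral_congr h]
    simp
  nonneg := fun x => by
    rw [Step.T]
    exact integral_nonneg (by linarith) fun u _ => hf.nonneg u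
  le_one := fun x => by
    rw [Step.T]
    have h := integral_mono_on (μ := volume) (a := 3 * x - 1) (b := 3 * x) (by linarith)
      (hf.cont.intervalIntegrable _ _) (continuous_const.intervalIntegrable _ _)
      (fun y _ => hf.le_one y)
    simpa using h

/-- Trivial bound: `T` does not increase the sup-distance. -/
theorem T_sub_le_of_le {f h : ℝ → ℝ} (hf : Continuous f) (hh : Continuous h) (δ : ℝ)
    (hδ : ∀ y, |f y - h y| ≤ δ) (x : ℝ) : |T f x - T h x| ≤ δ := by
  rw [T, T, ← integral_sub (hf.intervalIntegrable _ _) (hh.intervalIntegrable _ _)]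
  have h1 := norm_integral_le_of_norm_le_const (a := 3 * x - 1) (b := 3 * x) (C := δ)
    (f := fun y => f y - h y) (fun y _ => by rw [Real.norm_eq_abs]; exact hδ y)
  rw [Real.norm_eq_abs] at h1
  have e : |3 * x - (3 * x - 1)| = 1 := by
    have : 3 * x - (3 * x - 1) = 1 := by ring
    rw [this, abs_one]
  rw [e, mul_one] at h1
  exact h1

/-- Clamping to `[0, 1/2]`. -/
noncomputable def clampH (u : ℝ) : ℝ := max 0 (min u (1 / 2))

theorem clampH_mem (u : ℝ) : 0 ≤ clampH u ∧ clampH u ≤ 1 / 2 := by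
  unfold clampH
  constructor
  · exact le_max_left _ _
  · exact max_le (by norm_num) (min_le_right _ _)

/-- The primitive of a continuous function vanishing outside `[0, 1/2]` only depends on the
clamped endpoint. -/
theorem integral_clampH {d : ℝ → ℝ} (hd : Continuous d) (h0 : ∀ y, y ≤ 0 → d y = 0)
    (h1 : ∀ y, 1 / 2 ≤ y → d y = 0) (u : ℝ) :
    ∫ y in (0 : ℝ)..u, d y = ∫ y in (0 : ℝ)..(clampH u), d y := by
  rcases le_total u 0 with hu | hu
  · have e : clampH u = 0 := by
      unfold clampH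
      rw [min_eq_left (by linarith), max_eq_left hu]
    rw [e, integral_same]
    have h : Set.EqOn d (fun _ => (0 : ℝ)) (Set.uIcc 0 u) := by
      intro y hy
      rw [Set.uIcc_of_ge hu] at hy
      exact h0 y hy.2
    rw [integral_congr h]
    simp
  · rcases le_total u (1 / 2) with hu2 | hu2
    · have e : clampH u = u := by
        unfold clampH
        rw [min_eq_left hu2, max_eq_right hu]
      rw [e]
    · have e : clampH u = 1 / 2 := by
        unfold clampH
        rw [min_eq_right hu2, max_eq_right (by norm_num)]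
      rw [e, ← integral_add_adjacent_intervals (hd.intervalIntegrable 0 (1 / 2))
        (hd.intervalIntegrable (1 / 2) u)]
      have h : Set.EqOn d (fun _ => (0 : ℝ)) (Set.uIcc (1 / 2) u) := by
        intro y hy
        rw [Set.uIcc_of_le hu2] at hy
        exact h1 y hy.1
      rw [integral_congr h]
      simp

/-- **Contraction**: on `Good` functions `T` halves the sup-distance. -/
theorem T_sub_le {f h : ℝ → ℝ} (hf : Good f) (hh : Good h) (δ : ℝ)
    (hδ : ∀ y, |f y - h y| ≤ δ) (x : ℝ) : |T f x - T h x| ≤ δ / 2 := by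
  have hd : Continuous (fun y => f y - h y) := hf.cont.sub hh.cont
  have h0 : ∀ y, y ≤ 0 → f y - h y = 0 := fun y hy => by rw [hf.zero y hy, hh.zero y hy, sub_zero]
  have h1 : ∀ y, 1 / 2 ≤ y → f y - h y = 0 := fun y hy => by rw [hf.one y hy, hh.one y hy, sub_self]
  have e1 : T f x - T h x = ∫ y in (3 * x - 1)..(3 * x), (f y - h y) := by
    rw [T, T, ← integral_sub (hf.cont.intervalIntegrable _ _) (hh.cont.intervalIntegrable _ _)]
  have e2 : ∫ y in (3 * x - 1)..(3 * x), (f y - h y)
      = ∫ y in (clampH (3 * x - 1))..(clampH (3 * x)), (f y - h y) := by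
    rw [← integral_interval_sub_left (hd.intervalIntegrable 0 _) (hd.intervalIntegrable 0 _),
      integral_clampH hd h0 h1 (3 * x), integral_clampH hd h0 h1 (3 * x - 1),
      integral_interval_sub_left (hd.intervalIntegrable 0 _) (hd.intervalIntegrable 0 _)]
  rw [e1, e2]
  have h3 := norm_integral_le_of_norm_le_const (a := clampH (3 * x - 1)) (b := clampH (3 * x))
    (C := δ) (f := fun y => f y - h y) (fun y _ => by rw [Real.norm_eq_abs]; exact hδ y)
  rw [Real.norm_eq_abs] at h3
  have hδ0 : 0 ≤ δ := (abs_nonneg _).trans (hδ 0)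
  have h4 : |clampH (3 * x) - clampH (3 * x - 1)| ≤ 1 / 2 := by
    have a1 := clampH_mem (3 * x)
    have a2 := clampH_mem (3 * x - 1)
    rw [abs_le]
    constructor <;> linarith [a1.1, a1.2, a2.1, a2.2]
  calc |∫ y in (clampH (3 * x - 1))..(clampH (3 * x)), (f y - h y)|
      ≤ δ * |clampH (3 * x) - clampH (3 * x - 1)| := h3
    _ ≤ δ * (1 / 2) := mul_le_mul_of_nonneg_left h4 hδ0
    _ = δ / 2 := by ring

/-- The ramp from which the iteration starts. -/
noncomputable def base (x : ℝ) : ℝ := max 0 (min (3 * x) 1)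

theorem good_base : Good base where
  cont := by
    unfold base
    exact continuous_const.max ((continuous_const.mul continuous_id).min continuous_const)
  zero := fun x hx => by
    unfold base
    rw [min_eq_left (by linarith), max_eq_left (by linarith)]
  one := fun x hx => by
    unfold base
    rw [min_eq_right (by linarith), max_eq_right (by norm_num)]
  nonneg := fun x => le_max_left _ _
  le_one := fun x => max_le (by norm_num) (min_le_right _ _)

/-- The iterates of `T` on the ramp. -/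
noncomputable def Pseq : ℕ → ℝ → ℝ
  | 0 => base
  | n + 1 => T (Pseq n)

theorem good_Pseq : ∀ n, Good (Pseq n)
  | 0 => good_base
  | n + 1 => (good_Pseq n).T

theorem Pseq_succ_sub_le : ∀ (n : ℕ) (x : ℝ), |Pseq (n + 1) x - Pseq n x| ≤ (1 / 2 : ℝ) ^ n
  | 0, x => by
    have h1 := (good_Pseq 1).nonneg x
    have h2 := (good_Pseq 1).le_one x
    have h3 := (good_Pseq 0).nonneg x
    have h4 := (good_Pseq 0).le_one x
    rw [pow_zero, abs_le]
    constructor <;> linarith
  | n + 1, x => by
    have h := T_sub_le (good_Pseq (n + 1)) (good_Pseq n) ((1 / 2 : ℝ) ^ n)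
      (fun y => Pseq_succ_sub_le n y) x
    have e : (1 / 2 : ℝ) ^ n / 2 = (1 / 2 : ℝ) ^ (n + 1) := by rw [pow_succ]; ring
    rw [e] at h
    exact h

theorem Pseq_dist (n : ℕ) (x : ℝ) :
    dist (Pseq n x) (Pseq (n + 1) x) ≤ 1 * (1 / 2 : ℝ) ^ n := by
  rw [dist_comm, Real.dist_eq, one_mul]
  exact Pseq_succ_sub_le n x

theorem Pseq_cauchy (x : ℝ) : CauchySeq (fun n => Pseq n x) :=
  cauchySeq_of_le_geometric (1 / 2) 1 (by norm_num) (fun n => Pseq_dist n x)

/-- The step function: the limit of the iterates. -/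
noncomputable def g (x : ℝ) : ℝ := limUnder atTop (fun n => Pseq n x)

theorem tendsto_g (x : ℝ) : Tendsto (fun n => Pseq n x) atTop (𝓝 (g x)) :=
  (Pseq_cauchy x).tendsto_limUnder

/-- Rate of convergence. -/
theorem Pseq_sub_g_le (n : ℕ) (x : ℝ) : |Pseq n x - g x| ≤ 2 * (1 / 2 : ℝ) ^ n := by
  have h := dist_le_of_le_geometric_of_tendsto (1 / 2) 1 (by norm_num)
    (fun n => Pseq_dist n x) (tendsto_g x) n
  rw [Real.dist_eq] at h
  have e : 1 * (1 / 2 : ℝ) ^ n / (1 - 1 / 2) = 2 * (1 / 2 : ℝ) ^ n := by ring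
  rw [e] at h
  exact h

theorem good_g : Good g where
  cont := by
    have hu : TendstoUniformly (fun n => Pseq n) g atTop := by
      rw [Metric.tendstoUniformly_iff]
      intro ε hε
      have h1 : Tendsto (fun n : ℕ => 2 * (1 / 2 : ℝ) ^ n) atTop (𝓝 (2 * 0)) :=
        (tendsto_pow_atTop_nhds_zero_of_lt_one (by norm_num) (by norm_num)).const_mul 2
      rw [mul_zero] at h1
      filter_upwards [h1.eventually (gt_mem_nhds hε)] with n hn x
      rw [dist_comm, Real.dist_eq]
      exact lt_of_le_of_lt (Pseq_sub_g_le n x) hn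
    exact hu.continuous (Frequently.of_forall fun n => (good_Pseq n).cont)
  zero := fun x hx => by
    have h : Tendsto (fun n => Pseq n x) atTop (𝓝 0) := by
      have : (fun n => Pseq n x) = fun _ => (0 : ℝ) := funext fun n => (good_Pseq n).zero x hx
      rw [this]; exact tendsto_const_nhds
    exact tendsto_nhds_unique (tendsto_g x) h
  one := fun x hx => by
    have h : Tendsto (fun n => Pseq n x) atTop (𝓝 1) := by
      have : (fun n => Pseq n x) = fun _ => (1 : ℝ) := funext fun n => (good_Pseq n).one x hx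
      rw [this]; exact tendsto_const_nhds
    exact tendsto_nhds_unique (tendsto_g x) h
  nonneg := fun x => ge_of_tendsto' (tendsto_g x) fun n => (good_Pseq n).nonneg x
  le_one := fun x => le_of_tendsto' (tendsto_g x) fun n => (good_Pseq n).le_one x

/-- `g` is a fixed point of `T`. -/
theorem g_eq_T (x : ℝ) : g x = T g x := by
  have hb : ∀ n : ℕ, |T g x - g x| ≤ 3 * (1 / 2 : ℝ) ^ n := by
    intro n
    have h1 : |T g x - Pseq (n + 1) x| ≤ 2 * (1 / 2 : ℝ) ^ n := by
      have := T_sub_le_of_le good_g.cont (good_Pseq n).cont (2 * (1 / 2 : ℝ) ^ n)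
        (fun y => by rw [abs_sub_comm]; exact Pseq_sub_g_le n y) x
      exact this
    have h2 := Pseq_sub_g_le (n + 1) x
    have h3 : (1 / 2 : ℝ) ^ (n + 1) = (1 / 2 : ℝ) ^ n / 2 := by rw [pow_succ]; ring
    have h4 : (0 : ℝ) ≤ (1 / 2 : ℝ) ^ n := by positivity
    calc |T g x - g x| = |(T g x - Pseq (n + 1) x) + (Pseq (n + 1) x - g x)| := by ring_nf
      _ ≤ |T g x - Pseq (n + 1) x| + |Pseq (n + 1) x - g x| := abs_add_le _ _
      _ ≤ 2 * (1 / 2 : ℝ) ^ n + 2 * (1 / 2 : ℝ) ^ (n + 1) := add_le_add h1 h2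
      _ = 3 * (1 / 2 : ℝ) ^ n := by rw [h3]; ring
  have h1 : Tendsto (fun n : ℕ => 3 * (1 / 2 : ℝ) ^ n) atTop (𝓝 (3 * 0)) :=
    (tendsto_pow_atTop_nhds_zero_of_lt_one (by norm_num) (by norm_num)).const_mul 3
  rw [mul_zero] at h1
  have h2 : |T g x - g x| ≤ 0 := ge_of_tendsto' h1 hb
  have h3 : T g x - g x = 0 := abs_eq_zero.1 (le_antisymm h2 (abs_nonneg _))
  linarith

theorem g_hasDerivAt (x : ℝ) : HasDerivAt g (3 * g (3 * x) - 3 * g (3 * x - 1)) x := by
  have e : g = T g := funext g_eq_T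
  have h := T_hasDerivAt good_g.cont x
  rw [← e] at h
  exact h

/-- The tower of derivatives of `g`. -/
noncomputable def G : ℕ → ℝ → ℝ
  | 0 => g
  | m + 1 => fun x => 3 ^ (m + 1) * (G m (3 * x) - G m (3 * x - 1))

theorem G_zero : G 0 = g := rfl

theorem G_succ (m : ℕ) (x : ℝ) : G (m + 1) x = 3 ^ (m + 1) * (G m (3 * x) - G m (3 * x - 1)) :=
  rfl

theorem G_hasDerivAt : ∀ (m : ℕ) (x : ℝ), HasDerivAt (G m) (G (m + 1) x) x
  | 0, x => by
    have h := g_hasDerivAt x
    have e : G (0 + 1) x = 3 * g (3 * x) - 3 * g (3 * x - 1) := by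
      rw [G_succ, G_zero]; ring
    rw [e]
    exact h
  | m + 1, x => by
    have h1 : HasDerivAt (fun x : ℝ => 3 * x) 3 x := by
      simpa using (hasDerivAt_id x).const_mul (3 : ℝ)
    have h2 : HasDerivAt (fun x : ℝ => 3 * x - 1) 3 x := h1.sub_const 1
    have h3 := (G_hasDerivAt m (3 * x)).comp x h1
    have h4 := (G_hasDerivAt m (3 * x - 1)).comp x h2
    have h5 := (h3.sub h4).const_mul ((3 : ℝ) ^ (m + 1))
    have e : (3 : ℝ) ^ (m + 1) * (G (m + 1) (3 * x) * 3 - G (m + 1) (3 * x - 1) * 3)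
        = G (m + 1 + 1) x := by
      rw [G_succ (m + 1) x]; ring
    rw [e] at h5
    exact h5

/-- Triangular numbers. -/
def tri : ℕ → ℕ
  | 0 => 0
  | m + 1 => tri m + (m + 1)

theorem G_abs_le : ∀ (m : ℕ) (x : ℝ), |G m x| ≤ (2 : ℝ) ^ m * (3 : ℝ) ^ tri m
  | 0, x => by
    have h1 := good_g.nonneg x
    have h2 := good_g.le_one x
    rw [G_zero, abs_of_nonneg h1]
    simpa [tri] using h2
  | m + 1, x => by
    have h1 := G_abs_le m (3 * x)
    have h2 := G_abs_le m (3 * x - 1)
    rw [G_succ, abs_mul, abs_of_pos (by positivity : (0 : ℝ) < 3 ^ (m + 1))]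
    have h3 : |G m (3 * x) - G m (3 * x - 1)| ≤ 2 * ((2 : ℝ) ^ m * (3 : ℝ) ^ tri m) := by
      have := abs_sub (G m (3 * x)) (G m (3 * x - 1))
      linarith
    calc (3 : ℝ) ^ (m + 1) * |G m (3 * x) - G m (3 * x - 1)|
        ≤ (3 : ℝ) ^ (m + 1) * (2 * ((2 : ℝ) ^ m * (3 : ℝ) ^ tri m)) :=
          mul_le_mul_of_nonneg_left h3 (by positivity)
      _ = (2 : ℝ) ^ (m + 1) * (3 : ℝ) ^ tri (m + 1) := by
          rw [tri, pow_add, pow_succ]; ring

theorem iteratedDeriv_g (m : ℕ) : iteratedDeriv m g = G m := by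
  induction m with
  | zero => rw [iteratedDeriv_zero, G_zero]
  | succ m ih =>
    rw [iteratedDeriv_succ, ih]
    funext x
    exact (G_hasDerivAt m x).deriv

end Crest.Agent.Box.Step
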