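import Mathlib
import Crest.Agent.Box.StepOp

/-!
# S0170, Layer B (helper5): closed forms

Binary digits, the closed form of the derivative tower `G m x = 3^(tri m) Σ_e ± g(3^m x - sh m e)`
and of the iterates `Pseq n` as explicit splines (signed sums of truncated powers).
-/

set_option autoImplicit false

open MeasureTheory intervalIntegral Filter Topology

namespace Crest.Agent.Box.Step

/-- The `i`-th binary digit of `e`. -/
def bit (e i : ℕ) : ℕ := (e / 2 ^ i) % 2

/-- The shift attached to the first `m` binary digits of `e`: `Σ_{i<m} bit e i * 3^i`. -/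
def sh (m e : ℕ) : ℕ := ∑ i ∈ Finset.range m, bit e i * 3 ^ i

/-- The number of ones among the first `m` binary digits of `e`. -/
def pop (m e : ℕ) : ℕ := ∑ i ∈ Finset.range m, bit e i

theorem bit_of_lt {e m : ℕ} (h : e < 2 ^ m) : bit e m = 0 := by
  unfold bit
  rw [Nat.div_eq_of_lt h]

theorem bit_add_top {e m : ℕ} (h : e < 2 ^ m) : bit (2 ^ m + e) m = 1 := by
  unfold bit
  rw [Nat.add_div_left _ (by positivity), Nat.div_eq_of_lt h]

theorem bit_add_low (e : ℕ) {m i : ℕ} (hi : i < m) : bit (2 ^ m + e) i = bit e i := by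
  unfold bit
  have e1 : 2 ^ m = 2 ^ i * (2 * 2 ^ (m - i - 1)) := by
    rw [← pow_succ', ← pow_add]
    congr 1
    omega
  rw [e1, Nat.mul_add_div (by positivity), Nat.mul_add_mod]

theorem sh_succ_low {m e : ℕ} (h : e < 2 ^ m) : sh (m + 1) e = sh m e := by
  unfold sh
  rw [Finset.sum_range_succ, bit_of_lt h]
  simp

theorem pop_succ_low {m e : ℕ} (h : e < 2 ^ m) : pop (m + 1) e = pop m e := by
  unfold pop
  rw [Finset.sum_range_succ, bit_of_lt h]
  simp

theorem sh_succ_high {m e : ℕ} (h : e < 2 ^ m) : sh (m + 1) (2 ^ m + e) = sh m e + 3 ^ m := by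
  unfold sh
  rw [Finset.sum_range_succ, bit_add_top h, one_mul]
  congr 1
  apply Finset.sum_congr rfl
  intro i hi
  rw [bit_add_low e (Finset.mem_range.1 hi)]

theorem pop_succ_high {m e : ℕ} (h : e < 2 ^ m) : pop (m + 1) (2 ^ m + e) = pop m e + 1 := by
  unfold pop
  rw [Finset.sum_range_succ, bit_add_top h]
  congr 1
  apply Finset.sum_congr rfl
  intro i hi
  rw [bit_add_low e (Finset.mem_range.1 hi)]

/-- Splitting a sum over `m + 1` binary digits according to the top digit. -/
theorem sum_range_two_pow_succ {M : Type*} [AddCommMonoid M] (m : ℕ) (F : ℕ → ℕ → M) :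
    ∑ e ∈ Finset.range (2 ^ (m + 1)), F (sh (m + 1) e) (pop (m + 1) e)
      = ∑ e ∈ Finset.range (2 ^ m), (F (sh m e) (pop m e) + F (sh m e + 3 ^ m) (pop m e + 1)) := by
  rw [pow_succ, mul_two, Finset.sum_range_add, Finset.sum_add_distrib]
  congr 1
  · apply Finset.sum_congr rfl
    intro e he
    rw [sh_succ_low (Finset.mem_range.1 he), pop_succ_low (Finset.mem_range.1 he)]
  · apply Finset.sum_congr rfl
    intro e he
    rw [sh_succ_high (Finset.mem_range.1 he), pop_succ_high (Finset.mem_range.1 he)]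

/-- **Closed form of the derivative tower.** -/
theorem G_closed (m : ℕ) (x : ℝ) :
    G m x = (3 : ℝ) ^ tri m *
      ∑ e ∈ Finset.range (2 ^ m), (-1 : ℝ) ^ pop m e * g ((3 : ℝ) ^ m * x - (sh m e : ℝ)) := by
  induction m generalizing x with
  | zero => simp [G_zero, tri, sh, pop]
  | succ m ih =>
    have key : ∑ e ∈ Finset.range (2 ^ (m + 1)),
          (-1 : ℝ) ^ pop (m + 1) e * g ((3 : ℝ) ^ (m + 1) * x - (sh (m + 1) e : ℝ))
        = ∑ e ∈ Finset.range (2 ^ m), (-1 : ℝ) ^ pop m e * g ((3 : ℝ) ^ m * (3 * x) - (sh m e : ℝ))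
          - ∑ e ∈ Finset.range (2 ^ m),
              (-1 : ℝ) ^ pop m e * g ((3 : ℝ) ^ m * (3 * x - 1) - (sh m e : ℝ)) := by
      rw [sum_range_two_pow_succ m
        (fun s p => (-1 : ℝ) ^ p * g ((3 : ℝ) ^ (m + 1) * x - (s : ℝ))),
        ← Finset.sum_sub_distrib]
      apply Finset.sum_congr rfl
      intro e _
      have a1 : (3 : ℝ) ^ (m + 1) * x - (sh m e : ℝ) = (3 : ℝ) ^ m * (3 * x) - (sh m e : ℝ) := by
        ring
      have a2 : (3 : ℝ) ^ (m + 1) * x - ((sh m e + 3 ^ m : ℕ) : ℝ)
          = (3 : ℝ) ^ m * (3 * x - 1) - (sh m e : ℝ) := by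
        push_cast; ring
      rw [a1, a2, pow_succ]
      ring
    rw [G_succ, ih (3 * x), ih (3 * x - 1), key, tri, pow_add]
    ring

/-- Truncated power `max u 0 ^ k`. -/
noncomputable def tp (k : ℕ) (u : ℝ) : ℝ := (max u 0) ^ k

theorem tp_continuous (k : ℕ) : Continuous (tp k) := by
  unfold tp
  exact (continuous_id.max continuous_const).pow k

theorem tp_hasDerivAt (k : ℕ) (hk : 1 ≤ k) (u : ℝ) :
    HasDerivAt (tp (k + 1)) (((k : ℝ) + 1) * tp k u) u := by
  rcases lt_trichotomy u 0 with hu | hu | hu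
  · -- locally zero
    have h1 : tp (k + 1) =ᶠ[𝓝 u] fun _ => (0 : ℝ) := by
      filter_upwards [gt_mem_nhds hu] with v hv
      simp [tp, max_eq_right hv.le]
    have e : ((k : ℝ) + 1) * tp k u = 0 := by
      have : tp k u = 0 := by
        unfold tp
        rw [max_eq_right hu.le]
        exact zero_pow (by omega)
      rw [this, mul_zero]
    rw [e]
    exact (hasDerivAt_const u (0 : ℝ)).congr_of_eventuallyEq h1
  · -- at zero
    subst hu
    have e : ((k : ℝ) + 1) * tp k 0 = 0 := by
      have : tp k 0 = 0 := by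
        unfold tp
        rw [max_self]
        exact zero_pow (by omega)
      rw [this, mul_zero]
    rw [e, hasDerivAt_iff_isLittleO_nhds_zero]
    have h0 : tp (k + 1) 0 = 0 := by
      unfold tp
      rw [max_self]
      exact zero_pow (by omega)
    simp only [zero_add, h0, sub_zero, smul_zero]
    have hO : (fun h : ℝ => tp (k + 1) h) =O[𝓝 0] fun h : ℝ => h ^ (k + 1) := by
      apply Asymptotics.IsBigO.of_bound 1
      filter_upwards with h
      rw [one_mul, Real.norm_eq_abs, Real.norm_eq_abs, abs_pow]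
      unfold tp
      rw [abs_pow]
      apply pow_le_pow_left₀ (abs_nonneg _)
      rcases le_total h 0 with hh | hh
      · rw [max_eq_right hh, abs_zero]; exact abs_nonneg _
      · rw [max_eq_left hh]
    exact hO.trans_isLittleO (Asymptotics.isLittleO_pow_id (by omega))
  · -- locally a power
    have h1 : tp (k + 1) =ᶠ[𝓝 u] fun v => v ^ (k + 1) := by
      filter_upwards [lt_mem_nhds hu] with v hv
      simp [tp, max_eq_left hv.le]
    have e : ((k : ℝ) + 1) * tp k u = ((k + 1 : ℕ) : ℝ) * u ^ (k + 1 - 1) := by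
      unfold tp
      rw [max_eq_left hu.le]
      push_cast
      simp
    rw [e]
    exact (hasDerivAt_pow (k + 1) u).congr_of_eventuallyEq h1

/-- The integral of a truncated power of an affine function. -/
theorem integral_tp (k : ℕ) (hk : 1 ≤ k) (c σ a b : ℝ) (hc : 0 < c) :
    ∫ y in a..b, tp k (c * y - σ)
      = (tp (k + 1) (c * b - σ) - tp (k + 1) (c * a - σ)) / (c * ((k : ℝ) + 1)) := by
  have hd : ∀ y ∈ Set.uIcc a b,
      HasDerivAt (fun y => tp (k + 1) (c * y - σ) / (c * ((k : ℝ) + 1))) (tp k (c * y - σ)) y := by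
    intro y _
    have h1 : HasDerivAt (fun y : ℝ => c * y - σ) c y := by
      simpa using ((hasDerivAt_id y).const_mul c).sub_const σ
    have h2 := (tp_hasDerivAt k hk (c * y - σ)).comp y h1
    have h3 := h2.div_const (c * ((k : ℝ) + 1))
    have hk0 : (0 : ℝ) < (k : ℝ) + 1 := by positivity
    have e : ((k : ℝ) + 1) * tp k (c * y - σ) * c / (c * ((k : ℝ) + 1)) = tp k (c * y - σ) := by
      field_simp
    rw [e] at h3
    exact h3
  have hint : IntervalIntegrable (fun y => tp k (c * y - σ)) volume a b :=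
    ((tp_continuous k).comp ((continuous_const.mul continuous_id).sub
      continuous_const)).intervalIntegrable a b
  rw [integral_eq_sub_of_hasDerivAt hd hint]
  ring

/-- The normalising constants of the splines. -/
noncomputable def cM : ℕ → ℝ
  | 0 => 1
  | n + 1 => cM n / ((3 : ℝ) ^ (n + 1) * ((n : ℝ) + 2))

/-- **Closed form of the iterates**: `Pseq n` is an explicit spline of degree `n + 1`. -/
theorem Pseq_closed (n : ℕ) (x : ℝ) :
    Pseq n x = cM n * ∑ e ∈ Finset.range (2 ^ (n + 1)),
      (-1 : ℝ) ^ pop (n + 1) e * tp (n + 1) ((3 : ℝ) ^ (n + 1) * x - (sh (n + 1) e : ℝ)) := by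
  induction n generalizing x with
  | zero =>
    have e2 : Finset.range (2 ^ (0 + 1)) = {0, 1} := by decide
    rw [e2, Finset.sum_pair (by norm_num)]
    simp only [Pseq, base, cM, tp, pop, sh, bit]
    norm_num
    rcases le_total (3 * x) 0 with h | h
    · rw [min_eq_left (by linarith), max_eq_left h, max_eq_right h, max_eq_right (by linarith)]
      ring
    · rcases le_total (3 * x) 1 with h1 | h1
      · rw [min_eq_left h1, max_eq_right h, max_eq_left h, max_eq_right (by linarith)]
        ring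
      · rw [min_eq_right h1, max_eq_right (by norm_num), max_eq_left h, max_eq_left (by linarith)]
        ring
  | succ n ih =>
    have hstep : Pseq (n + 1) x = ∫ y in (3 * x - 1)..(3 * x), Pseq n y := rfl
    have hfun : (fun y => Pseq n y) = fun y => cM n * ∑ e ∈ Finset.range (2 ^ (n + 1)),
        (-1 : ℝ) ^ pop (n + 1) e * tp (n + 1) ((3 : ℝ) ^ (n + 1) * y - (sh (n + 1) e : ℝ)) :=
      funext fun y => ih y
    rw [hstep, hfun, intervalIntegral.integral_const_mul, intervalIntegral.integral_finsetSum]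
    · have hterm : ∀ e ∈ Finset.range (2 ^ (n + 1)),
          ∫ y in (3 * x - 1)..(3 * x),
            (-1 : ℝ) ^ pop (n + 1) e * tp (n + 1) ((3 : ℝ) ^ (n + 1) * y - (sh (n + 1) e : ℝ))
          = ((-1 : ℝ) ^ pop (n + 1) e *
              tp (n + 1 + 1) ((3 : ℝ) ^ (n + 1 + 1) * x - (sh (n + 1) e : ℝ))
            + (-1 : ℝ) ^ (pop (n + 1) e + 1) *
              tp (n + 1 + 1) ((3 : ℝ) ^ (n + 1 + 1) * x - ((sh (n + 1) e + 3 ^ (n + 1) : ℕ) : ℝ)))
            / ((3 : ℝ) ^ (n + 1) * ((n : ℝ) + 2)) := by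
        intro e _
        rw [intervalIntegral.integral_const_mul, integral_tp (n + 1) (by omega) _ _ _ _ (by positivity)]
        have a1 : (3 : ℝ) ^ (n + 1) * (3 * x) - (sh (n + 1) e : ℝ)
            = (3 : ℝ) ^ (n + 1 + 1) * x - (sh (n + 1) e : ℝ) := by ring
        have a2 : (3 : ℝ) ^ (n + 1) * (3 * x - 1) - (sh (n + 1) e : ℝ)
            = (3 : ℝ) ^ (n + 1 + 1) * x - ((sh (n + 1) e + 3 ^ (n + 1) : ℕ) : ℝ) := by
          push_cast; ring
        rw [a1, a2]
        push_cast
        ring
      rw [Finset.sum_congr rfl hterm, ← Finset.sum_div,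
        sum_range_two_pow_succ (n + 1)
          (fun s p => (-1 : ℝ) ^ p * tp (n + 1 + 1) ((3 : ℝ) ^ (n + 1 + 1) * x - (s : ℝ)))]
      rw [cM]
      ring
    · intro e _
      exact ((continuous_const.mul ((tp_continuous (n + 1)).comp
        ((continuous_const.mul continuous_id).sub continuous_const)))).intervalIntegrable _ _

end Crest.Agent.Box.Step
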