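import Mathlib
import Crest.Agent.Box.StepDigits
import Crest.Agent.Box.QComp

/-!
# S0170, Layer B (helper5): computable rational approximants of the derivatives of the step

The iterates `Pseq n` are explicit splines with rational data, so their values at rational points
are rational numbers `splQ n q` computable from `(n, q)`.  Together with the closed form of the
derivative tower this gives computable approximants `apx r q n` of `G r q` with error
`≤ 1 / (n + 1)`.
-/

set_option autoImplicit false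

namespace Crest.Agent.Box.Step

/-! ### Rational splines -/

/-- Rational version of `cM`. -/
def cMQ : ℕ → ℚ
  | 0 => 1
  | n + 1 => cMQ n / ((3 : ℚ) ^ (n + 1) * ((n : ℚ) + 2))

theorem cMQ_cast (n : ℕ) : ((cMQ n : ℚ) : ℝ) = cM n := by
  induction n with
  | zero => simp [cMQ, cM]
  | succ n ih =>
    rw [cMQ, cM, ← ih]
    push_cast
    rfl

/-- Rational truncated power. -/
def tpQ (k : ℕ) (u : ℚ) : ℚ := (max u 0) ^ k

theorem tpQ_cast (k : ℕ) (u : ℚ) : ((tpQ k u : ℚ) : ℝ) = tp k (u : ℝ) := by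
  unfold tpQ tp
  push_cast
  rfl

/-- The value of the spline `Pseq n` at a rational point. -/
def splQ (n : ℕ) (q : ℚ) : ℚ :=
  cMQ n * ∑ e ∈ Finset.range (2 ^ (n + 1)),
    (-1 : ℚ) ^ pop (n + 1) e * tpQ (n + 1) ((3 : ℚ) ^ (n + 1) * q - (sh (n + 1) e : ℚ))

theorem splQ_cast (n : ℕ) (q : ℚ) : ((splQ n q : ℚ) : ℝ) = Pseq n (q : ℝ) := by
  rw [Pseq_closed, splQ]
  push_cast [cMQ_cast, tpQ_cast]
  rfl

/-- The depth of the spline used for precision `n` of the `r`-th derivative. -/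
def depth (r n : ℕ) : ℕ := 2 * tri r + r + n + 1

/-- The approximant of the `r`-th derivative of `g` at `q` with precision `1 / (n + 1)`. -/
def apx (r : ℕ) (q : ℚ) (n : ℕ) : ℚ :=
  (3 : ℚ) ^ tri r * ∑ e ∈ Finset.range (2 ^ r),
    (-1 : ℚ) ^ pop r e * splQ (depth r n) ((3 : ℚ) ^ r * q - (sh r e : ℚ))

theorem half_pow_le (n : ℕ) : (1 / 2 : ℝ) ^ n ≤ 1 / ((n : ℝ) + 1) := by
  have h : ((n : ℝ) + 1) ≤ 2 ^ n := by
    have h1 : n + 1 ≤ 2 ^ n := Nat.lt_two_pow_self
    exact_mod_cast h1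
  rw [one_div_pow]
  exact one_div_le_one_div_of_le (by positivity) h

theorem depth_bound (r n : ℕ) :
    (3 : ℝ) ^ tri r * ((2 : ℝ) ^ r * (2 * (1 / 2 : ℝ) ^ depth r n)) ≤ 1 / ((n : ℝ) + 1) := by
  have e : (3 : ℝ) ^ tri r * ((2 : ℝ) ^ r * (2 * (1 / 2 : ℝ) ^ depth r n))
      = (3 / 4 : ℝ) ^ tri r * (1 / 2 : ℝ) ^ n := by
    have e1 : (1 / 2 : ℝ) ^ depth r n
        = (1 / 4 : ℝ) ^ tri r * (1 / 2 : ℝ) ^ r * (1 / 2 : ℝ) ^ n * (1 / 2) := by
      unfold depth
      rw [pow_succ, pow_add, pow_add, pow_mul]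
      norm_num
    have e2 : (3 : ℝ) ^ tri r * (1 / 4 : ℝ) ^ tri r = (3 / 4 : ℝ) ^ tri r := by
      rw [← mul_pow]; norm_num
    have e3 : (2 : ℝ) ^ r * (1 / 2 : ℝ) ^ r = 1 := by
      rw [← mul_pow]; norm_num
    calc (3 : ℝ) ^ tri r * ((2 : ℝ) ^ r * (2 * (1 / 2 : ℝ) ^ depth r n))
        = ((3 : ℝ) ^ tri r * (1 / 4 : ℝ) ^ tri r) * ((2 : ℝ) ^ r * (1 / 2 : ℝ) ^ r)
            * (1 / 2 : ℝ) ^ n := by rw [e1]; ring
      _ = (3 / 4 : ℝ) ^ tri r * (1 / 2 : ℝ) ^ n := by rw [e2, e3, mul_one]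
  rw [e]
  have h1 : (3 / 4 : ℝ) ^ tri r ≤ 1 := pow_le_one₀ (by norm_num) (by norm_num)
  have h2 : (0 : ℝ) ≤ (1 / 2 : ℝ) ^ n := by positivity
  calc (3 / 4 : ℝ) ^ tri r * (1 / 2 : ℝ) ^ n ≤ 1 * (1 / 2 : ℝ) ^ n :=
        mul_le_mul_of_nonneg_right h1 h2
    _ = (1 / 2 : ℝ) ^ n := one_mul _
    _ ≤ 1 / ((n : ℝ) + 1) := half_pow_le n

/-- **Error bound** of the approximants. -/
theorem apx_error (r : ℕ) (q : ℚ) (n : ℕ) :
    |G r (q : ℝ) - ((apx r q n : ℚ) : ℝ)| ≤ 1 / ((n : ℝ) + 1) := by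
  have hcast : ((apx r q n : ℚ) : ℝ) = (3 : ℝ) ^ tri r * ∑ e ∈ Finset.range (2 ^ r),
      (-1 : ℝ) ^ pop r e * Pseq (depth r n) ((3 : ℝ) ^ r * (q : ℝ) - (sh r e : ℝ)) := by
    unfold apx
    push_cast [splQ_cast]
    rfl
  rw [G_closed, hcast, ← mul_sub, ← Finset.sum_sub_distrib, abs_mul,
    abs_of_pos (by positivity : (0 : ℝ) < (3 : ℝ) ^ tri r)]
  have h1 : ∀ e ∈ Finset.range (2 ^ r),
      |(-1 : ℝ) ^ pop r e * g ((3 : ℝ) ^ r * (q : ℝ) - (sh r e : ℝ))
        - (-1 : ℝ) ^ pop r e * Pseq (depth r n) ((3 : ℝ) ^ r * (q : ℝ) - (sh r e : ℝ))|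
      ≤ 2 * (1 / 2 : ℝ) ^ depth r n := by
    intro e _
    rw [← mul_sub, abs_mul, abs_pow, abs_neg, abs_one, one_pow, one_mul, abs_sub_comm]
    exact Pseq_sub_g_le _ _
  have h2 := (Finset.abs_sum_le_sum_abs _ _).trans (Finset.sum_le_sum h1)
  rw [Finset.sum_const, Finset.card_range, nsmul_eq_mul] at h2
  have h3 := mul_le_mul_of_nonneg_left h2 (by positivity : (0 : ℝ) ≤ (3 : ℝ) ^ tri r)
  refine h3.trans ?_
  have := depth_bound r n
  push_cast
  exact this

/-! ### Computability -/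

theorem primrec_bit : Primrec₂ bit := by
  have h : Primrec (fun p : ℕ × ℕ => (p.1 / 2 ^ p.2) % 2) :=
    Primrec.nat_mod.comp
      (Primrec.nat_div.comp Primrec.fst (primrec_nat_pow.comp (Primrec.const 2) Primrec.snd))
      (Primrec.const 2)
  exact h.of_eq fun p => rfl

/-- Finite sums of a computable family of naturals are computable. -/
theorem comp_nat_sum {α : Type*} [Primcodable α] {f : α → ℕ → ℕ} (hf : Computable₂ f) :
    Computable₂ (fun (a : α) (n : ℕ) => ∑ i ∈ Finset.range n, f a i) := by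
  have h : Computable (fun x : α × ℕ =>
      Nat.rec (motive := fun _ => ℕ) (0 : ℕ) (fun (y : ℕ) (IH : ℕ) => IH + f x.1 y) x.2) :=
    Computable.nat_rec (f := fun x : α × ℕ => x.2) (g := fun _ => (0 : ℕ))
      (h := fun x p => p.2 + f x.1 p.1) Computable.snd (Computable.const 0)
      (Primrec.nat_add.to_comp.comp (Computable.snd.comp Computable.snd)
        (hf.comp (Computable.fst.comp Computable.fst) (Computable.fst.comp Computable.snd)))
  refine h.of_eq fun x => ?_
  obtain ⟨a, n⟩ := x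
  show Nat.rec (motive := fun _ => ℕ) (0 : ℕ) (fun (y : ℕ) (IH : ℕ) => IH + f a y) n
    = ∑ i ∈ Finset.range n, f a i
  induction n with
  | zero => simp
  | succ n ih => simp only [ih, Finset.sum_range_succ]

theorem comp_sh : Computable₂ sh := by
  have hf : Computable₂ (fun e i : ℕ => bit e i * 3 ^ i) :=
    (Primrec.nat_mul.comp primrec_bit
      (primrec_nat_pow.comp (Primrec.const 3) Primrec.snd)).to_comp
  exact ((comp_nat_sum hf).comp Computable.snd Computable.fst).of_eq fun p => rfl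

theorem comp_pop : Computable₂ pop := by
  have hf : Computable₂ (fun e i : ℕ => bit e i) := primrec_bit.to_comp
  exact ((comp_nat_sum hf).comp Computable.snd Computable.fst).of_eq fun p => rfl

theorem two_mul_tri (m : ℕ) : 2 * tri m = m * (m + 1) := by
  induction m with
  | zero => rfl
  | succ m ih => rw [tri, mul_add, ih]; ring

theorem primrec_tri : Primrec tri := by
  have h : Primrec (fun m : ℕ => m * (m + 1) / 2) :=
    Primrec.nat_div.comp (Primrec.nat_mul.comp Primrec.id Primrec.succ) (Primrec.const 2)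
  refine h.of_eq fun m => ?_
  rw [← two_mul_tri, Nat.mul_div_cancel_left _ (by norm_num)]

theorem primrec_depth : Primrec₂ depth := by
  have h : Primrec (fun p : ℕ × ℕ => 2 * tri p.1 + p.1 + p.2 + 1) :=
    Primrec.succ.comp (Primrec.nat_add.comp (Primrec.nat_add.comp
      (Primrec.nat_mul.comp (Primrec.const 2) (primrec_tri.comp Primrec.fst)) Primrec.fst)
      Primrec.snd)
  exact h.of_eq fun p => rfl

theorem comp_cMQ : Computable cMQ := by
  have h : Computable (fun n : ℕ =>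
      Nat.rec (motive := fun _ => ℚ) (1 : ℚ)
        (fun (y : ℕ) (IH : ℚ) => IH / ((3 : ℚ) ^ (y + 1) * ((y : ℚ) + 2))) n) :=
    Computable.nat_rec (f := fun n : ℕ => n) (g := fun _ => (1 : ℚ))
      (h := fun (_ : ℕ) (p : ℕ × ℚ) => p.2 / ((3 : ℚ) ^ (p.1 + 1) * ((p.1 : ℚ) + 2)))
      Computable.id (Computable.const 1)
      (comp_rat_div.comp (Computable.snd.comp Computable.snd)
        (comp_rat_mul.comp
          (comp_rat_pow.comp (Computable.const 3)
            (Computable.succ.comp (Computable.fst.comp Computable.snd)))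
          (comp_rat_add.comp (comp_rat_natCast.comp (Computable.fst.comp Computable.snd))
            (Computable.const 2))))
  refine h.of_eq fun n => ?_
  induction n with
  | zero => rfl
  | succ n ih => simp only [ih, cMQ]

theorem comp_tpQ : Computable₂ tpQ :=
  (comp_rat_pow.comp (comp_rat_max.comp Computable.snd (Computable.const 0))
    Computable.fst).of_eq fun _ => rfl

theorem comp_splQ : Computable₂ splQ := by
  have hs : Computable (fun x : (ℕ × ℚ) × ℕ => x.1.1 + 1) :=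
    Computable.succ.comp (Computable.fst.comp Computable.fst)
  have hf : Computable₂ (fun (a : ℕ × ℚ) (e : ℕ) =>
      (-1 : ℚ) ^ pop (a.1 + 1) e
        * tpQ (a.1 + 1) ((3 : ℚ) ^ (a.1 + 1) * a.2 - (sh (a.1 + 1) e : ℚ))) :=
    comp_rat_mul.comp
      (comp_rat_pow.comp (Computable.const (-1)) (comp_pop.comp hs Computable.snd))
      (comp_tpQ.comp hs
        (comp_rat_sub.comp
          (comp_rat_mul.comp (comp_rat_pow.comp (Computable.const 3) hs)
            (Computable.snd.comp Computable.fst))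
          (comp_rat_natCast.comp (comp_sh.comp hs Computable.snd))))
  have hN : Computable (fun a : ℕ × ℚ => 2 ^ (a.1 + 1)) :=
    comp_nat_pow.comp (Computable.const 2) (Computable.succ.comp Computable.fst)
  exact (comp_rat_mul.comp (comp_cMQ.comp Computable.fst)
    ((comp_rat_sum hf).comp Computable.id hN)).of_eq fun p => rfl

theorem comp_apx : Computable (fun x : ℕ × ℚ × ℕ => apx x.1 x.2.1 x.2.2) := by
  have hr : Computable (fun x : (ℕ × ℚ × ℕ) × ℕ => x.1.1) :=
    Computable.fst.comp Computable.fst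
  have hq : Computable (fun x : (ℕ × ℚ × ℕ) × ℕ => x.1.2.1) :=
    Computable.fst.comp (Computable.snd.comp Computable.fst)
  have hn : Computable (fun x : (ℕ × ℚ × ℕ) × ℕ => x.1.2.2) :=
    Computable.snd.comp (Computable.snd.comp Computable.fst)
  have hf : Computable₂ (fun (a : ℕ × ℚ × ℕ) (e : ℕ) =>
      (-1 : ℚ) ^ pop a.1 e
        * splQ (depth a.1 a.2.2) ((3 : ℚ) ^ a.1 * a.2.1 - (sh a.1 e : ℚ))) :=
    comp_rat_mul.comp
      (comp_rat_pow.comp (Computable.const (-1)) (comp_pop.comp hr Computable.snd))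
      (comp_splQ.comp (primrec_depth.to_comp.comp hr hn)
        (comp_rat_sub.comp
          (comp_rat_mul.comp (comp_rat_pow.comp (Computable.const 3) hr) hq)
          (comp_rat_natCast.comp (comp_sh.comp hr Computable.snd))))
  have hN : Computable (fun a : ℕ × ℚ × ℕ => 2 ^ a.1) :=
    comp_nat_pow.comp (Computable.const 2) Computable.fst
  have hT : Computable (fun a : ℕ × ℚ × ℕ => (3 : ℚ) ^ tri a.1) :=
    comp_rat_pow.comp (Computable.const 3) (primrec_tri.to_comp.comp Computable.fst)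
  exact (comp_rat_mul.comp hT ((comp_rat_sum hf).comp Computable.id hN)).of_eq fun p => rfl

end Crest.Agent.Box.Step
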