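import Crest.Agent.Box.Defs
import Crest.Agent.Box.QComp
import Crest.Agent.Box.StepComp

/-!
# Layer B for S0170: an effective smooth step function

The step is the fixed point `g` of the averaging operator `(T f)(x) = ∫_{3x-1}^{3x} f`
(a 3-adic relative of the Fabius function): `g = 0` on `(-∞, 0]`, `g = 1` on `[1/2, ∞)`,
`g' (x) = 3 g(3x) - 3 g(3x-1)`.  See `StepOp.lean` (analysis), `StepDigits.lean` (closed forms)
and `StepComp.lean` (computable approximants).
-/

set_option autoImplicit false
open scoped ContDiff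

namespace Crest.Agent.Box

namespace Step

theorem G_contDiff (m : ℕ) : ContDiff ℝ ∞ (G m) := by
  rw [contDiff_infty]
  intro n
  induction n generalizing m with
  | zero =>
    exact contDiff_zero.2 (continuous_iff_continuousAt.2 fun x => (G_hasDerivAt m x).continuousAt)
  | succ n ih =>
    have e : ((n + 1 : ℕ) : ℕ∞ω) = (n : ℕ∞ω) + 1 := by norm_cast
    rw [e, contDiff_succ_iff_deriv]
    refine ⟨fun x => (G_hasDerivAt m x).differentiableAt, fun h => ?_, ?_⟩
    · exact absurd h (by simp)
    · have e2 : deriv (G m) = G (m + 1) := funext fun x => (G_hasDerivAt m x).deriv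
      rw [e2]; exact ih (m + 1)

theorem g_contDiff : ContDiff ℝ ∞ g := G_contDiff 0

theorem bound_aux (r : ℕ) : (2 : ℝ) ^ r * (3 : ℝ) ^ tri r ≤ (6 : ℝ) ^ ((r + 1) ^ 2) := by
  have h1 : (2 : ℝ) ^ r ≤ (6 : ℝ) ^ r := pow_le_pow_left₀ (by norm_num) (by norm_num) r
  have h2 : (3 : ℝ) ^ tri r ≤ (6 : ℝ) ^ tri r := pow_le_pow_left₀ (by norm_num) (by norm_num) _
  have h3 : r + tri r ≤ (r + 1) ^ 2 := by
    have := two_mul_tri r
    nlinarith
  calc (2 : ℝ) ^ r * (3 : ℝ) ^ tri r ≤ (6 : ℝ) ^ r * (6 : ℝ) ^ tri r :=
        mul_le_mul h1 h2 (by positivity) (by positivity)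
    _ = (6 : ℝ) ^ (r + tri r) := (pow_add _ _ _).symm
    _ ≤ (6 : ℝ) ^ ((r + 1) ^ 2) := pow_le_pow_right₀ (by norm_num) h3

end Step

/-- There is an effective smooth step function (a 3-adic relative of the Fabius function). -/
theorem exists_isStep : ∃ s : ℝ → ℝ, IsStep s :=
  ⟨Step.g,
    { eff :=
        { smooth := Step.g_contDiff
          approx := ⟨fun x => Step.apx x.1 x.2.1 x.2.2, Step.comp_apx, fun r q n => by
            rw [Step.iteratedDeriv_g]
            exact Step.apx_error r q n⟩
          bound := ⟨6, fun r x => by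
            rw [Step.iteratedDeriv_g]
            refine (Step.G_abs_le r x).trans ?_
            have := Step.bound_aux r
            push_cast
            exact this⟩ }
      zero := Step.good_g.zero
      one := fun x hx => Step.good_g.one x (by linarith)
      mem01 := fun x => ⟨Step.good_g.nonneg x, Step.good_g.le_one x⟩ }⟩

end Crest.Agent.Box
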