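import Crest.Agent.Box.Defs
import Crest.Agent.Box.QComp

/-!
# Auxiliary lemmas for `Box/Tensor.lean` (helper9): calculus of pure tensor fields
-/

set_option autoImplicit false
open scoped ContDiff
open Crest.AnalysisR.BoxFlow

namespace Crest.Agent.Box

/-- The pure tensor field built from four one-variable functions (time factor first). -/
noncomputable def tens (g : Fin 4 → ℝ → ℝ) (c : Fin 3) : Field :=
  fun p => Pi.single c (g 0 p.1 * g 1 (p.2 0) * g 2 (p.2 1) * g 3 (p.2 2))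

theorem tensorField_eq_tens (f₀ : ℝ → ℝ) (fs : Fin 3 → ℝ → ℝ) (c : Fin 3) :
    tensorField f₀ fs c = tens (Fin.cons f₀ fs) c := rfl

theorem tens_scal_contDiff {g : Fin 4 → ℝ → ℝ} (hg : ∀ d, ContDiff ℝ ∞ (g d)) :
    ContDiff ℝ ∞ (fun p : ℝ × (Fin 3 → ℝ) => g 0 p.1 * g 1 (p.2 0) * g 2 (p.2 1) * g 3 (p.2 2)) := by
  have h1 : ContDiff ℝ ∞ (fun p : ℝ × (Fin 3 → ℝ) => g 0 p.1) := (hg 0).comp contDiff_fst
  have h2 : ∀ (d : Fin 4) (k : Fin 3), ContDiff ℝ ∞ (fun p : ℝ × (Fin 3 → ℝ) => g d (p.2 k)) :=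
    fun d k => (hg d).comp ((contDiff_apply ℝ ℝ k).comp contDiff_snd)
  exact ((h1.mul (h2 1 0)).mul (h2 2 1)).mul (h2 3 2)

theorem tens_contDiff {g : Fin 4 → ℝ → ℝ} (hg : ∀ d, ContDiff ℝ ∞ (g d)) (c : Fin 3) :
    ContDiff ℝ ∞ (tens g c) := by
  unfold tens
  rw [contDiff_pi]
  intro i
  by_cases h : i = c
  · subst h
    simp only [Pi.single_eq_same]
    exact tens_scal_contDiff hg
  · simp only [Pi.single_eq_of_ne h]
    exact contDiff_const

theorem fderiv_tens_scal {g : Fin 4 → ℝ → ℝ} (hg : ∀ d, ContDiff ℝ ∞ (g d))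
    (p v : ℝ × (Fin 3 → ℝ)) :
    fderiv ℝ (fun p : ℝ × (Fin 3 → ℝ) => g 0 p.1 * g 1 (p.2 0) * g 2 (p.2 1) * g 3 (p.2 2)) p v
      = deriv (g 0) p.1 * v.1 * g 1 (p.2 0) * g 2 (p.2 1) * g 3 (p.2 2)
      + g 0 p.1 * (deriv (g 1) (p.2 0) * v.2 0) * g 2 (p.2 1) * g 3 (p.2 2)
      + g 0 p.1 * g 1 (p.2 0) * (deriv (g 2) (p.2 1) * v.2 1) * g 3 (p.2 2)
      + g 0 p.1 * g 1 (p.2 0) * g 2 (p.2 1) * (deriv (g 3) (p.2 2) * v.2 2) := by
  have hd : ∀ d, Differentiable ℝ (g d) := fun d => (hg d).differentiable (by simp)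
  have h0 : HasFDerivAt (fun p : ℝ × (Fin 3 → ℝ) => g 0 p.1)
      (deriv (g 0) p.1 • ContinuousLinearMap.fst ℝ ℝ (Fin 3 → ℝ)) p :=
    ((hd 0 p.1).hasDerivAt).comp_hasFDerivAt p hasFDerivAt_fst
  have hk : ∀ (k : Fin 4) (j : Fin 3), HasFDerivAt (fun p : ℝ × (Fin 3 → ℝ) => g k (p.2 j))
      (deriv (g k) (p.2 j) • ((ContinuousLinearMap.proj (R := ℝ) (φ := fun _ : Fin 3 => ℝ) j).comp
        (ContinuousLinearMap.snd ℝ ℝ (Fin 3 → ℝ)))) p :=
    fun k j => by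
      have hp : HasFDerivAt (fun p : ℝ × (Fin 3 → ℝ) => p.2 j)
          ((ContinuousLinearMap.proj (R := ℝ) (φ := fun _ : Fin 3 => ℝ) j).comp
            (ContinuousLinearMap.snd ℝ ℝ (Fin 3 → ℝ))) p :=
        ((ContinuousLinearMap.proj (R := ℝ) (φ := fun _ : Fin 3 => ℝ) j).comp
            (ContinuousLinearMap.snd ℝ ℝ (Fin 3 → ℝ))).hasFDerivAt
      exact ((hd k (p.2 j)).hasDerivAt).comp_hasFDerivAt p hp
  have : HasFDerivAt
      (fun p : ℝ × (Fin 3 → ℝ) => g 0 p.1 * g 1 (p.2 0) * g 2 (p.2 1) * g 3 (p.2 2)) _ p :=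
    (((h0.mul (hk 1 0)).mul (hk 2 1)).mul (hk 3 2))
  rw [this.fderiv]
  simp
  ring

theorem fderiv_tens {g : Fin 4 → ℝ → ℝ} (hg : ∀ d, ContDiff ℝ ∞ (g d)) (c : Fin 3)
    (p v : ℝ × (Fin 3 → ℝ)) :
    fderiv ℝ (tens g c) p v = Pi.single c
      (fderiv ℝ (fun p : ℝ × (Fin 3 → ℝ) => g 0 p.1 * g 1 (p.2 0) * g 2 (p.2 1) * g 3 (p.2 2))
        p v) := by
  have hsc := ((tens_scal_contDiff hg).differentiable (by simp) p).hasFDerivAt
  have h := (ContinuousLinearMap.single ℝ (fun _ : Fin 3 => ℝ) c).hasFDerivAt.comp p hsc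
  have h' : HasFDerivAt (tens g c) ((ContinuousLinearMap.single ℝ (fun _ : Fin 3 => ℝ) c).comp
      (fderiv ℝ (fun p : ℝ × (Fin 3 → ℝ) => g 0 p.1 * g 1 (p.2 0) * g 2 (p.2 1) * g 3 (p.2 2))
        p)) p := h
  rw [h'.fderiv]
  rfl

theorem direction_zero : direction 0 = ((1 : ℝ), (0 : Fin 3 → ℝ)) := by
  simp [direction]

theorem direction_succ (j : Fin 3) : direction j.succ = ((0 : ℝ), (Pi.single j 1 : Fin 3 → ℝ)) := by
  simp [direction, Fin.succ_ne_zero]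

theorem fderiv_tens_direction {g : Fin 4 → ℝ → ℝ} (hg : ∀ d, ContDiff ℝ ∞ (g d)) (c : Fin 3)
    (p : ℝ × (Fin 3 → ℝ)) (d : Fin 4) :
    fderiv ℝ (tens g c) p (direction d) = tens (Function.update g d (deriv (g d))) c p := by
  rw [fderiv_tens hg, fderiv_tens_scal hg]
  unfold tens
  congr 1
  refine Fin.cases ?_ (fun j => ?_) d
  · rw [direction_zero]
    simp
  · rw [direction_succ]
    fin_cases j
    · simp
    · simp
    · simp

theorem mixedDeriv_tens {g : Fin 4 → ℝ → ℝ} (hg : ∀ d, ContDiff ℝ ∞ (g d)) (c : Fin 3)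
    (ds : List (Fin 4)) :
    mixedDeriv ds (tens g c) = tens (fun d => iteratedDeriv (ds.count d) (g d)) c := by
  induction ds with
  | nil => simp [mixedDeriv, iteratedDeriv_zero]
  | cons d ds ih =>
    funext p
    have hsm : ∀ d', ContDiff ℝ ∞ (iteratedDeriv (ds.count d') (g d')) := by
      intro d'
      rw [iteratedDeriv_eq_iterate]
      exact (hg d').iterate_deriv _
    show fderiv ℝ (mixedDeriv ds (tens g c)) p (direction d) = _
    rw [ih, fderiv_tens_direction hsm]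
    congr 1
    funext d'
    by_cases h : d' = d
    · subst h
      simp [iteratedDeriv_succ]
    · have h' : ¬ d = d' := fun e => h e.symm
      simp [Function.update_of_ne h, h']

theorem mixedDeriv_contDiff {U : Field} (hU : ContDiff ℝ ∞ U) (ds : List (Fin 4)) :
    ContDiff ℝ ∞ (mixedDeriv ds U) := by
  induction ds with
  | nil => exact hU
  | cons d ds ih =>
    show ContDiff ℝ ∞ (fun p => fderiv ℝ (mixedDeriv ds U) p (direction d))
    exact (ih.fderiv_right (m := ∞) (by simp)).clm_apply contDiff_const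

theorem mixedDeriv_add {U V : Field} (hU : ContDiff ℝ ∞ U) (hV : ContDiff ℝ ∞ V)
    (ds : List (Fin 4)) : mixedDeriv ds (U + V) = mixedDeriv ds U + mixedDeriv ds V := by
  induction ds with
  | nil => rfl
  | cons d ds ih =>
    funext p
    show fderiv ℝ (mixedDeriv ds (U + V)) p (direction d) =
      fderiv ℝ (mixedDeriv ds U) p (direction d) + fderiv ℝ (mixedDeriv ds V) p (direction d)
    rw [ih, fderiv_add ((mixedDeriv_contDiff hU ds).differentiable (by simp) p)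
      ((mixedDeriv_contDiff hV ds).differentiable (by simp) p)]
    rfl

theorem mixedDeriv_zero (ds : List (Fin 4)) : mixedDeriv ds (0 : Field) = 0 := by
  induction ds with
  | nil => rfl
  | cons d ds ih =>
    funext p
    show fderiv ℝ (mixedDeriv ds (0 : Field)) p (direction d) = 0
    rw [ih]
    simp

/-! ### Computability helpers -/

theorem comp_fin_lam {α σ : Type*} [Primcodable α] [Primcodable σ] {n : ℕ} {f : Fin n → α → σ}
    (hf : ∀ i, Computable (f i)) : Computable (fun a i => f i a) :=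
  (Primrec.vector_get'.to_comp.comp (Computable.vector_ofFn hf)).of_eq fun a => by
    funext i; simp

theorem primrec_list_count {α : Type*} [Primcodable α] [DecidableEq α] (d : α) :
    Primrec (fun l : List α => l.count d) := by
  have h1 : Primrec (fun l : List α => List.filter (fun x => decide (x = d)) l) :=
    Primrec.listFilter (p := fun x => x = d) (Primrec.eq.comp Primrec.id (Primrec.const d))
  exact (Primrec.list_length.comp h1).of_eq fun l => by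
    rw [List.count, List.countP_eq_length_filter]
    congr 2

/-- Telescoping estimate for a product of four factors. -/
theorem prod4_err {a0 a1 a2 a3 b0 b1 b2 b3 M ε : ℝ} (hM : 0 ≤ M) (hε : 0 ≤ ε)
    (ha1 : |a1| ≤ M) (ha2 : |a2| ≤ M) (ha3 : |a3| ≤ M)
    (hb0 : |b0| ≤ M) (hb1 : |b1| ≤ M) (hb2 : |b2| ≤ M)
    (h0 : |a0 - b0| ≤ ε) (h1 : |a1 - b1| ≤ ε) (h2 : |a2 - b2| ≤ ε) (h3 : |a3 - b3| ≤ ε) :
    |a0 * a1 * a2 * a3 - b0 * b1 * b2 * b3| ≤ 4 * M ^ 3 * ε := by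
  have e : a0 * a1 * a2 * a3 - b0 * b1 * b2 * b3 =
      (a0 - b0) * a1 * a2 * a3 + b0 * (a1 - b1) * a2 * a3 + b0 * b1 * (a2 - b2) * a3
        + b0 * b1 * b2 * (a3 - b3) := by ring
  rw [e]
  have t1 : |(a0 - b0) * a1 * a2 * a3| ≤ ε * M * M * M := by
    rw [abs_mul, abs_mul, abs_mul]; gcongr
  have t2 : |b0 * (a1 - b1) * a2 * a3| ≤ M * ε * M * M := by
    rw [abs_mul, abs_mul, abs_mul]; gcongr
  have t3 : |b0 * b1 * (a2 - b2) * a3| ≤ M * M * ε * M := by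
    rw [abs_mul, abs_mul, abs_mul]; gcongr
  have t4 : |b0 * b1 * b2 * (a3 - b3)| ≤ M * M * M * ε := by
    rw [abs_mul, abs_mul, abs_mul]; gcongr
  have s1 := abs_add_le ((a0 - b0) * a1 * a2 * a3 + b0 * (a1 - b1) * a2 * a3
    + b0 * b1 * (a2 - b2) * a3) (b0 * b1 * b2 * (a3 - b3))
  have s2 := abs_add_le ((a0 - b0) * a1 * a2 * a3 + b0 * (a1 - b1) * a2 * a3)
    (b0 * b1 * (a2 - b2) * a3)
  have s3 := abs_add_le ((a0 - b0) * a1 * a2 * a3) (b0 * (a1 - b1) * a2 * a3)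
  nlinarith [s1, s2, s3, t1, t2, t3, t4]

theorem iter_bound_aux {g : ℝ → ℝ} {K K' : ℕ}
    (hK : ∀ (r : ℕ) (x : ℝ), |iteratedDeriv r g x| ≤ (K : ℝ) ^ ((r + 1) ^ 2))
    (hKK' : K ≤ K') (hK'1 : 1 ≤ K') {r L : ℕ} (hr : r ≤ L) (x : ℝ) :
    |iteratedDeriv r g x| ≤ ((K' ^ ((L + 1) ^ 2) : ℕ) : ℝ) := by
  have h1 : (K : ℝ) ≤ (K' : ℝ) := by exact_mod_cast hKK'
  have h2 : (1 : ℝ) ≤ (K' : ℝ) := by exact_mod_cast hK'1
  have h3 : (r + 1) ^ 2 ≤ (L + 1) ^ 2 := Nat.pow_le_pow_left (by omega) 2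
  calc |iteratedDeriv r g x| ≤ (K : ℝ) ^ ((r + 1) ^ 2) := hK r x
    _ ≤ (K' : ℝ) ^ ((r + 1) ^ 2) := by gcongr
    _ ≤ (K' : ℝ) ^ ((L + 1) ^ 2) := pow_le_pow_right₀ h2 h3
    _ = ((K' ^ ((L + 1) ^ 2) : ℕ) : ℝ) := by push_cast; rfl

end Crest.Agent.Box
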