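import Crest.Agent.Box.Defs
import Crest.Agent.Box.QComp
import Crest.Agent.Box.Helper9Tensor

/-!
# Layer 2 for S0170: pure tensor fields are smooth and effective; sums of effective fields
-/

set_option autoImplicit false
open scoped ContDiff
open Crest.AnalysisR.BoxFlow

namespace Crest.Agent.Box

private theorem cons_contDiff {f₀ : ℝ → ℝ} {fs : Fin 3 → ℝ → ℝ} (h₀ : ContDiff ℝ ∞ f₀)
    (hs : ∀ k, ContDiff ℝ ∞ (fs k)) (d : Fin 4) :
    ContDiff ℝ ∞ ((Fin.cons f₀ fs : Fin 4 → ℝ → ℝ) d) := by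
  refine Fin.cases ?_ (fun j => ?_) d
  · simpa using h₀
  · simpa using hs j

theorem tensorField_contDiff {f₀ : ℝ → ℝ} {fs : Fin 3 → ℝ → ℝ} (h₀ : ContDiff ℝ ∞ f₀)
    (hs : ∀ k, ContDiff ℝ ∞ (fs k)) (c : Fin 3) : ContDiff ℝ ∞ (tensorField f₀ fs c) := by
  rw [tensorField_eq_tens]
  exact tens_contDiff (cons_contDiff h₀ hs) c

/-- The space divergence of a pure tensor field: differentiate the factor of the coordinate `c`. -/
theorem spaceDiv_tensorField {f₀ : ℝ → ℝ} {fs : Fin 3 → ℝ → ℝ} (h₀ : ContDiff ℝ ∞ f₀)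
    (hs : ∀ k, ContDiff ℝ ∞ (fs k)) (c : Fin 3) (p : ℝ × (Fin 3 → ℝ)) :
    spaceDiv (tensorField f₀ fs c) p =
      f₀ p.1 * Function.update fs c (deriv (fs c)) 0 (p.2 0) *
        Function.update fs c (deriv (fs c)) 1 (p.2 1) *
        Function.update fs c (deriv (fs c)) 2 (p.2 2) := by
  rw [tensorField_eq_tens]
  unfold spaceDiv
  simp only [← direction_succ]
  simp only [fderiv_tens_direction (cons_contDiff h₀ hs)]
  rw [Fin.sum_univ_three]
  have e2 : (Fin.cons f₀ fs : Fin 4 → ℝ → ℝ) 2 = fs 1 := rfl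
  have e3 : (Fin.cons f₀ fs : Fin 4 → ℝ → ℝ) 3 = fs 2 := rfl
  fin_cases c <;> simp [tens, e2, e3]

theorem spaceDiv_add {U V : Field} (hU : ContDiff ℝ ∞ U) (hV : ContDiff ℝ ∞ V)
    (p : ℝ × (Fin 3 → ℝ)) : spaceDiv (U + V) p = spaceDiv U p + spaceDiv V p := by
  unfold spaceDiv
  rw [fderiv_add (hU.differentiable (by simp) p) (hV.differentiable (by simp) p),
    ← Finset.sum_add_distrib]
  rfl

private theorem tens_effective {g : Fin 4 → ℝ → ℝ} (hg : ∀ d, Eff1 (g d)) (c : Fin 3) :
    Effective (tens g c) := by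
  have hsm : ∀ d, ContDiff ℝ ∞ (g d) := fun d => (hg d).smooth
  choose e he_comp he using fun d => (hg d).approx
  choose K hK using fun d => (hg d).bound
  obtain ⟨K', hK'1, hKd⟩ : ∃ K' : ℕ, 1 ≤ K' ∧ ∀ d, K d ≤ K' := by
    refine ⟨K 0 + K 1 + K 2 + K 3 + 1, by omega, ?_⟩
    intro d
    fin_cases d <;> simp <;> omega
  let B : List (Fin 4) → ℕ := fun ds => K' ^ ((ds.length + 1) ^ 2)
  let N : List (Fin 4) × (ℚ × (Fin 3 → ℚ)) × ℕ → ℕ :=
    fun a => 4 * (B a.1 + 1) ^ 3 * (a.2.2 + 1)
  let P : List (Fin 4) × (ℚ × (Fin 3 → ℚ)) × ℕ → ℚ := fun a =>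
    e 0 (a.1.count 0, a.2.1.1, N a) * e 1 (a.1.count 1, a.2.1.2 0, N a) *
      e 2 (a.1.count 2, a.2.1.2 1, N a) * e 3 (a.1.count 3, a.2.1.2 2, N a)
  have hB : Computable B :=
    comp_nat_pow.comp (Computable.const K')
      (comp_nat_pow.comp (Computable.succ.comp Computable.list_length) (Computable.const 2))
  have hN : Computable N :=
    Primrec.nat_mul.to_comp.comp
      (Primrec.nat_mul.to_comp.comp (Computable.const 4)
        (comp_nat_pow.comp (Computable.succ.comp (hB.comp Computable.fst)) (Computable.const 3)))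
      (Computable.succ.comp (Computable.snd.comp Computable.snd))
  have hcount : ∀ d : Fin 4,
      Computable (fun a : List (Fin 4) × (ℚ × (Fin 3 → ℚ)) × ℕ => a.1.count d) :=
    fun d => (primrec_list_count d).to_comp.comp Computable.fst
  have ht : Computable (fun a : List (Fin 4) × (ℚ × (Fin 3 → ℚ)) × ℕ => a.2.1.1) :=
    Computable.fst.comp (Computable.fst.comp Computable.snd)
  have hq : ∀ k : Fin 3,
      Computable (fun a : List (Fin 4) × (ℚ × (Fin 3 → ℚ)) × ℕ => a.2.1.2 k) :=
    fun k => Computable.fin_app.comp (Computable.snd.comp (Computable.fst.comp Computable.snd))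
      (Computable.const k)
  have hP : Computable P :=
    comp_rat_mul.comp (comp_rat_mul.comp (comp_rat_mul.comp
      ((he_comp 0).comp (Computable.pair (hcount 0) (Computable.pair ht hN)))
      ((he_comp 1).comp (Computable.pair (hcount 1) (Computable.pair (hq 0) hN))))
      ((he_comp 2).comp (Computable.pair (hcount 2) (Computable.pair (hq 1) hN))))
      ((he_comp 3).comp (Computable.pair (hcount 3) (Computable.pair (hq 2) hN)))
  refine ⟨fun a => Pi.single c (P a), fun ds => B ds ^ 4, ?_, ?_, ?_, ?_⟩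
  · have : ∀ i : Fin 3, Computable (fun a => (Pi.single c (P a) : Fin 3 → ℚ) i) := by
      intro i
      by_cases h : i = c
      · subst h
        simpa using hP
      · simpa [Pi.single_eq_of_ne h] using (Computable.const (0 : ℚ))
    exact comp_fin_lam this
  · exact comp_nat_pow.comp hB (Computable.const 4)
  · intro ds t q n j
    rw [mixedDeriv_tens hsm]
    have hcnt : ∀ d : Fin 4, ds.count d ≤ ds.length := fun d => List.count_le_length
    have hBb : ∀ (d : Fin 4) (x : ℝ), |iteratedDeriv (ds.count d) (g d) x| ≤ (B ds : ℝ) :=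
      fun d x => iter_bound_aux (hK d) (hKd d) hK'1 (hcnt d) x
    by_cases hj : j = c
    · subst hj
      simp only [tens, Pi.single_eq_same]
      have hε : (0 : ℝ) ≤ 1 / ((N (ds, (t, q), n) : ℝ) + 1) := by positivity
      have hε1 : 1 / ((N (ds, (t, q), n) : ℝ) + 1) ≤ 1 := by
        rw [div_le_one (by positivity)]
        linarith [Nat.cast_nonneg (α := ℝ) (N (ds, (t, q), n))]
      have hb : ∀ (d : Fin 4) (x : ℚ),
          |(e d (ds.count d, x, N (ds, (t, q), n)) : ℝ)| ≤ (B ds : ℝ) + 1 := by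
        intro d x
        have h1 := he d (ds.count d) x (N (ds, (t, q), n))
        have h2 := hBb d (x : ℝ)
        have h3 := abs_sub_abs_le_abs_sub (e d (ds.count d, x, N (ds, (t, q), n)) : ℝ)
          (iteratedDeriv (ds.count d) (g d) (x : ℝ))
        rw [abs_sub_comm] at h3
        linarith
      have hM : (0 : ℝ) ≤ (B ds : ℝ) + 1 := by positivity
      have ha : ∀ (d : Fin 4) (x : ℝ), |iteratedDeriv (ds.count d) (g d) x| ≤ (B ds : ℝ) + 1 :=
        fun d x => (hBb d x).trans (by linarith)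
      have main := prod4_err hM hε (ha 1 (ratPoint q 0)) (ha 2 (ratPoint q 1))
        (ha 3 (ratPoint q 2)) (hb 0 t) (hb 1 (q 0)) (hb 2 (q 1))
        (he 0 (ds.count 0) t (N (ds, (t, q), n))) (he 1 (ds.count 1) (q 0) (N (ds, (t, q), n)))
        (he 2 (ds.count 2) (q 1) (N (ds, (t, q), n))) (he 3 (ds.count 3) (q 2) (N (ds, (t, q), n)))
      have hfin : 4 * ((B ds : ℝ) + 1) ^ 3 * (1 / ((N (ds, (t, q), n) : ℝ) + 1))
          ≤ 1 / ((n : ℝ) + 1) := by
        have hNr : (N (ds, (t, q), n) : ℝ) = 4 * ((B ds : ℝ) + 1) ^ 3 * ((n : ℝ) + 1) := by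
          simp only [N]
          push_cast
          ring
        rw [hNr, mul_one_div, div_le_div_iff₀ (by positivity) (by positivity)]
        linarith
      refine le_trans (le_of_eq ?_) (main.trans hfin)
      congr 1
      simp only [P]
      push_cast
      rfl
    · simp only [tens, Pi.single_eq_of_ne hj]
      simp
      positivity
  · intro ds p j
    rw [mixedDeriv_tens hsm]
    have hcnt : ∀ d : Fin 4, ds.count d ≤ ds.length := fun d => List.count_le_length
    have hBb : ∀ (d : Fin 4) (x : ℝ), |iteratedDeriv (ds.count d) (g d) x| ≤ (B ds : ℝ) :=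
      fun d x => iter_bound_aux (hK d) (hKd d) hK'1 (hcnt d) x
    by_cases hj : j = c
    · subst hj
      simp only [tens, Pi.single_eq_same]
      rw [abs_mul, abs_mul, abs_mul]
      push_cast
      calc _ ≤ (B ds : ℝ) * (B ds : ℝ) * (B ds : ℝ) * (B ds : ℝ) := by
            gcongr <;> apply hBb
        _ = (B ds : ℝ) ^ 4 := by ring
    · simp only [tens, Pi.single_eq_of_ne hj]
      simp

theorem tensorField_effective {f₀ : ℝ → ℝ} {fs : Fin 3 → ℝ → ℝ} (h₀ : Eff1 f₀)
    (hs : ∀ k, Eff1 (fs k)) (c : Fin 3) : Effective (tensorField f₀ fs c) := by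
  rw [tensorField_eq_tens]
  refine tens_effective (fun d => ?_) c
  refine Fin.cases ?_ (fun j => ?_) d
  · simpa using h₀
  · simpa using hs j

theorem effective_zero : Effective (0 : Field) := by
  refine ⟨fun _ => 0, fun _ => 0, Computable.const 0, Computable.const 0, ?_, ?_⟩
  · intro ds t q n j
    rw [mixedDeriv_zero]
    simp
    positivity
  · intro ds p j
    rw [mixedDeriv_zero]
    simp

theorem effective_add {U V : Field} (hU : ContDiff ℝ ∞ U) (hV : ContDiff ℝ ∞ V)
    (eU : Effective U) (eV : Effective V) : Effective (U + V) := by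
  obtain ⟨EU, bU, hEU, hbU, aU, boundU⟩ := eU
  obtain ⟨EV, bV, hEV, hbV, aV, boundV⟩ := eV
  have h2n : Computable (fun a : List (Fin 4) × (ℚ × (Fin 3 → ℚ)) × ℕ =>
      (a.1, a.2.1, 2 * a.2.2 + 1)) :=
    Computable.pair Computable.fst (Computable.pair (Computable.fst.comp Computable.snd)
      (Computable.succ.comp (Primrec.nat_mul.to_comp.comp (Computable.const 2)
        (Computable.snd.comp Computable.snd))))
  refine ⟨fun a i => EU (a.1, a.2.1, 2 * a.2.2 + 1) i + EV (a.1, a.2.1, 2 * a.2.2 + 1) i,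
    fun ds => bU ds + bV ds, ?_, ?_, ?_, ?_⟩
  · refine comp_fin_lam (fun i => ?_)
    exact comp_rat_add.comp
      (Computable.fin_app.comp (hEU.comp h2n) (Computable.const i))
      (Computable.fin_app.comp (hEV.comp h2n) (Computable.const i))
  · exact Primrec.nat_add.to_comp.comp hbU hbV
  · intro ds t q n j
    rw [mixedDeriv_add hU hV]
    have h1 := aU ds t q (2 * n + 1) j
    have h2 := aV ds t q (2 * n + 1) j
    have e : (1 : ℝ) / (((2 * n + 1 : ℕ) : ℝ) + 1) = 1 / ((n : ℝ) + 1) / 2 := by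
      push_cast
      field_simp
      ring
    rw [e] at h1 h2
    simp only [Pi.add_apply]
    push_cast
    have h3 := abs_add_le (mixedDeriv ds U ((t : ℝ), ratPoint q) j - (EU (ds, (t, q), 2 * n + 1) j : ℝ))
      (mixedDeriv ds V ((t : ℝ), ratPoint q) j - (EV (ds, (t, q), 2 * n + 1) j : ℝ))
    have e2 : mixedDeriv ds U ((t : ℝ), ratPoint q) j + mixedDeriv ds V ((t : ℝ), ratPoint q) j -
        ((EU (ds, (t, q), 2 * n + 1) j : ℝ) + (EV (ds, (t, q), 2 * n + 1) j : ℝ)) =
        (mixedDeriv ds U ((t : ℝ), ratPoint q) j - (EU (ds, (t, q), 2 * n + 1) j : ℝ)) +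
        (mixedDeriv ds V ((t : ℝ), ratPoint q) j - (EV (ds, (t, q), 2 * n + 1) j : ℝ)) := by ring
    rw [e2]
    linarith
  · intro ds p j
    rw [mixedDeriv_add hU hV]
    simp only [Pi.add_apply]
    push_cast
    exact (abs_add_le _ _).trans (add_le_add (boundU ds p j) (boundV ds p j))

end Crest.Agent.Box
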