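import Crest.Agent.Box.Defs
import Crest.Agent.Box.Eff1
import Crest.Agent.Box.Tensor

/-!
# Layer 3 for S0170: the velocity field of a move and of a list of moves
-/

set_option autoImplicit false
open scoped ContDiff
open Crest.AnalysisR.BoxFlow

namespace Crest.Agent.Box

variable {s : ℝ → ℝ}

/-! ### Basic facts about a step function -/

theorem IsStep.differentiable (hs : IsStep s) : Differentiable ℝ s :=
  hs.eff.smooth.differentiable (by simp)

theorem IsStep.deriv_eq_zero_of_eq_zero (hs : IsStep s) {x : ℝ} (hx : s x = 0) :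
    deriv s x = 0 := by
  apply IsLocalMin.deriv_eq_zero
  apply Filter.Eventually.of_forall
  intro y
  rw [hx]
  exact (hs.mem01 y).1

theorem IsStep.deriv_eq_zero_of_eq_one (hs : IsStep s) {x : ℝ} (hx : s x = 1) :
    deriv s x = 0 := by
  apply IsLocalMax.deriv_eq_zero
  apply Filter.Eventually.of_forall
  intro y
  rw [hx]
  exact (hs.mem01 y).2

/-! ### The time step and the time profile -/

/-- `θ(t) = s ((t - t₀) / τ)`, whose derivative is `timeProfile s t₀ τ`. -/
noncomputable def timeStep (s : ℝ → ℝ) (t₀ τ : ℚ) : ℝ → ℝ :=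
  fun t => s (((1 / τ : ℚ) : ℝ) * t + ((-t₀ / τ : ℚ) : ℝ))

theorem time_arg_eq (t₀ τ : ℚ) (hτ : 0 < τ) (t : ℝ) :
    ((1 / τ : ℚ) : ℝ) * t + ((-t₀ / τ : ℚ) : ℝ) = (t - (t₀ : ℝ)) / (τ : ℝ) := by
  have h : (τ : ℝ) ≠ 0 := by exact_mod_cast hτ.ne'
  push_cast
  field_simp
  ring

theorem timeStep_hasDerivAt (hs : IsStep s) (t₀ τ : ℚ) (t : ℝ) :
    HasDerivAt (timeStep s t₀ τ) (timeProfile s t₀ τ t) t := by
  have h1 : HasDerivAt (fun t : ℝ => ((1 / τ : ℚ) : ℝ) * t + ((-t₀ / τ : ℚ) : ℝ))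
      ((1 / τ : ℚ) : ℝ) t := by
    simpa using ((hasDerivAt_id t).const_mul ((1 / τ : ℚ) : ℝ)).add_const ((-t₀ / τ : ℚ) : ℝ)
  have h2 : HasDerivAt s (deriv s (((1 / τ : ℚ) : ℝ) * t + ((-t₀ / τ : ℚ) : ℝ)))
      (((1 / τ : ℚ) : ℝ) * t + ((-t₀ / τ : ℚ) : ℝ)) := (hs.differentiable _).hasDerivAt
  have h3 := HasDerivAt.comp t h2 h1
  have h4 : timeProfile s t₀ τ t
      = deriv s (((1 / τ : ℚ) : ℝ) * t + ((-t₀ / τ : ℚ) : ℝ)) * ((1 / τ : ℚ) : ℝ) := by
    unfold timeProfile
    ring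
  rw [h4]
  exact h3

theorem timeStep_of_le (hs : IsStep s) (t₀ τ : ℚ) (hτ : 0 < τ) (t : ℝ) (ht : t ≤ (t₀ : ℝ)) :
    timeStep s t₀ τ t = 0 := by
  unfold timeStep
  rw [time_arg_eq t₀ τ hτ t]
  apply hs.zero
  have h : (0 : ℝ) < (τ : ℝ) := by exact_mod_cast hτ
  exact div_nonpos_of_nonpos_of_nonneg (by linarith) h.le

theorem timeStep_of_ge (hs : IsStep s) (t₀ τ : ℚ) (hτ : 0 < τ) (t : ℝ)
    (ht : ((t₀ + τ : ℚ) : ℝ) ≤ t) : timeStep s t₀ τ t = 1 := by
  unfold timeStep
  rw [time_arg_eq t₀ τ hτ t]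
  apply hs.one
  have h : (0 : ℝ) < (τ : ℝ) := by exact_mod_cast hτ
  push_cast at ht
  rw [le_div_iff₀ h]
  linarith

theorem timeStep_mem01 (hs : IsStep s) (t₀ τ : ℚ) (t : ℝ) :
    0 ≤ timeStep s t₀ τ t ∧ timeStep s t₀ τ t ≤ 1 := hs.mem01 _

/-- The time profile vanishes outside the open time window. -/
theorem timeProfile_eq_zero (hs : IsStep s) (t₀ τ : ℚ) (hτ : 0 < τ) (t : ℝ)
    (h : t ≤ (t₀ : ℝ) ∨ ((t₀ + τ : ℚ) : ℝ) ≤ t) : timeProfile s t₀ τ t = 0 := by
  unfold timeProfile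
  rcases h with h | h
  · have := timeStep_of_le hs t₀ τ hτ t h
    unfold timeStep at this
    rw [hs.deriv_eq_zero_of_eq_zero this, mul_zero]
  · have := timeStep_of_ge hs t₀ τ hτ t h
    unfold timeStep at this
    rw [hs.deriv_eq_zero_of_eq_one this, mul_zero]

/-! ### One-variable cutoffs -/

theorem cutoff_arg1 (lo δ : ℚ) (hδ : 0 < δ) (y : ℝ) :
    ((1 / δ : ℚ) : ℝ) * y + (((δ - lo) / δ : ℚ) : ℝ) = (y - (lo : ℝ) + (δ : ℝ)) / (δ : ℝ) := by
  have h : (δ : ℝ) ≠ 0 := by exact_mod_cast hδ.ne'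
  push_cast
  field_simp
  ring

theorem cutoff_arg2 (hi δ : ℚ) (hδ : 0 < δ) (y : ℝ) :
    ((-1 / δ : ℚ) : ℝ) * y + (((hi + δ) / δ : ℚ) : ℝ) = ((hi : ℝ) + (δ : ℝ) - y) / (δ : ℝ) := by
  have h : (δ : ℝ) ≠ 0 := by exact_mod_cast hδ.ne'
  push_cast
  field_simp
  ring

theorem cutoff_eq_one (hs : IsStep s) (lo hi δ : ℚ) (hδ : 0 < δ) (y : ℝ)
    (h1 : (lo : ℝ) ≤ y) (h2 : y ≤ (hi : ℝ)) : cutoff s lo hi δ y = 1 := by
  have h : (0 : ℝ) < (δ : ℝ) := by exact_mod_cast hδ
  unfold cutoff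
  rw [cutoff_arg1 lo δ hδ y, cutoff_arg2 hi δ hδ y, hs.one, hs.one, mul_one]
  · rw [le_div_iff₀ h]; linarith
  · rw [le_div_iff₀ h]; linarith

theorem cutoff_eq_zero (hs : IsStep s) (lo hi δ : ℚ) (hδ : 0 < δ) (y : ℝ)
    (hy : y ≤ (lo : ℝ) - (δ : ℝ) ∨ (hi : ℝ) + (δ : ℝ) ≤ y) : cutoff s lo hi δ y = 0 := by
  have h : (0 : ℝ) < (δ : ℝ) := by exact_mod_cast hδ
  unfold cutoff
  rw [cutoff_arg1 lo δ hδ y, cutoff_arg2 hi δ hδ y]
  rcases hy with hy | hy
  · rw [hs.zero _ (div_nonpos_of_nonpos_of_nonneg (by linarith) h.le), zero_mul]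
  · rw [hs.zero (((hi : ℝ) + (δ : ℝ) - y) / (δ : ℝ))
      (div_nonpos_of_nonpos_of_nonneg (by linarith) h.le), mul_zero]

theorem cutoff_mem01 (hs : IsStep s) (lo hi δ : ℚ) (y : ℝ) :
    0 ≤ cutoff s lo hi δ y ∧ cutoff s lo hi δ y ≤ 1 := by
  unfold cutoff
  have h1 := hs.mem01 (((1 / δ : ℚ) : ℝ) * y + (((δ - lo) / δ : ℚ) : ℝ))
  have h2 := hs.mem01 (((-1 / δ : ℚ) : ℝ) * y + (((hi + δ) / δ : ℚ) : ℝ))
  exact ⟨mul_nonneg h1.1 h2.1, mul_le_one₀ h1.2 h2.1 h2.2⟩

theorem cutoff_contDiff (hs : IsStep s) (lo hi δ : ℚ) : ContDiff ℝ ∞ (cutoff s lo hi δ) := by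
  unfold cutoff
  exact (hs.eff.smooth.comp ((contDiff_const.mul contDiff_id).add contDiff_const)).mul
    (hs.eff.smooth.comp ((contDiff_const.mul contDiff_id).add contDiff_const))

theorem cutoff_differentiable (hs : IsStep s) (lo hi δ : ℚ) :
    Differentiable ℝ (cutoff s lo hi δ) :=
  (cutoff_contDiff hs lo hi δ).differentiable (by simp)

theorem cutoff_deriv_of_eq_one (hs : IsStep s) (lo hi δ : ℚ) {y : ℝ}
    (hy : cutoff s lo hi δ y = 1) : deriv (cutoff s lo hi δ) y = 0 := by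
  apply IsLocalMax.deriv_eq_zero
  apply Filter.Eventually.of_forall
  intro z
  rw [hy]
  exact (cutoff_mem01 hs lo hi δ z).2

theorem cutoff_deriv_of_eq_zero (hs : IsStep s) (lo hi δ : ℚ) {y : ℝ}
    (hy : cutoff s lo hi δ y = 0) : deriv (cutoff s lo hi δ) y = 0 := by
  apply IsLocalMin.deriv_eq_zero
  apply Filter.Eventually.of_forall
  intro z
  rw [hy]
  exact (cutoff_mem01 hs lo hi δ z).1

/-! ### The cut-off potential -/

theorem pot_hasDerivAt (m : Move) (y : ℝ) :
    HasDerivAt m.pot ((m.α : ℝ) + (m.a : ℝ) * (y - (m.c : ℝ))) y := by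
  have h1 : HasDerivAt (fun y : ℝ => (m.α : ℝ) * y) (m.α : ℝ) y := by
    simpa using (hasDerivAt_id y).const_mul (m.α : ℝ)
  have hb : HasDerivAt (fun y : ℝ => y - (m.c : ℝ)) 1 y := (hasDerivAt_id y).sub_const _
  have h2 : HasDerivAt (fun y : ℝ => (y - (m.c : ℝ)) * (y - (m.c : ℝ)))
      (1 * (y - (m.c : ℝ)) + (y - (m.c : ℝ)) * 1) y := hb.mul hb
  have h3 : HasDerivAt (fun y : ℝ => (m.α : ℝ) * y
        + (m.a : ℝ) * ((y - (m.c : ℝ)) * (y - (m.c : ℝ))) / 2)
      ((m.α : ℝ) + (m.a : ℝ) * (1 * (y - (m.c : ℝ)) + (y - (m.c : ℝ)) * 1) / 2) y :=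
    h1.add ((h2.const_mul (m.a : ℝ)).div_const 2)
  have e1 : m.pot = fun y : ℝ => (m.α : ℝ) * y
      + (m.a : ℝ) * ((y - (m.c : ℝ)) * (y - (m.c : ℝ))) / 2 := by
    funext z
    unfold Move.pot
    ring
  have e2 : (m.α : ℝ) + (m.a : ℝ) * (y - (m.c : ℝ))
      = (m.α : ℝ) + (m.a : ℝ) * (1 * (y - (m.c : ℝ)) + (y - (m.c : ℝ)) * 1) / 2 := by ring
  rw [e1, e2]
  exact h3

theorem gfun_hasDerivAt (hs : IsStep s) (m : Move) (y : ℝ) :
    HasDerivAt (m.gfun s)
      (((m.α : ℝ) + (m.a : ℝ) * (y - (m.c : ℝ))) * m.chi s m.j y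
        + m.pot y * deriv (m.chi s m.j) y) y := by
  unfold Move.gfun
  exact (pot_hasDerivAt m y).mul (cutoff_differentiable hs _ _ _ y).hasDerivAt

theorem gfun_deriv_of_chi_eq_one (hs : IsStep s) (m : Move) {y : ℝ} (hy : m.chi s m.j y = 1) :
    deriv (m.gfun s) y = (m.α : ℝ) + (m.a : ℝ) * (y - (m.c : ℝ)) := by
  rw [(gfun_hasDerivAt hs m y).deriv, hy]
  have : deriv (m.chi s m.j) y = 0 := cutoff_deriv_of_eq_one hs _ _ _ hy
  rw [this]
  ring

theorem gfun_deriv_of_chi_eq_zero (hs : IsStep s) (m : Move) {y : ℝ} (hy : m.chi s m.j y = 0) :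
    deriv (m.gfun s) y = 0 := by
  rw [(gfun_hasDerivAt hs m y).deriv, hy]
  have : deriv (m.chi s m.j) y = 0 := cutoff_deriv_of_eq_zero hs _ _ _ hy
  rw [this]
  ring

theorem gfun_of_chi_eq_zero (m : Move) {y : ℝ} (hy : m.chi s m.j y = 0) : m.gfun s y = 0 := by
  unfold Move.gfun
  rw [hy, mul_zero]

theorem chi_eq_one (hs : IsStep s) (m : Move) (k : Fin 3) {y : ℝ}
    (h1 : (m.lo k : ℝ) ≤ y) (h2 : y ≤ (m.hi k : ℝ)) : m.chi s k y = 1 :=
  cutoff_eq_one hs _ _ _ m.hδ y h1 h2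

theorem chi_eq_zero (hs : IsStep s) (m : Move) (k : Fin 3) {y : ℝ}
    (hy : y ≤ (m.lo k : ℝ) - (m.δ : ℝ) ∨ (m.hi k : ℝ) + (m.δ : ℝ) ≤ y) : m.chi s k y = 0 :=
  cutoff_eq_zero hs _ _ _ m.hδ y hy

theorem chi_deriv_of_eq_one (hs : IsStep s) (m : Move) (k : Fin 3) {y : ℝ}
    (hy : m.chi s k y = 1) : deriv (m.chi s k) y = 0 :=
  cutoff_deriv_of_eq_one hs _ _ _ hy

theorem chi_deriv_of_eq_zero (hs : IsStep s) (m : Move) (k : Fin 3) {y : ℝ}
    (hy : m.chi s k y = 0) : deriv (m.chi s k) y = 0 :=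
  cutoff_deriv_of_eq_zero hs _ _ _ hy

/-! ### The field of a move -/

theorem tensorField_apply_prod (f₀ : ℝ → ℝ) (fs : Fin 3 → ℝ → ℝ) (c : Fin 3)
    (p : ℝ × (Fin 3 → ℝ)) :
    tensorField f₀ fs c p = Pi.single c (f₀ p.1 * ∏ k : Fin 3, fs k (p.2 k)) := by
  unfold tensorField
  rw [Fin.prod_univ_three]
  congr 1
  ring

theorem moveField_apply (m : Move) (t₀ τ : ℚ) (p : ℝ × (Fin 3 → ℝ)) :
    moveField s m t₀ τ p =
      Pi.single m.i (timeProfile s t₀ τ p.1 *
        ∏ k : Fin 3, Function.update (m.chi s) m.j (deriv (m.gfun s)) k (p.2 k)) +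
      Pi.single m.j (- timeProfile s t₀ τ p.1 *
        ∏ k : Fin 3, Function.update (Function.update (m.chi s) m.i (deriv (m.chi s m.i)))
          m.j (m.gfun s) k (p.2 k)) := by
  unfold moveField
  rw [Pi.add_apply, tensorField_apply_prod, tensorField_apply_prod]

theorem eff1_chi (hs : IsStep s) (m : Move) (k : Fin 3) : Eff1 (m.chi s k) :=
  eff1_cutoff hs _ _ _ m.hδ

theorem eff1_fs1 (hs : IsStep s) (m : Move) (k : Fin 3) :
    Eff1 (Function.update (m.chi s) m.j (deriv (m.gfun s)) k) := by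
  by_cases h : k = m.j
  · subst h
    rw [Function.update_self]
    exact (eff1_gfun hs m).deriv
  · rw [Function.update_of_ne h]
    exact eff1_chi hs m k

theorem eff1_fs2 (hs : IsStep s) (m : Move) (k : Fin 3) :
    Eff1 (Function.update (Function.update (m.chi s) m.i (deriv (m.chi s m.i)))
      m.j (m.gfun s) k) := by
  by_cases h : k = m.j
  · subst h
    rw [Function.update_self]
    exact eff1_gfun hs m
  · rw [Function.update_of_ne h]
    by_cases h' : k = m.i
    · subst h'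
      rw [Function.update_self]
      exact (eff1_chi hs m _).deriv
    · rw [Function.update_of_ne h']
      exact eff1_chi hs m k

theorem moveField_contDiff1 (hs : IsStep s) (m : Move) (t₀ τ : ℚ) (hτ : 0 < τ) :
    ContDiff ℝ ∞ (tensorField (timeProfile s t₀ τ)
      (Function.update (m.chi s) m.j (deriv (m.gfun s))) m.i) :=
  tensorField_contDiff (eff1_timeProfile hs t₀ τ hτ).smooth (fun k => (eff1_fs1 hs m k).smooth) m.i

theorem moveField_contDiff2 (hs : IsStep s) (m : Move) (t₀ τ : ℚ) (hτ : 0 < τ) :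
    ContDiff ℝ ∞ (tensorField (fun t => - timeProfile s t₀ τ t)
      (Function.update (Function.update (m.chi s) m.i (deriv (m.chi s m.i))) m.j (m.gfun s))
      m.j) :=
  tensorField_contDiff (eff1_timeProfile hs t₀ τ hτ).neg.smooth
    (fun k => (eff1_fs2 hs m k).smooth) m.j

theorem moveField_contDiff (hs : IsStep s) (m : Move) (t₀ τ : ℚ) (hτ : 0 < τ) :
    ContDiff ℝ ∞ (moveField s m t₀ τ) := by
  unfold moveField
  exact (moveField_contDiff1 hs m t₀ τ hτ).add (moveField_contDiff2 hs m t₀ τ hτ)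

theorem moveField_effective (hs : IsStep s) (m : Move) (t₀ τ : ℚ) (hτ : 0 < τ) :
    Effective (moveField s m t₀ τ) := by
  unfold moveField
  exact effective_add (moveField_contDiff1 hs m t₀ τ hτ) (moveField_contDiff2 hs m t₀ τ hτ)
    (tensorField_effective (eff1_timeProfile hs t₀ τ hτ) (eff1_fs1 hs m) m.i)
    (tensorField_effective (eff1_timeProfile hs t₀ τ hτ).neg (eff1_fs2 hs m) m.j)

theorem moveField_div (hs : IsStep s) (m : Move) (t₀ τ : ℚ) (hτ : 0 < τ)
    (p : ℝ × (Fin 3 → ℝ)) : spaceDiv (moveField s m t₀ τ) p = 0 := by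
  unfold moveField
  rw [spaceDiv_add (moveField_contDiff1 hs m t₀ τ hτ) (moveField_contDiff2 hs m t₀ τ hτ),
    spaceDiv_tensorField (eff1_timeProfile hs t₀ τ hτ).smooth (fun k => (eff1_fs1 hs m k).smooth),
    spaceDiv_tensorField (eff1_timeProfile hs t₀ τ hτ).neg.smooth
      (fun k => (eff1_fs2 hs m k).smooth)]
  have hF : Function.update (Function.update (m.chi s) m.j (deriv (m.gfun s))) m.i
        (deriv (Function.update (m.chi s) m.j (deriv (m.gfun s)) m.i))
      = Function.update (Function.update (Function.update (m.chi s) m.i (deriv (m.chi s m.i)))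
          m.j (m.gfun s)) m.j
        (deriv (Function.update (Function.update (m.chi s) m.i (deriv (m.chi s m.i)))
          m.j (m.gfun s) m.j)) := by
    rw [Function.update_of_ne m.hij, Function.update_self, Function.update_idem,
      Function.update_comm m.hij]
  rw [hF]
  ring

/-- The field vanishes outside the time window. -/
theorem moveField_time_zero (hs : IsStep s) (m : Move) (t₀ τ : ℚ) (hτ : 0 < τ)
    (p : ℝ × (Fin 3 → ℝ)) (h : p.1 ≤ (t₀ : ℝ) ∨ ((t₀ + τ : ℚ) : ℝ) ≤ p.1) :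
    moveField s m t₀ τ p = 0 := by
  rw [moveField_apply, timeProfile_eq_zero hs t₀ τ hτ p.1 h]
  simp

/-- On the inner box the field is the prescribed affine velocity, scaled by the time profile. -/
theorem moveField_inner (hs : IsStep s) (m : Move) (t₀ τ : ℚ) (_hτ : 0 < τ) (t : ℝ)
    (x : Fin 3 → ℝ) (hx : x ∈ m.inner) :
    moveField s m t₀ τ (t, x) = timeProfile s t₀ τ t • m.vel x := by
  have hchi : ∀ k, m.chi s k (x k) = 1 := fun k => chi_eq_one hs m k (hx k).1 (hx k).2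
  rw [moveField_apply]
  have h1 : ∏ k : Fin 3, Function.update (m.chi s) m.j (deriv (m.gfun s)) k (x k)
      = (m.α : ℝ) + (m.a : ℝ) * (x m.j - (m.c : ℝ)) := by
    have : ∀ k : Fin 3, Function.update (m.chi s) m.j (deriv (m.gfun s)) k (x k)
        = if k = m.j then (m.α : ℝ) + (m.a : ℝ) * (x m.j - (m.c : ℝ)) else 1 := by
      intro k
      by_cases h : k = m.j
      · subst h
        rw [Function.update_self, if_pos rfl]
        exact gfun_deriv_of_chi_eq_one hs m (hchi _)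
      · rw [Function.update_of_ne h, if_neg h]
        exact hchi k
    rw [Finset.prod_congr rfl (fun k _ => this k), Finset.prod_ite_eq']
    simp
  have h2 : ∏ k : Fin 3, Function.update (Function.update (m.chi s) m.i (deriv (m.chi s m.i)))
      m.j (m.gfun s) k (x k) = 0 := by
    apply Finset.prod_eq_zero (Finset.mem_univ m.i)
    rw [Function.update_of_ne m.hij, Function.update_self]
    exact chi_deriv_of_eq_one hs m m.i (hchi _)
  dsimp only
  rw [h1, h2, mul_zero, Pi.single_zero, add_zero]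
  unfold Move.vel
  ext k
  by_cases hk : k = m.i
  · subst hk
    simp
  · simp [Pi.single_eq_of_ne hk]

/-- Outside the open outer box the field vanishes. -/
theorem moveField_outside (hs : IsStep s) (m : Move) (t₀ τ : ℚ) (_hτ : 0 < τ) (t : ℝ)
    (x : Fin 3 → ℝ) (hx : m.Outside x) : moveField s m t₀ τ (t, x) = 0 := by
  have hex : ∃ k : Fin 3, x k ≤ (m.lo k : ℝ) - (m.δ : ℝ) ∨ (m.hi k : ℝ) + (m.δ : ℝ) ≤ x k := by
    by_contra hcon
    apply hx
    intro k
    by_contra hk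
    apply hcon
    refine ⟨k, ?_⟩
    by_contra hk'
    apply hk
    constructor
    · by_contra h1
      exact hk' (Or.inl (not_lt.mp h1))
    · by_contra h2
      exact hk' (Or.inr (not_lt.mp h2))
  obtain ⟨k, hk⟩ := hex
  have hchi : m.chi s k (x k) = 0 := chi_eq_zero hs m k hk
  rw [moveField_apply]
  have h1 : ∏ k : Fin 3, Function.update (m.chi s) m.j (deriv (m.gfun s)) k (x k) = 0 := by
    apply Finset.prod_eq_zero (Finset.mem_univ k)
    by_cases h : k = m.j
    · subst h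
      rw [Function.update_self]
      exact gfun_deriv_of_chi_eq_zero hs m hchi
    · rw [Function.update_of_ne h]
      exact hchi
  have h2 : ∏ k : Fin 3, Function.update (Function.update (m.chi s) m.i (deriv (m.chi s m.i)))
      m.j (m.gfun s) k (x k) = 0 := by
    apply Finset.prod_eq_zero (Finset.mem_univ k)
    by_cases h : k = m.j
    · subst h
      rw [Function.update_self]
      exact gfun_of_chi_eq_zero m hchi
    · rw [Function.update_of_ne h]
      by_cases h' : k = m.i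
      · subst h'
        rw [Function.update_self]
        exact chi_deriv_of_eq_zero hs m _ hchi
      · rw [Function.update_of_ne h']
        exact hchi
  dsimp only
  rw [h1, h2]
  simp

theorem moveField_hasCompactSupport (hs : IsStep s) (m : Move) (t₀ τ : ℚ) (hτ : 0 < τ) :
    HasCompactSupport (moveField s m t₀ τ) := by
  have hK : IsCompact ((Set.Icc (t₀ : ℝ) ((t₀ + τ : ℚ) : ℝ)) ×ˢ
      (Set.pi Set.univ fun k : Fin 3 =>
        Set.Icc ((m.lo k : ℝ) - (m.δ : ℝ)) ((m.hi k : ℝ) + (m.δ : ℝ)))) :=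
    isCompact_Icc.prod (isCompact_univ_pi fun k => isCompact_Icc)
  apply HasCompactSupport.intro hK
  intro p hp
  by_cases ht : p.1 ∈ Set.Icc (t₀ : ℝ) ((t₀ + τ : ℚ) : ℝ)
  · have hxo : m.Outside p.2 := by
      intro hout
      apply hp
      refine ⟨ht, ?_⟩
      intro k _
      exact ⟨(hout k).1.le, (hout k).2.le⟩
    have := moveField_outside hs m t₀ τ hτ p.1 p.2 hxo
    exact this
  · apply moveField_time_zero hs m t₀ τ hτ p
    by_contra hcon
    apply ht
    constructor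
    · by_contra h1
      exact hcon (Or.inl (not_le.mp h1).le)
    · by_contra h2
      exact hcon (Or.inr (not_le.mp h2).le)

/-! ### Lists of moves -/

theorem spaceDiv_zero (p : ℝ × (Fin 3 → ℝ)) : spaceDiv (0 : Field) p = 0 := by
  unfold spaceDiv
  have : fderiv ℝ (0 : Field) p = 0 := by
    rw [fderiv_zero]
    rfl
  rw [this]
  simp

theorem planField_contDiff (hs : IsStep s) (τ : ℚ) (hτ : 0 < τ) (t₀ : ℚ) (ms : List Move) :
    ContDiff ℝ ∞ (planField s τ t₀ ms) := by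
  induction ms generalizing t₀ with
  | nil => exact contDiff_const
  | cons m ms ih =>
    show ContDiff ℝ ∞ (moveField s m t₀ τ + planField s τ (t₀ + τ) ms)
    exact (moveField_contDiff hs m t₀ τ hτ).add (ih (t₀ + τ))

theorem planField_effective (hs : IsStep s) (τ : ℚ) (hτ : 0 < τ) (t₀ : ℚ) (ms : List Move) :
    Effective (planField s τ t₀ ms) := by
  induction ms generalizing t₀ with
  | nil => exact effective_zero
  | cons m ms ih =>
    show Effective (moveField s m t₀ τ + planField s τ (t₀ + τ) ms)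
    exact effective_add (moveField_contDiff hs m t₀ τ hτ) (planField_contDiff hs τ hτ _ ms)
      (moveField_effective hs m t₀ τ hτ) (ih (t₀ + τ))

theorem planField_div (hs : IsStep s) (τ : ℚ) (hτ : 0 < τ) (t₀ : ℚ) (ms : List Move)
    (p : ℝ × (Fin 3 → ℝ)) : spaceDiv (planField s τ t₀ ms) p = 0 := by
  induction ms generalizing t₀ with
  | nil => exact spaceDiv_zero p
  | cons m ms ih =>
    show spaceDiv (moveField s m t₀ τ + planField s τ (t₀ + τ) ms) p = 0
    rw [spaceDiv_add (moveField_contDiff hs m t₀ τ hτ) (planField_contDiff hs τ hτ _ ms),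
      moveField_div hs m t₀ τ hτ p, ih (t₀ + τ), add_zero]

theorem planField_hasCompactSupport (hs : IsStep s) (τ : ℚ) (hτ : 0 < τ) (t₀ : ℚ)
    (ms : List Move) : HasCompactSupport (planField s τ t₀ ms) := by
  induction ms generalizing t₀ with
  | nil => exact HasCompactSupport.zero
  | cons m ms ih =>
    show HasCompactSupport (moveField s m t₀ τ + planField s τ (t₀ + τ) ms)
    exact (moveField_hasCompactSupport hs m t₀ τ hτ).add (ih (t₀ + τ))

/-- The field of a plan vanishes before its first window and after its last one. -/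
theorem planField_time_zero (hs : IsStep s) (τ : ℚ) (hτ : 0 < τ) (t₀ : ℚ) (ms : List Move)
    (p : ℝ × (Fin 3 → ℝ))
    (h : p.1 ≤ (t₀ : ℝ) ∨ ((t₀ + ms.length * τ : ℚ) : ℝ) ≤ p.1) :
    planField s τ t₀ ms p = 0 := by
  induction ms generalizing t₀ with
  | nil => rfl
  | cons m ms ih =>
    have hτ' : (0 : ℝ) < (τ : ℝ) := by exact_mod_cast hτ
    have hlen : (0 : ℝ) ≤ (ms.length : ℝ) * (τ : ℝ) := by positivity
    show (moveField s m t₀ τ + planField s τ (t₀ + τ) ms) p = 0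
    rw [Pi.add_apply]
    have h1 : moveField s m t₀ τ p = 0 := by
      apply moveField_time_zero hs m t₀ τ hτ p
      rcases h with h | h
      · exact Or.inl h
      · right
        simp only [List.length_cons] at h
        push_cast at h ⊢
        nlinarith
    have h2 : planField s τ (t₀ + τ) ms p = 0 := by
      apply ih (t₀ + τ)
      rcases h with h | h
      · left
        push_cast
        linarith
      · right
        simp only [List.length_cons] at h
        push_cast at h ⊢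
        nlinarith
    rw [h1, h2, add_zero]

end Crest.Agent.Box
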