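import Crest.Agent.Box.Defs

/-!
# Layer 5A for S0170: basic facts on moves, `run` and `TrackOK`

Besides the four interface statements (`run_append`, `trackOK_append`, `trackOK_reverse`,
`box_disjoint_iff`) this file provides a small API for combining plans:

* `Tracks ms x y` : the plan `ms` tracks the point `x` and carries it to `y`
  (`TrackOK ms x ∧ run ms x = y`), with `Tracks.nil`, `Tracks.append`, `Tracks.cons_inside`,
  `Tracks.cons_outside`, `Tracks.single_inside`, `Tracks.single_outside`, `Tracks.reverse`;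
* `Move.step_of_inside`, `Move.step_of_outside`, `Move.inner_subset_outer`;
* `tracks_flatMap`: independent sub-plans (each fixing the regions of the others) can be
  concatenated.
-/

set_option autoImplicit false
open Crest.AnalysisR.BoxFlow

namespace Crest.Agent.Box

/-- The parked position of a box in the lane `X`: the point `(X, 0, 0)`. -/
def park (X : ℚ) : Fin 3 → ℚ := fun j => if j = 0 then X else 0

@[simp] theorem park_zero (X : ℚ) : park X 0 = X := rfl
@[simp] theorem park_one (X : ℚ) : park X 1 = 0 := rfl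
@[simp] theorem park_two (X : ℚ) : park X 2 = 0 := rfl

theorem run_append (ms₁ ms₂ : List Move) (x : Fin 3 → ℝ) :
    run (ms₁ ++ ms₂) x = run ms₂ (run ms₁ x) := by
  induction ms₁ generalizing x with
  | nil => rfl
  | cons m ms ih => exact ih (m.step x)

theorem trackOK_append (ms₁ ms₂ : List Move) (x : Fin 3 → ℝ) :
    TrackOK (ms₁ ++ ms₂) x ↔ TrackOK ms₁ x ∧ TrackOK ms₂ (run ms₁ x) := by
  induction ms₁ generalizing x with
  | nil => exact ⟨fun h => ⟨trivial, h⟩, fun h => h.2⟩
  | cons m ms ih =>
    show ((m.Inside x ∨ m.Outside x) ∧ TrackOK (ms ++ ms₂) (m.step x)) ↔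
      ((m.Inside x ∨ m.Outside x) ∧ TrackOK ms (m.step x)) ∧ TrackOK ms₂ (run ms (m.step x))
    rw [ih (m.step x), and_assoc]

namespace Move

theorem inner_subset_outer (m : Move) : m.inner ⊆ m.outer := by
  intro x hx k
  have hδ : (0 : ℝ) < (m.δ : ℝ) := by exact_mod_cast m.hδ
  exact ⟨by linarith [(hx k).1], by linarith [(hx k).2]⟩

theorem not_inside_of_outside {m : Move} {x : Fin 3 → ℝ} (h : m.Outside x) : ¬ m.Inside x :=
  fun hi => h (m.inner_subset_outer hi.1)

theorem step_of_inside {m : Move} {x : Fin 3 → ℝ} (h : m.Inside x) : m.step x = x + m.vel x := by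
  unfold Move.step
  rw [if_pos h]

theorem step_of_outside {m : Move} {x : Fin 3 → ℝ} (h : m.Outside x) : m.step x = x := by
  unfold Move.step
  rw [if_neg (not_inside_of_outside h)]

/-- The velocity only depends on the coordinate `j`, which the move does not change. -/
theorem vel_add_vel (m : Move) (x : Fin 3 → ℝ) : m.vel (x + m.vel x) = m.vel x := by
  have hj : (x + m.vel x) m.j = x m.j := by
    unfold Move.vel
    rw [Pi.add_apply, Pi.single_eq_of_ne m.hij.symm, add_zero]
  unfold Move.vel at hj ⊢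
  rw [hj]

theorem rev_vel (m : Move) (y : Fin 3 → ℝ) : m.rev.vel y = - m.vel y := by
  unfold Move.vel
  rw [← Pi.single_neg]
  congr 1
  show ((-m.α : ℚ) : ℝ) + ((-m.a : ℚ) : ℝ) * (y m.j - (m.c : ℝ)) = _
  push_cast
  ring

theorem rev_inner (m : Move) : m.rev.inner = m.inner := rfl

theorem rev_outer (m : Move) : m.rev.outer = m.outer := rfl

theorem rev_inside {m : Move} {x : Fin 3 → ℝ} (h : m.Inside x) :
    m.rev.Inside (x + m.vel x) ∧ (x + m.vel x) + m.rev.vel (x + m.vel x) = x := by
  have e : (x + m.vel x) + m.rev.vel (x + m.vel x) = x := by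
    rw [rev_vel, vel_add_vel, add_neg_cancel_right]
  refine ⟨⟨h.2, ?_⟩, e⟩
  rw [e]
  exact h.1

theorem rev_outside {m : Move} {x : Fin 3 → ℝ} (h : m.Outside x) : m.rev.Outside x := h

end Move

/-- A tracked plan can be undone by the reversed plan. -/
theorem trackOK_reverse (ms : List Move) (x : Fin 3 → ℝ) (h : TrackOK ms x) :
    TrackOK (ms.reverse.map Move.rev) (run ms x) ∧ run (ms.reverse.map Move.rev) (run ms x) = x := by
  induction ms generalizing x with
  | nil => exact ⟨trivial, rfl⟩
  | cons m ms ih =>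
    obtain ⟨hm, hms⟩ := h
    obtain ⟨h1, h2⟩ := ih (m.step x) hms
    have hlist : (m :: ms).reverse.map Move.rev = ms.reverse.map Move.rev ++ [m.rev] := by
      simp
    rw [hlist]
    show TrackOK (ms.reverse.map Move.rev ++ [m.rev]) (run ms (m.step x)) ∧
      run (ms.reverse.map Move.rev ++ [m.rev]) (run ms (m.step x)) = x
    rw [trackOK_append, run_append, h2]
    have key : (m.rev.Inside (m.step x) ∨ m.rev.Outside (m.step x)) ∧
        m.rev.step (m.step x) = x := by
      rcases hm with hi | ho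
      · rw [Move.step_of_inside hi]
        obtain ⟨h3, h4⟩ := Move.rev_inside hi
        exact ⟨Or.inl h3, by rw [Move.step_of_inside h3, h4]⟩
      · rw [Move.step_of_outside ho]
        exact ⟨Or.inr (Move.rev_outside ho), Move.step_of_outside (Move.rev_outside ho)⟩
    exact ⟨⟨h1, key.1, trivial⟩, key.2⟩

/-- Two closed rational boxes are disjoint iff some axis separates them. -/
theorem box_disjoint_iff (a h a' h' : Fin 3 → ℚ) (hh : ∀ j, 0 < h j) (hh' : ∀ j, 0 < h' j) :
    Disjoint (box a h) (box a' h') ↔ ∃ j, h j + h' j < |a j - a' j| := by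
  constructor
  · intro hd
    by_contra hcon
    push Not at hcon
    have key : ∀ j, ((a j : ℝ) - h j ≤ max ((a j : ℝ) - h j) ((a' j : ℝ) - h' j) ∧
        max ((a j : ℝ) - h j) ((a' j : ℝ) - h' j) ≤ (a j : ℝ) + h j) ∧
        ((a' j : ℝ) - h' j ≤ max ((a j : ℝ) - h j) ((a' j : ℝ) - h' j) ∧
        max ((a j : ℝ) - h j) ((a' j : ℝ) - h' j) ≤ (a' j : ℝ) + h' j) := by
      intro j
      have h1 : |(a j : ℝ) - a' j| ≤ h j + h' j := by exact_mod_cast hcon j
      have hp : (0 : ℝ) < h j := by exact_mod_cast hh j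
      have hp' : (0 : ℝ) < h' j := by exact_mod_cast hh' j
      rw [abs_le] at h1
      refine ⟨⟨le_max_left _ _, max_le (by linarith) (by linarith [h1.1])⟩,
        ⟨le_max_right _ _, max_le (by linarith [h1.2]) (by linarith)⟩⟩
    have hx : (fun j => max ((a j : ℝ) - h j) ((a' j : ℝ) - h' j)) ∈ box a h ∩ box a' h' := by
      constructor
      · intro j
        show |max ((a j : ℝ) - h j) ((a' j : ℝ) - h' j) - (a j : ℝ)| ≤ (h j : ℝ)
        rw [abs_le]
        constructor <;> linarith [(key j).1.1, (key j).1.2]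
      · intro j
        show |max ((a j : ℝ) - h j) ((a' j : ℝ) - h' j) - (a' j : ℝ)| ≤ (h' j : ℝ)
        rw [abs_le]
        constructor <;> linarith [(key j).2.1, (key j).2.2]
    exact (Set.disjoint_iff.mp hd) hx
  · rintro ⟨j, hj⟩
    rw [Set.disjoint_iff]
    rintro x ⟨hx, hx'⟩
    have h1 : |x j - (a j : ℝ)| ≤ (h j : ℝ) := hx j
    have h2 : |x j - (a' j : ℝ)| ≤ (h' j : ℝ) := hx' j
    have hj' : ((h j : ℝ) + h' j) < |(a j : ℝ) - a' j| := by exact_mod_cast hj
    have h3 : |(a j : ℝ) - a' j| ≤ |(a j : ℝ) - x j| + |x j - a' j| := abs_sub_le _ _ _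
    rw [abs_sub_comm (a j : ℝ) (x j)] at h3
    exact absurd (lt_of_lt_of_le hj' h3) (by linarith)

/-! ### The `Tracks` predicate -/

/-- The plan `ms` tracks the point `x` and carries it to `y`. -/
def Tracks (ms : List Move) (x y : Fin 3 → ℝ) : Prop := TrackOK ms x ∧ run ms x = y

theorem tracks_iff (ms : List Move) (x y : Fin 3 → ℝ) :
    Tracks ms x y ↔ TrackOK ms x ∧ run ms x = y := Iff.rfl

theorem Tracks.nil (x : Fin 3 → ℝ) : Tracks [] x x := ⟨trivial, rfl⟩

theorem Tracks.append {ms₁ ms₂ : List Move} {x y z : Fin 3 → ℝ} (h₁ : Tracks ms₁ x y)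
    (h₂ : Tracks ms₂ y z) : Tracks (ms₁ ++ ms₂) x z := by
  obtain ⟨h1, rfl⟩ := h₁
  exact ⟨(trackOK_append _ _ _).2 ⟨h1, h₂.1⟩, by rw [run_append]; exact h₂.2⟩

theorem Tracks.cons_inside {m : Move} {ms : List Move} {x z : Fin 3 → ℝ} (h : m.Inside x)
    (h₂ : Tracks ms (x + m.vel x) z) : Tracks (m :: ms) x z := by
  have hs := Move.step_of_inside h
  refine ⟨⟨Or.inl h, ?_⟩, ?_⟩
  · rw [hs]; exact h₂.1
  · show run ms (m.step x) = z
    rw [hs]; exact h₂.2

theorem Tracks.cons_outside {m : Move} {ms : List Move} {x z : Fin 3 → ℝ} (h : m.Outside x)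
    (h₂ : Tracks ms x z) : Tracks (m :: ms) x z := by
  have hs := Move.step_of_outside h
  refine ⟨⟨Or.inr h, ?_⟩, ?_⟩
  · rw [hs]; exact h₂.1
  · show run ms (m.step x) = z
    rw [hs]; exact h₂.2

theorem Tracks.single_inside {m : Move} {x : Fin 3 → ℝ} (h : m.Inside x) :
    Tracks [m] x (x + m.vel x) := Tracks.cons_inside h (Tracks.nil _)

theorem Tracks.single_outside {m : Move} {x : Fin 3 → ℝ} (h : m.Outside x) :
    Tracks [m] x x := Tracks.cons_outside h (Tracks.nil _)

/-- A tracked plan is undone by the reversed plan. -/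
theorem Tracks.reverse {ms : List Move} {x y : Fin 3 → ℝ} (h : Tracks ms x y) :
    Tracks (ms.reverse.map Move.rev) y x := by
  obtain ⟨h1, rfl⟩ := h
  exact trackOK_reverse ms x h1

/-- Sub-plans none of which moves a point do not move it when concatenated. -/
theorem tracks_flatMap_fix {ι : Type*} (ms : ι → List Move) (z : Fin 3 → ℝ) (l : List ι)
    (h : ∀ i ∈ l, Tracks (ms i) z z) : Tracks (l.flatMap ms) z z := by
  induction l with
  | nil => exact Tracks.nil z
  | cons i l ih =>
    rw [List.flatMap_cons]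
    exact (h i List.mem_cons_self).append (ih fun i' hi' => h i' (List.mem_cons_of_mem _ hi'))

/-- Independent sub-plans can be concatenated: if the sub-plan `ms i` carries the points `x` of
`S i` to `T i x`, both `x` and `T i x` lie in a region `P i`, and every other sub-plan fixes (and
tracks) all points of `P i`, then the concatenation along a duplicate-free list containing `i`
carries `x ∈ S i` to `T i x`. -/
theorem tracks_flatMap {ι : Type*} (ms : ι → List Move) (S P : ι → Set (Fin 3 → ℝ))
    (T : ι → (Fin 3 → ℝ) → (Fin 3 → ℝ))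
    (hfix : ∀ i i', i ≠ i' → ∀ z ∈ P i', Tracks (ms i) z z)
    (hown : ∀ i, ∀ x ∈ S i, Tracks (ms i) x (T i x))
    (hSP : ∀ i, S i ⊆ P i) (hTP : ∀ i, ∀ x ∈ S i, T i x ∈ P i)
    (l : List ι) (hl : l.Nodup) (i : ι) (hi : i ∈ l) (x : Fin 3 → ℝ) (hx : x ∈ S i) :
    Tracks (l.flatMap ms) x (T i x) := by
  induction l with
  | nil => exact absurd hi List.not_mem_nil
  | cons i' l ih =>
    rw [List.flatMap_cons]
    rw [List.nodup_cons] at hl
    by_cases hii : i' = i
    · subst hii
      refine (hown i' x hx).append (tracks_flatMap_fix ms _ l fun i'' hi'' => ?_)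
      have hne : i'' ≠ i' := fun e => hl.1 (e ▸ hi'')
      exact hfix i'' i' hne _ (hTP i' x hx)
    · have hi' : i ∈ l := by
        rcases List.mem_cons.mp hi with e | e
        · exact absurd e.symm hii
        · exact e
      exact (hfix i' i hii x (hSP i hx)).append (ih hl.2 hi')

end Crest.Agent.Box
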