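import Crest.Agent.Box.Defs
import Crest.Agent.Box.MoveField
import Crest.Agent.Box.PlanBase
import Crest.Agent.Helper8.FlowODE

/-!
# Layer 4 for S0170: global flows of smooth compactly supported fields; the flow of a plan

`exists_flow` and `flow_unique` are helper8's general ODE facts (`Helper8/FlowODE.lean`).
`plan_flow`: the field of a plan is `planField s τ (1/4) ms` with `τ = 1 / (2 (len + 1))`; the
explicit trajectory `planTraj` of a tracked point solves its equation (`planTraj_hasDerivAt`), so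
by uniqueness the flow carries `x` to `run ms x`.
-/

set_option autoImplicit false
open scoped ContDiff
open Crest.AnalysisR.BoxFlow

namespace Crest.Agent.Box

/-- A smooth compactly supported time-dependent field has a global flow. -/
theorem exists_flow {U : Field} (hU : ContDiff ℝ ∞ U) (hc : HasCompactSupport U) :
    ∃ Φ : ℝ → (Fin 3 → ℝ) → (Fin 3 → ℝ), IsFlow U Φ :=
  Crest.Agent.Helper8.FlowODE.exists_flow_smooth hU hc

/-- Uniqueness of integral curves: a curve solving the equation on `[t₁, t₂]` and starting on a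
flow line stays on it. -/
theorem flow_unique {U : Field} (hU : ContDiff ℝ ∞ U) (hc : HasCompactSupport U)
    {Φ : ℝ → (Fin 3 → ℝ) → (Fin 3 → ℝ)} (hΦ : IsFlow U Φ) {t₁ t₂ : ℝ} (h12 : t₁ ≤ t₂)
    {γ : ℝ → Fin 3 → ℝ} {x : Fin 3 → ℝ}
    (hγ : ∀ t ∈ Set.Icc t₁ t₂, HasDerivAt γ (U (t, γ t)) t) (h0 : γ t₁ = Φ t₁ x) :
    γ t₂ = Φ t₂ x :=
  Crest.Agent.Helper8.FlowODE.flow_unique_smooth hU hc hΦ h12 hγ h0

/-! ### The explicit trajectory of a point under a plan -/

/-- The trajectory of the point `x` under the plan `ms` performed in consecutive windows of length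
`τ` starting at `t₀`: `x + ∑ₖ θₖ(t) • (xₖ₊₁ - xₖ)`, written recursively. -/
noncomputable def planTraj (s : ℝ → ℝ) (τ : ℚ) :
    ℚ → List Move → (Fin 3 → ℝ) → ℝ → (Fin 3 → ℝ)
  | _, [], x, _ => x
  | t₀, m :: ms, x, t =>
      planTraj s τ (t₀ + τ) ms (m.step x) t - (1 - timeStep s t₀ τ t) • (m.step x - x)

variable {s : ℝ → ℝ}

theorem planTraj_of_le (hs : IsStep s) (τ : ℚ) (hτ : 0 < τ) (t₀ : ℚ) (ms : List Move)
    (x : Fin 3 → ℝ) (t : ℝ) (ht : t ≤ (t₀ : ℝ)) : planTraj s τ t₀ ms x t = x := by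
  induction ms generalizing t₀ x with
  | nil => rfl
  | cons m ms ih =>
    have hτ' : (0 : ℝ) < (τ : ℝ) := by exact_mod_cast hτ
    show planTraj s τ (t₀ + τ) ms (m.step x) t - (1 - timeStep s t₀ τ t) • (m.step x - x) = x
    rw [ih (t₀ + τ) (m.step x) (by push_cast; linarith), timeStep_of_le hs t₀ τ hτ t ht]
    simp

theorem planTraj_of_ge (hs : IsStep s) (τ : ℚ) (hτ : 0 < τ) (t₀ : ℚ) (ms : List Move)
    (x : Fin 3 → ℝ) (t : ℝ) (ht : ((t₀ + ms.length * τ : ℚ) : ℝ) ≤ t) :
    planTraj s τ t₀ ms x t = run ms x := by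
  induction ms generalizing t₀ x with
  | nil => rfl
  | cons m ms ih =>
    have hτ' : (0 : ℝ) < (τ : ℝ) := by exact_mod_cast hτ
    have hlen : (0 : ℝ) ≤ (ms.length : ℝ) * (τ : ℝ) := by positivity
    simp only [List.length_cons] at ht
    push_cast at ht
    show planTraj s τ (t₀ + τ) ms (m.step x) t - (1 - timeStep s t₀ τ t) • (m.step x - x)
      = run ms (m.step x)
    rw [ih (t₀ + τ) (m.step x) (by push_cast; linarith),
      timeStep_of_ge hs t₀ τ hτ t (by push_cast; linarith)]
    simp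

/-- While a move carries a point, the point stays in the inner box. -/
theorem Move.traj_mem_inner {m : Move} {x : Fin 3 → ℝ} (h : m.Inside x) {θ : ℝ} (h0 : 0 ≤ θ)
    (h1 : θ ≤ 1) : x + θ • m.vel x ∈ m.inner := by
  intro k
  have hx := h.1 k
  have hy := h.2 k
  rw [Pi.add_apply] at hy
  rw [Pi.add_apply, Pi.smul_apply, smul_eq_mul]
  constructor
  · nlinarith [hx.1, hy.1]
  · nlinarith [hx.2, hy.2]

/-- The velocity is constant along the trajectory of a carried point. -/
theorem Move.vel_traj (m : Move) (x : Fin 3 → ℝ) (θ : ℝ) :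
    m.vel (x + θ • m.vel x) = m.vel x := by
  have hj : (x + θ • m.vel x) m.j = x m.j := by
    unfold Move.vel
    rw [Pi.add_apply, Pi.smul_apply, Pi.single_eq_of_ne m.hij.symm, smul_zero, add_zero]
  unfold Move.vel at hj ⊢
  rw [hj]

/-- The explicit trajectory of a tracked point solves the equation of the plan field. -/
theorem planTraj_hasDerivAt (hs : IsStep s) (τ : ℚ) (hτ : 0 < τ) (t₀ : ℚ) (ms : List Move)
    (x : Fin 3 → ℝ) (hx : TrackOK ms x) (t : ℝ) :
    HasDerivAt (planTraj s τ t₀ ms x) (planField s τ t₀ ms (t, planTraj s τ t₀ ms x t)) t := by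
  induction ms generalizing t₀ x with
  | nil => exact hasDerivAt_const t x
  | cons m ms ih =>
    obtain ⟨hm, hx'⟩ := hx
    have h1 := ih (t₀ + τ) (m.step x) hx'
    have h2 : HasDerivAt (fun t => (1 - timeStep s t₀ τ t) • (m.step x - x))
        ((-(timeProfile s t₀ τ t)) • (m.step x - x)) t :=
      ((timeStep_hasDerivAt hs t₀ τ t).const_sub 1).smul_const (m.step x - x)
    have h3 := h1.sub h2
    have hfun : planTraj s τ t₀ (m :: ms) x = fun t =>
        planTraj s τ (t₀ + τ) ms (m.step x) t - (1 - timeStep s t₀ τ t) • (m.step x - x) := rfl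
    have key : planField s τ t₀ (m :: ms) (t, planTraj s τ t₀ (m :: ms) x t)
        = planField s τ (t₀ + τ) ms (t, planTraj s τ (t₀ + τ) ms (m.step x) t)
          - (-(timeProfile s t₀ τ t)) • (m.step x - x) := by
      show moveField s m t₀ τ (t, planTraj s τ t₀ (m :: ms) x t)
          + planField s τ (t₀ + τ) ms (t, planTraj s τ t₀ (m :: ms) x t) = _
      rw [hfun]
      simp only []
      rcases le_or_gt t ((t₀ + τ : ℚ) : ℝ) with ht | ht
      · -- before the end of the first window: the rest of the plan has not started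
        rw [planTraj_of_le hs τ hτ (t₀ + τ) ms (m.step x) t ht,
          planField_time_zero hs τ hτ (t₀ + τ) ms _ (Or.inl ht),
          planField_time_zero hs τ hτ (t₀ + τ) ms _ (Or.inl ht)]
        obtain ⟨hθ0, hθ1⟩ := timeStep_mem01 hs t₀ τ t
        rcases hm with hin | hout
        · rw [Move.step_of_inside hin]
          have e : x + m.vel x - (1 - timeStep s t₀ τ t) • (x + m.vel x - x)
              = x + timeStep s t₀ τ t • m.vel x := by
            rw [add_sub_cancel_left, sub_smul, one_smul]; abel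
          rw [e, moveField_inner hs m t₀ τ hτ t _ (Move.traj_mem_inner hin hθ0 hθ1),
            Move.vel_traj, add_sub_cancel_left]
          simp
        · rw [Move.step_of_outside hout]
          simp only [sub_self, smul_zero, sub_zero, add_zero]
          exact moveField_outside hs m t₀ τ hτ t x hout
      · -- after the first window
        rw [timeStep_of_ge hs t₀ τ hτ t ht.le, timeProfile_eq_zero hs t₀ τ hτ t (Or.inr ht.le)]
        simp only [sub_self, zero_smul, sub_zero, neg_zero]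
        rw [moveField_time_zero hs m t₀ τ hτ _ (Or.inr ht.le), zero_add]
    rw [key, hfun]
    exact h3

/-- The flow of the field of a plan realises the plan on every tracked point. -/
theorem plan_flow {s : ℝ → ℝ} (hs : IsStep s) (ms : List Move) :
    ∃ (U : Field) (Φ : ℝ → (Fin 3 → ℝ) → (Fin 3 → ℝ)),
      ContDiff ℝ ∞ U ∧ HasCompactSupport U ∧ Effective U ∧
      (∀ p : ℝ × (Fin 3 → ℝ), p.1 ∉ Set.Icc (1 / 4 : ℝ) (3 / 4) → U p = 0) ∧
      (∀ p : ℝ × (Fin 3 → ℝ), spaceDiv U p = 0) ∧ IsFlow U Φ ∧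
      ∀ x : Fin 3 → ℝ, TrackOK ms x → Φ 1 x = run ms x := by
  obtain ⟨τ, hτdef⟩ : ∃ τ : ℚ, τ = 1 / (2 * ((ms.length : ℚ) + 1)) := ⟨_, rfl⟩
  have hτ : 0 < τ := by rw [hτdef]; positivity
  have hlenτ : (ms.length : ℚ) * τ ≤ 1 / 2 := by
    rw [hτdef, mul_one_div, div_le_iff₀ (by positivity)]
    linarith
  have hend : ((1 / 4 + ms.length * τ : ℚ) : ℝ) ≤ 3 / 4 := by
    have h2 : (1 / 4 + ms.length * τ : ℚ) ≤ 3 / 4 := by linarith
    have h3 : ((1 / 4 + ms.length * τ : ℚ) : ℝ) ≤ ((3 / 4 : ℚ) : ℝ) := Rat.cast_le.2 h2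
    have h4 : ((3 / 4 : ℚ) : ℝ) = 3 / 4 := by push_cast; ring
    rw [h4] at h3
    exact h3
  have hstart : ((1 / 4 : ℚ) : ℝ) = 1 / 4 := by push_cast; ring
  have hUc : ContDiff ℝ ∞ (planField s τ (1 / 4) ms) := planField_contDiff hs τ hτ _ ms
  have hUc1 : ContDiff ℝ 1 (planField s τ (1 / 4) ms) := hUc.of_le (by simp)
  have hUs : HasCompactSupport (planField s τ (1 / 4) ms) :=
    planField_hasCompactSupport hs τ hτ _ ms
  have hU0 : ∀ p : ℝ × (Fin 3 → ℝ), p.1 ∉ Set.Icc (1 / 4 : ℝ) (3 / 4) →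
      planField s τ (1 / 4) ms p = 0 := by
    intro p hp
    apply planField_time_zero hs τ hτ (1 / 4) ms p
    by_contra hcon
    rw [not_or, not_le, not_le] at hcon
    apply hp
    exact ⟨by linarith [hcon.1], by linarith [hcon.2]⟩
  obtain ⟨Φ, hΦ⟩ := exists_flow hUc hUs
  refine ⟨planField s τ (1 / 4) ms, Φ, hUc, hUs, planField_effective hs τ hτ _ ms, hU0,
    planField_div hs τ hτ _ ms, hΦ, ?_⟩
  intro x hx
  have h := Crest.Agent.Helper8.FlowODE.flow_eq_of_trajectory' _ hUc1 hUs Φ hΦ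
    (planTraj s τ (1 / 4) ms x) x
    (planTraj_of_le hs τ hτ _ ms x 0 (by rw [hstart]; norm_num))
    (fun t _ => planTraj_hasDerivAt hs τ hτ _ ms x hx t) 1 ⟨zero_le_one, le_refl 1⟩
  rw [h]
  exact planTraj_of_ge hs τ hτ _ ms x 1 (by linarith [hend])

end Crest.Agent.Box
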