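import Crest.Agent.Box.PlanBase

/-!
# Layer 5B for S0170: parking pairwise disjoint boxes in far-away lanes

The boxes are processed in order of decreasing top `x₂`-face.  The current box is lifted straight
up to height `Z = 2R + 1` (the column above it is free of the remaining boxes), slid along `e₀`
to its lane, slid along `e₁` to `0`, and lowered to height `0`.

All auxiliary statements live in the namespace `Crest.Agent.Box.Parking`; the interface statement
is `Crest.Agent.Box.exists_parking`.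
-/

set_option autoImplicit false
open Crest.AnalysisR.BoxFlow

namespace Crest.Agent.Box

namespace Parking

/-! ### Generic facts on single moves -/

theorem inner_subset_outer (m : Move) : m.inner ⊆ m.outer := by
  intro x hx k
  have hδ : (0 : ℝ) < (m.δ : ℝ) := by exact_mod_cast m.hδ
  have h := hx k
  constructor <;> linarith [h.1, h.2]

theorem step_of_inside (m : Move) (x : Fin 3 → ℝ) (h : m.Inside x) :
    m.step x = x + m.vel x := by
  simp [Move.step, h]

theorem step_of_outside (m : Move) (x : Fin 3 → ℝ) (h : m.Outside x) : m.step x = x := by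
  have hn : ¬ m.Inside x := fun hI => h (inner_subset_outer m hI.1)
  simp [Move.step, hn]

/-- A point lying beyond the outer box along some axis is outside. -/
theorem outside_of_axis (m : Move) (x : Fin 3 → ℝ) (k : Fin 3)
    (h : x k ≤ (m.lo k : ℝ) - (m.δ : ℝ) ∨ (m.hi k : ℝ) + (m.δ : ℝ) ≤ x k) : m.Outside x := by
  intro hx
  have h2 := hx k
  rcases h with h | h <;> linarith [h2.1, h2.2]

/-- A point outside every move of a list is tracked and fixed. -/
theorem untouched (ms : List Move) (y : Fin 3 → ℝ) (h : ∀ m ∈ ms, m.Outside y) :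
    TrackOK ms y ∧ run ms y = y := by
  induction ms with
  | nil => exact ⟨trivial, rfl⟩
  | cons m ms ih =>
    have hm := h m (List.mem_cons_self ..)
    have hs := step_of_outside m y hm
    have h2 := ih (fun m' hm' => h m' (List.mem_cons_of_mem _ hm'))
    refine ⟨⟨Or.inr hm, ?_⟩, ?_⟩
    · rw [hs]; exact h2.1
    · show run ms (m.step y) = y
      rw [hs]; exact h2.2

/-- Inside criterion and effect for a translation (`a = 0`). -/
theorem trans_carry (m : Move) (ha : m.a = 0) (x : Fin 3 → ℝ)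
    (h1 : ∀ k, (m.lo k : ℝ) ≤ x k ∧ x k ≤ (m.hi k : ℝ))
    (h2 : (m.lo m.i : ℝ) ≤ x m.i + (m.α : ℝ) ∧ x m.i + (m.α : ℝ) ≤ (m.hi m.i : ℝ)) :
    m.Inside x ∧ m.step x = Function.update x m.i (x m.i + (m.α : ℝ)) := by
  have hv : x + m.vel x = Function.update x m.i (x m.i + (m.α : ℝ)) := by
    funext k
    unfold Move.vel
    rw [ha]
    by_cases hk : k = m.i
    · subst hk; simp
    · simp [Function.update_of_ne hk, Pi.single_eq_of_ne hk]
  have hin : m.Inside x := by
    refine ⟨h1, ?_⟩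
    rw [hv]
    intro k
    by_cases hk : k = m.i
    · subst hk; simpa using h2
    · rw [Function.update_of_ne hk]; exact h1 k
  exact ⟨hin, by rw [step_of_inside m x hin, hv]⟩

/-! ### The four moves parking one box -/

/-- lift the box `box a h` straight up to height `Z` -/
def liftMove (a h : Fin 3 → ℚ) (Z δ : ℚ) (hδ : 0 < δ) : Move where
  i := 2
  j := 0
  hij := by decide
  α := Z - a 2
  a := 0
  c := 0
  lo := ![a 0 - h 0, a 1 - h 1, a 2 - h 2]
  hi := ![a 0 + h 0, a 1 + h 1, Z + h 2]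
  δ := δ
  hδ := hδ

/-- slide the lifted box along `e₀` to the lane `X` -/
def slide0Move (a h : Fin 3 → ℚ) (X Z δ : ℚ) (hδ : 0 < δ) : Move where
  i := 0
  j := 1
  hij := by decide
  α := X - a 0
  a := 0
  c := 0
  lo := ![a 0 - h 0, a 1 - h 1, Z - h 2]
  hi := ![X + h 0, a 1 + h 1, Z + h 2]
  δ := δ
  hδ := hδ

/-- slide the box along `e₁` to `x₁ = 0` -/
def slide1Move (a h : Fin 3 → ℚ) (X Z δ : ℚ) (hδ : 0 < δ) : Move where
  i := 1
  j := 0
  hij := by decide
  α := - a 1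
  a := 0
  c := 0
  lo := ![X - h 0, min (a 1) 0 - h 1, Z - h 2]
  hi := ![X + h 0, max (a 1) 0 + h 1, Z + h 2]
  δ := δ
  hδ := hδ

/-- lower the box to height `0` -/
def descendMove (h : Fin 3 → ℚ) (X Z δ : ℚ) (hδ : 0 < δ) : Move where
  i := 2
  j := 0
  hij := by decide
  α := - Z
  a := 0
  c := 0
  lo := ![X - h 0, - h 1, - h 2]
  hi := ![X + h 0, h 1, Z + h 2]
  δ := δ
  hδ := hδ

/-- the moves parking one box -/
def parkMoves (a h : Fin 3 → ℚ) (X Z δ : ℚ) (hδ : 0 < δ) : List Move :=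
  [liftMove a h Z δ hδ, slide0Move a h X Z δ hδ, slide1Move a h X Z δ hδ, descendMove h X Z δ hδ]

theorem mem_box_iff (c h : Fin 3 → ℚ) (x : Fin 3 → ℝ) :
    x ∈ box c h ↔ ∀ j : Fin 3, (c j : ℝ) - (h j : ℝ) ≤ x j ∧ x j ≤ (c j : ℝ) + (h j : ℝ) := by
  constructor
  · intro hx j
    have h0 : |x j - (c j : ℝ)| ≤ (h j : ℝ) := hx j
    have h1 := abs_le.mp h0
    constructor <;> linarith [h1.1, h1.2]
  · intro hx j
    show |x j - (c j : ℝ)| ≤ (h j : ℝ)
    rw [abs_le]
    have h1 := hx j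
    constructor <;> linarith [h1.1, h1.2]

/-- The box itself is carried to its parking position. -/
theorem parkMoves_carry (a h : Fin 3 → ℚ) (X Z δ : ℚ) (hδ : 0 < δ)
    (haZ : a 2 ≤ Z) (haX : a 0 ≤ X) (hZ : 0 ≤ Z) (x : Fin 3 → ℝ) (hx : x ∈ box a h) :
    TrackOK (parkMoves a h X Z δ hδ) x ∧
      run (parkMoves a h X Z δ hδ) x = fun j => x j - (a j : ℝ) + (park X j : ℝ) := by
  rw [mem_box_iff] at hx
  have hx0 := hx 0
  have hx1 := hx 1
  have hx2 := hx 2
  have haZ' : (a 2 : ℝ) ≤ (Z : ℝ) := by exact_mod_cast haZ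
  have haX' : (a 0 : ℝ) ≤ (X : ℝ) := by exact_mod_cast haX
  have hZ' : (0 : ℝ) ≤ (Z : ℝ) := by exact_mod_cast hZ
  -- move 1
  obtain ⟨hI1, hs1⟩ := trans_carry (liftMove a h Z δ hδ) rfl x
    (by intro k; fin_cases k <;> simp [liftMove] <;> constructor <;> linarith)
    (by simp [liftMove]; constructor <;> linarith)
  set x1 := (liftMove a h Z δ hδ).step x with hx1def
  have e10 : x1 0 = x 0 := by rw [hs1]; simp [liftMove]
  have e11 : x1 1 = x 1 := by rw [hs1]; simp [liftMove]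
  have e12 : x1 2 = x 2 + ((Z : ℝ) - (a 2 : ℝ)) := by rw [hs1]; simp [liftMove]
  -- move 2
  obtain ⟨hI2, hs2⟩ := trans_carry (slide0Move a h X Z δ hδ) rfl x1
    (by intro k; fin_cases k <;> simp [slide0Move, e10, e11, e12] <;> constructor <;> linarith)
    (by simp [slide0Move, e10]; constructor <;> linarith)
  set x2 := (slide0Move a h X Z δ hδ).step x1 with hx2def
  have e20 : x2 0 = x 0 + ((X : ℝ) - (a 0 : ℝ)) := by rw [hs2]; simp [slide0Move, e10]
  have e21 : x2 1 = x 1 := by rw [hs2]; simp [slide0Move, e11]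
  have e22 : x2 2 = x 2 + ((Z : ℝ) - (a 2 : ℝ)) := by rw [hs2]; simp [slide0Move, e12]
  -- move 3
  have hmin1 : min (a 1 : ℝ) 0 ≤ (a 1 : ℝ) := min_le_left _ _
  have hmin2 : min (a 1 : ℝ) 0 ≤ 0 := min_le_right _ _
  have hmax1 : (a 1 : ℝ) ≤ max (a 1 : ℝ) 0 := le_max_left _ _
  have hmax2 : (0 : ℝ) ≤ max (a 1 : ℝ) 0 := le_max_right _ _
  obtain ⟨hI3, hs3⟩ := trans_carry (slide1Move a h X Z δ hδ) rfl x2
    (by
      intro k
      fin_cases k
      · simp [slide1Move, e20]; constructor <;> linarith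
      · constructor
        · show ((min (a 1) 0 - h 1 : ℚ) : ℝ) ≤ x2 1
          push_cast; rw [e21]; linarith
        · show x2 1 ≤ ((max (a 1) 0 + h 1 : ℚ) : ℝ)
          push_cast; rw [e21]; linarith
      · simp [slide1Move, e22]; constructor <;> linarith)
    (by simp [slide1Move, e21]; constructor <;> linarith)
  set x3 := (slide1Move a h X Z δ hδ).step x2 with hx3def
  have e30 : x3 0 = x 0 + ((X : ℝ) - (a 0 : ℝ)) := by rw [hs3]; simp [slide1Move, e20]
  have e31 : x3 1 = x 1 + -(a 1 : ℝ) := by rw [hs3]; simp [slide1Move, e21]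
  have e32 : x3 2 = x 2 + ((Z : ℝ) - (a 2 : ℝ)) := by rw [hs3]; simp [slide1Move, e22]
  -- move 4
  obtain ⟨hI4, hs4⟩ := trans_carry (descendMove h X Z δ hδ) rfl x3
    (by intro k; fin_cases k <;> simp [descendMove, e30, e31, e32] <;> constructor <;> linarith)
    (by simp [descendMove, e32]; constructor <;> linarith)
  refine ⟨⟨Or.inl hI1, Or.inl hI2, Or.inl hI3, Or.inl hI4, trivial⟩, ?_⟩
  show (descendMove h X Z δ hδ).step x3 = _
  rw [hs4]
  funext k
  fin_cases k <;> simp [descendMove, park, e30, e31, e32] <;> ring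

theorem cube_bounds (a h : Fin 3 → ℚ) (R : ℚ) (hR : ∀ j, |a j| + h j ≤ R) (j : Fin 3) :
    (a j : ℝ) + (h j : ℝ) ≤ (R : ℝ) ∧ -(R : ℝ) ≤ (a j : ℝ) - (h j : ℝ) ∧ (h j : ℝ) ≤ (R : ℝ) := by
  have h1 := hR j
  have h2 := le_abs_self (a j)
  have h3 := neg_abs_le (a j)
  have h4 := abs_nonneg (a j)
  refine ⟨?_, ?_, ?_⟩
  · have : a j + h j ≤ R := by linarith
    exact_mod_cast this
  · have : -R ≤ a j - h j := by linarith
    exact_mod_cast this
  · have : h j ≤ R := by linarith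
    exact_mod_cast this

/-- Another box that has not been parked yet, and whose top face is not higher, is not touched. -/
theorem parkMoves_outside_unparked (a h a' h' : Fin 3 → ℚ) (X Z δ R : ℚ) (hδ : 0 < δ)
    (hδ1 : δ ≤ 1) (hh' : ∀ j, 0 < h' j)
    (hR : ∀ j, |a j| + h j ≤ R) (hR' : ∀ j, |a' j| + h' j ≤ R)
    (hZ : Z = 2 * R + 1) (hX : 2 * R + 2 ≤ X)
    (hsep : ∃ j, h j + h' j + δ ≤ |a j - a' j|) (htop : a' 2 + h' 2 ≤ a 2 + h 2)
    (y : Fin 3 → ℝ) (hy : y ∈ box a' h') :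
    ∀ m ∈ parkMoves a h X Z δ hδ, m.Outside y := by
  rw [mem_box_iff] at hy
  have hy0 := hy 0
  have hy1 := hy 1
  have hy2 := hy 2
  have hδ' : (0 : ℝ) < (δ : ℝ) := by exact_mod_cast hδ
  have hδ1' : (δ : ℝ) ≤ 1 := by exact_mod_cast hδ1
  have hZ' : (Z : ℝ) = 2 * (R : ℝ) + 1 := by exact_mod_cast hZ
  have hX' : 2 * (R : ℝ) + 2 ≤ (X : ℝ) := by exact_mod_cast hX
  have b0 := cube_bounds a h R hR 0
  have b2 := cube_bounds a h R hR 2
  have c0 := cube_bounds a' h' R hR' 0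
  have c2 := cube_bounds a' h' R hR' 2
  intro m hm
  simp only [parkMoves, List.mem_cons, List.not_mem_nil, or_false] at hm
  rcases hm with rfl | rfl | rfl | rfl
  · -- lift: use the separating axis
    obtain ⟨j, hj⟩ := hsep
    rcases le_abs.mp hj with hj | hj
    · -- a j - a' j is large: the other box lies below/left
      have hj' : (h j : ℝ) + (h' j : ℝ) + (δ : ℝ) ≤ (a j : ℝ) - (a' j : ℝ) := by exact_mod_cast hj
      fin_cases j
      · refine outside_of_axis _ y 0 (Or.inl ?_)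
        show y 0 ≤ ((a 0 - h 0 : ℚ) : ℝ) - (δ : ℝ)
        push_cast
        simp only [Fin.zero_eta] at hj'
        linarith
      · refine outside_of_axis _ y 1 (Or.inl ?_)
        show y 1 ≤ ((a 1 - h 1 : ℚ) : ℝ) - (δ : ℝ)
        push_cast
        simp only [Fin.mk_one] at hj'
        linarith
      · refine outside_of_axis _ y 2 (Or.inl ?_)
        show y 2 ≤ ((a 2 - h 2 : ℚ) : ℝ) - (δ : ℝ)
        push_cast
        have hj'' : (h 2 : ℝ) + (h' 2 : ℝ) + (δ : ℝ) ≤ (a 2 : ℝ) - (a' 2 : ℝ) := hj'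
        linarith
    · have hj' : (h j : ℝ) + (h' j : ℝ) + (δ : ℝ) ≤ -((a j : ℝ) - (a' j : ℝ)) := by
        exact_mod_cast hj
      fin_cases j
      · refine outside_of_axis _ y 0 (Or.inr ?_)
        show ((a 0 + h 0 : ℚ) : ℝ) + (δ : ℝ) ≤ y 0
        push_cast
        simp only [Fin.zero_eta] at hj'
        linarith
      · refine outside_of_axis _ y 1 (Or.inr ?_)
        show ((a 1 + h 1 : ℚ) : ℝ) + (δ : ℝ) ≤ y 1
        push_cast
        simp only [Fin.mk_one] at hj'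
        linarith
      · exfalso
        have hj'' : (h 2 : ℝ) + (h' 2 : ℝ) + (δ : ℝ) ≤ -((a 2 : ℝ) - (a' 2 : ℝ)) := hj'
        have ht : (a' 2 : ℝ) + (h' 2 : ℝ) ≤ (a 2 : ℝ) + (h 2 : ℝ) := by exact_mod_cast htop
        have hp : (0 : ℝ) < (h' 2 : ℝ) := by exact_mod_cast hh' 2
        linarith
  · -- slide along e₀ at height Z
    refine outside_of_axis _ y 2 (Or.inl ?_)
    show y 2 ≤ ((Z - h 2 : ℚ) : ℝ) - (δ : ℝ)
    push_cast
    linarith [b2.2.2, c2.1]
  · -- slide along e₁ at height Z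
    refine outside_of_axis _ y 2 (Or.inl ?_)
    show y 2 ≤ ((Z - h 2 : ℚ) : ℝ) - (δ : ℝ)
    push_cast
    linarith [b2.2.2, c2.1]
  · -- descend in the lane
    refine outside_of_axis _ y 0 (Or.inl ?_)
    show y 0 ≤ ((X - h 0 : ℚ) : ℝ) - (δ : ℝ)
    push_cast
    linarith [b0.2.2, c0.1]

/-- A box already parked in another lane is not touched. -/
theorem parkMoves_outside_parked (a h h' : Fin 3 → ℚ) (X X' Z δ R : ℚ) (hδ : 0 < δ)
    (hδ1 : δ ≤ 1) (hR : ∀ j, |a j| + h j ≤ R) (hh'R : ∀ j, h' j ≤ R)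
    (hZ : Z = 2 * R + 1) (hX' : 2 * R + 2 ≤ X') (hXX : 2 * R + 2 ≤ |X - X'|)
    (y : Fin 3 → ℝ) (hy : y ∈ box (park X') h') :
    ∀ m ∈ parkMoves a h X Z δ hδ, m.Outside y := by
  rw [mem_box_iff] at hy
  have hy0 : (X' : ℝ) - (h' 0 : ℝ) ≤ y 0 ∧ y 0 ≤ (X' : ℝ) + (h' 0 : ℝ) := by
    simpa [park] using hy 0
  have hy2 : -(h' 2 : ℝ) ≤ y 2 ∧ y 2 ≤ (h' 2 : ℝ) := by
    simpa [park] using hy 2
  have hδ' : (0 : ℝ) < (δ : ℝ) := by exact_mod_cast hδ
  have hδ1' : (δ : ℝ) ≤ 1 := by exact_mod_cast hδ1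
  have hZ' : (Z : ℝ) = 2 * (R : ℝ) + 1 := by exact_mod_cast hZ
  have hX'' : 2 * (R : ℝ) + 2 ≤ (X' : ℝ) := by exact_mod_cast hX'
  have b0 := cube_bounds a h R hR 0
  have b2 := cube_bounds a h R hR 2
  have k0 : (h' 0 : ℝ) ≤ (R : ℝ) := by exact_mod_cast hh'R 0
  have k2 : (h' 2 : ℝ) ≤ (R : ℝ) := by exact_mod_cast hh'R 2
  intro m hm
  simp only [parkMoves, List.mem_cons, List.not_mem_nil, or_false] at hm
  rcases hm with rfl | rfl | rfl | rfl
  · refine outside_of_axis _ y 0 (Or.inr ?_)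
    show ((a 0 + h 0 : ℚ) : ℝ) + (δ : ℝ) ≤ y 0
    push_cast
    linarith [b0.1]
  · refine outside_of_axis _ y 2 (Or.inl ?_)
    show y 2 ≤ ((Z - h 2 : ℚ) : ℝ) - (δ : ℝ)
    push_cast
    linarith [b2.2.2]
  · refine outside_of_axis _ y 2 (Or.inl ?_)
    show y 2 ≤ ((Z - h 2 : ℚ) : ℝ) - (δ : ℝ)
    push_cast
    linarith [b2.2.2]
  · rcases le_abs.mp hXX with hc | hc
    · have hc' : 2 * (R : ℝ) + 2 ≤ (X : ℝ) - (X' : ℝ) := by exact_mod_cast hc
      refine outside_of_axis _ y 0 (Or.inl ?_)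
      show y 0 ≤ ((X - h 0 : ℚ) : ℝ) - (δ : ℝ)
      push_cast
      linarith [b0.2.2]
    · have hc' : 2 * (R : ℝ) + 2 ≤ -((X : ℝ) - (X' : ℝ)) := by exact_mod_cast hc
      refine outside_of_axis _ y 0 (Or.inr ?_)
      show ((X + h 0 : ℚ) : ℝ) + (δ : ℝ) ≤ y 0
      push_cast
      linarith [b0.2.2]

/-- The parked box: the image of `box a h` under the parking translation. -/
theorem park_mem (a h : Fin 3 → ℚ) (X : ℚ) (x : Fin 3 → ℝ) (hx : x ∈ box a h) :
    (fun j => x j - (a j : ℝ) + (park X j : ℝ)) ∈ box (park X) h := by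
  intro j
  have h0 : |x j - (a j : ℝ)| ≤ (h j : ℝ) := hx j
  show |x j - (a j : ℝ) + (park X j : ℝ) - (park X j : ℝ)| ≤ (h j : ℝ)
  rw [add_sub_cancel_right]
  exact h0

/-- The inductive statement: the boxes of `S` are parked, the others are assumed to be parked
already and are left alone. -/
theorem parking_aux (n : ℕ) (a h : Fin n → Fin 3 → ℚ) (hh : ∀ i j, 0 < h i j)
    (δ : ℚ) (hδ : 0 < δ) (hδ1 : δ ≤ 1)
    (hsep : ∀ i i', i ≠ i' → ∃ j, h i j + h i' j + δ ≤ |a i j - a i' j|)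
    (R : ℚ) (hR : ∀ i j, |a i j| + h i j ≤ R) (X : Fin n → ℚ) (hX : ∀ i, 2 * R + 2 ≤ X i)
    (hXX : ∀ i i', i ≠ i' → 2 * R + 2 ≤ |X i - X i'|) :
    ∀ (c : ℕ) (S : Finset (Fin n)), S.card = c → ∃ ms : List Move,
      (∀ i ∈ S, ∀ x ∈ box (a i) (h i),
        TrackOK ms x ∧ run ms x = fun j => x j - (a i j : ℝ) + (park (X i) j : ℝ)) ∧
      (∀ i ∉ S, ∀ y ∈ box (park (X i)) (h i), TrackOK ms y ∧ run ms y = y) := by
  intro c
  induction c with
  | zero =>
    intro S hS
    have hS' : S = ∅ := Finset.card_eq_zero.mp hS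
    subst hS'
    exact ⟨[], fun i hi => absurd hi (Finset.notMem_empty i), fun i _ y _ => ⟨trivial, rfl⟩⟩
  | succ c ih =>
    intro S hS
    have hne : S.Nonempty := Finset.card_pos.mp (by omega)
    obtain ⟨i₀, hi₀, hmax⟩ := Finset.exists_max_image S (fun i => a i 2 + h i 2) hne
    obtain ⟨ms', h1, h2⟩ := ih (S.erase i₀) (by rw [Finset.card_erase_of_mem hi₀, hS]; rfl)
    have hR0 : 0 ≤ R := by
      have := hR i₀ 0
      have := abs_nonneg (a i₀ 0)
      have := (hh i₀ 0).le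
      linarith
    have hZ0 : (0 : ℚ) ≤ 2 * R + 1 := by linarith
    have haZ : a i₀ 2 ≤ 2 * R + 1 := by
      have := hR i₀ 2
      have := le_abs_self (a i₀ 2)
      have := (hh i₀ 2).le
      linarith
    have haX : a i₀ 0 ≤ X i₀ := by
      have := hR i₀ 0
      have := le_abs_self (a i₀ 0)
      have := (hh i₀ 0).le
      have := hX i₀
      linarith
    refine ⟨parkMoves (a i₀) (h i₀) (X i₀) (2 * R + 1) δ hδ ++ ms', ?_, ?_⟩
    · intro i hi x hx
      by_cases hii : i = i₀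
      · subst hii
        obtain ⟨t1, r1⟩ := parkMoves_carry (a i) (h i) (X i) (2 * R + 1) δ hδ haZ haX hZ0 x hx
        have hmem := park_mem (a i) (h i) (X i) x hx
        obtain ⟨t2, r2⟩ := h2 i (Finset.notMem_erase i S) _ hmem
        refine ⟨(trackOK_append _ _ _).mpr ⟨t1, ?_⟩, ?_⟩
        · rw [r1]; exact t2
        · rw [run_append, r1, r2]
      · have hi' : i ∈ S.erase i₀ := Finset.mem_erase.mpr ⟨hii, hi⟩
        have hout := parkMoves_outside_unparked (a i₀) (h i₀) (a i) (h i) (X i₀) (2 * R + 1) δ R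
          hδ hδ1 (hh i) (hR i₀) (hR i) rfl (hX i₀) (hsep i₀ i (Ne.symm hii)) (hmax i hi) x hx
        obtain ⟨t1, r1⟩ := untouched _ x hout
        obtain ⟨t2, r2⟩ := h1 i hi' x hx
        refine ⟨(trackOK_append _ _ _).mpr ⟨t1, ?_⟩, ?_⟩
        · rw [r1]; exact t2
        · rw [run_append, r1, r2]
    · intro i hi y hy
      have hii : i ≠ i₀ := fun e => hi (e ▸ hi₀)
      have hi' : i ∉ S.erase i₀ := fun e => hi (Finset.mem_of_mem_erase e)
      have hhR : ∀ j, h i j ≤ R := fun j => by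
        have := hR i j
        have := abs_nonneg (a i j)
        linarith
      have hout := parkMoves_outside_parked (a i₀) (h i₀) (h i) (X i₀) (X i) (2 * R + 1) δ R
        hδ hδ1 (hR i₀) hhR rfl (hX i) (hXX i₀ i (Ne.symm hii)) y hy
      obtain ⟨t1, r1⟩ := untouched _ y hout
      obtain ⟨t2, r2⟩ := h2 i hi' y hy
      refine ⟨(trackOK_append _ _ _).mpr ⟨t1, ?_⟩, ?_⟩
      · rw [r1]; exact t2
      · rw [run_append, r1, r2]

/-- A uniform positive lower bound for finitely many positive rationals. -/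
theorem exists_pos_le_of_finite {ι : Type*} [Finite ι] (g : ι → ℚ) (hg : ∀ p, 0 < g p) :
    ∃ δ : ℚ, 0 < δ ∧ ∀ p, δ ≤ g p := by
  cases nonempty_fintype ι
  rcases isEmpty_or_nonempty ι with he | hne
  · exact ⟨1, one_pos, fun p => (he.false p).elim⟩
  · obtain ⟨p₀, -, hp₀⟩ := Finset.exists_min_image (Finset.univ : Finset ι) g Finset.univ_nonempty
    exact ⟨g p₀, hg p₀, fun p => hp₀ p (Finset.mem_univ p)⟩

end Parking

open Parking in
/-- Pairwise disjoint boxes inside the cube of radius `R` can be parked in far-away lanes: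
box `i` is translated to the box of the same size centred at `(X i, 0, 0)`. -/
theorem exists_parking (n : ℕ) (a h : Fin n → Fin 3 → ℚ) (hh : ∀ i j, 0 < h i j)
    (ha : Pairwise fun i i' => Disjoint (box (a i) (h i)) (box (a i') (h i')))
    (R : ℚ) (hR : ∀ i j, |a i j| + h i j ≤ R) (X : Fin n → ℚ) (hX : ∀ i, 2 * R + 2 ≤ X i)
    (hXX : ∀ i i', i ≠ i' → 2 * R + 2 ≤ |X i - X i'|) :
    ∃ ms : List Move, ∀ i : Fin n, ∀ x ∈ box (a i) (h i),
      TrackOK ms x ∧ run ms x = fun j => x j - (a i j : ℝ) + (park (X i) j : ℝ) := by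
  -- a uniform separation margin
  have hgap : ∀ p : Fin n × Fin n, ∃ g : ℚ, 0 < g ∧
      (p.1 ≠ p.2 → ∃ j, h p.1 j + h p.2 j + g ≤ |a p.1 j - a p.2 j|) := by
    intro p
    by_cases hp : p.1 = p.2
    · exact ⟨1, one_pos, fun hne => absurd hp hne⟩
    · obtain ⟨j, hj⟩ := (box_disjoint_iff (a p.1) (h p.1) (a p.2) (h p.2) (hh p.1) (hh p.2)).mp
        (ha hp)
      exact ⟨|a p.1 j - a p.2 j| - (h p.1 j + h p.2 j), by linarith, fun _ => ⟨j, by linarith⟩⟩
  choose g hg0 hg using hgap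
  obtain ⟨δ₀, hδ₀, hδ₀g⟩ := exists_pos_le_of_finite g hg0
  have hδ : 0 < min δ₀ 1 := lt_min hδ₀ one_pos
  have hsep : ∀ i i', i ≠ i' → ∃ j, h i j + h i' j + min δ₀ 1 ≤ |a i j - a i' j| := by
    intro i i' hne
    obtain ⟨j, hj⟩ := hg (i, i') hne
    have h1 := hδ₀g (i, i')
    have h2 := min_le_left δ₀ 1
    exact ⟨j, by linarith⟩
  obtain ⟨ms, h1, -⟩ := parking_aux n a h hh (min δ₀ 1) hδ (min_le_right _ _) hsep R hR X hX hXX
    (Finset.univ : Finset (Fin n)).card Finset.univ rfl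
  exact ⟨ms, fun i x hx => h1 i (Finset.mem_univ i) x hx⟩

end Crest.Agent.Box
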