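import Crest.Agent.Box.PlanBase

/-!
# Layer 5C for S0170: rescaling parked boxes in their lanes by shears

A diagonal volume preserving rescaling `diag(λ₀, λ₁, λ₂)` is the product of two planar squeezes
`diag(ρ, 1/ρ)`, and each planar squeeze is a product of four shears
(`E₁₂(ρ-1) · E₂₁(1) · E₁₂(1/ρ-1) · E₂₁(-ρ)`, rightmost first).  Each shear is a `Move` whose inner
box is a large cube about the centre of the box being reshaped (margin `1`), so it does not touch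
the other parked boxes as soon as the lanes are far apart.
-/

set_option autoImplicit false
open Crest.AnalysisR.BoxFlow

namespace Crest.Agent.Box

/-- Specification of a shear `x ↦ x + s * (x q - c q) • e_p` (about a centre `c` given later). -/
structure Shear where
  p : Fin 3
  q : Fin 3
  hpq : p ≠ q
  s : ℚ

/-- The closed cube of half-width `B` about the rational point `c`. -/
def Cube (c : Fin 3 → ℚ) (B : ℝ) (x : Fin 3 → ℝ) : Prop := ∀ k : Fin 3, |x k - (c k : ℝ)| ≤ B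

namespace Shear

/-- The shear about `c` as a move whose inner box is the cube of half-width `D` about `c`. -/
def toMove (σ : Shear) (c : Fin 3 → ℚ) (D : ℚ) : Move :=
  { i := σ.p, j := σ.q, hij := σ.hpq, α := 0, a := σ.s, c := c σ.q,
    lo := fun k => c k - D, hi := fun k => c k + D, δ := 1, hδ := one_pos }

/-- The shear about `c` as a map. -/
noncomputable def map (σ : Shear) (c : Fin 3 → ℚ) (x : Fin 3 → ℝ) : Fin 3 → ℝ :=
  x + Pi.single σ.p ((σ.s : ℝ) * (x σ.q - (c σ.q : ℝ)))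

theorem toMove_vel (σ : Shear) (c : Fin 3 → ℚ) (D : ℚ) (x : Fin 3 → ℝ) :
    x + (σ.toMove c D).vel x = σ.map c x := by
  unfold Move.vel map
  show x + Pi.single σ.p (((0 : ℚ) : ℝ) + (σ.s : ℝ) * (x σ.q - (c σ.q : ℝ))) = _
  rw [Rat.cast_zero, zero_add]

theorem map_apply_same (σ : Shear) (c : Fin 3 → ℚ) (x : Fin 3 → ℝ) :
    σ.map c x σ.p = x σ.p + (σ.s : ℝ) * (x σ.q - (c σ.q : ℝ)) := by
  unfold map
  rw [Pi.add_apply, Pi.single_eq_same]

theorem map_apply_of_ne (σ : Shear) (c : Fin 3 → ℚ) (x : Fin 3 → ℝ) {k : Fin 3} (hk : k ≠ σ.p) :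
    σ.map c x k = x k := by
  unfold map
  rw [Pi.add_apply, Pi.single_eq_of_ne hk, add_zero]

theorem map_mk_same (p q : Fin 3) (hpq : p ≠ q) (s : ℚ) (c : Fin 3 → ℚ) (x : Fin 3 → ℝ) :
    (Shear.mk p q hpq s).map c x p = x p + (s : ℝ) * (x q - (c q : ℝ)) :=
  map_apply_same _ c x

theorem map_mk_of_ne (p q : Fin 3) (hpq : p ≠ q) (s : ℚ) (c : Fin 3 → ℚ) (x : Fin 3 → ℝ)
    {k : Fin 3} (hk : k ≠ p) : (Shear.mk p q hpq s).map c x k = x k :=
  map_apply_of_ne _ c x hk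

theorem map_cube (σ : Shear) (c : Fin 3 → ℚ) {B : ℝ} {x : Fin 3 → ℝ} (hx : Cube c B x) :
    Cube c (B * (1 + |(σ.s : ℝ)|)) (σ.map c x) := by
  have hB : 0 ≤ B := (abs_nonneg _).trans (hx 0)
  intro k
  by_cases hk : k = σ.p
  · subst hk
    rw [map_apply_same]
    have h1 := hx σ.p
    have h2 := hx σ.q
    have h3 : |(σ.s : ℝ) * (x σ.q - (c σ.q : ℝ))| ≤ |(σ.s : ℝ)| * B := by
      rw [abs_mul]
      exact mul_le_mul_of_nonneg_left h2 (abs_nonneg _)
    have h4 : |x σ.p + (σ.s : ℝ) * (x σ.q - (c σ.q : ℝ)) - (c σ.p : ℝ)| ≤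
        |x σ.p - (c σ.p : ℝ)| + |(σ.s : ℝ) * (x σ.q - (c σ.q : ℝ))| := by
      have e : x σ.p + (σ.s : ℝ) * (x σ.q - (c σ.q : ℝ)) - (c σ.p : ℝ) =
          (x σ.p - (c σ.p : ℝ)) + (σ.s : ℝ) * (x σ.q - (c σ.q : ℝ)) := by ring
      rw [e]
      exact abs_add_le _ _
    nlinarith
  · rw [map_apply_of_ne _ _ _ hk]
    have h1 := hx k
    nlinarith [abs_nonneg (σ.s : ℝ)]

theorem inside (σ : Shear) (c : Fin 3 → ℚ) (D : ℚ) {B : ℝ} {x : Fin 3 → ℝ} (hx : Cube c B x)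
    (hD : B * (1 + |(σ.s : ℝ)|) ≤ (D : ℝ)) : (σ.toMove c D).Inside x := by
  have hB : 0 ≤ B := (abs_nonneg _).trans (hx 0)
  have hBD : B ≤ (D : ℝ) := by nlinarith [abs_nonneg (σ.s : ℝ)]
  have hcube : ∀ y : Fin 3 → ℝ, Cube c (D : ℝ) y → y ∈ (σ.toMove c D).inner := by
    intro y hy k
    have h1 := abs_le.mp (hy k)
    show (((c k - D : ℚ)) : ℝ) ≤ y k ∧ y k ≤ (((c k + D : ℚ)) : ℝ)
    push_cast
    constructor <;> linarith [h1.1, h1.2]
  refine ⟨hcube x fun k => (hx k).trans hBD, ?_⟩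
  rw [toMove_vel]
  exact hcube _ fun k => (σ.map_cube c hx k).trans hD

theorem outside (σ : Shear) (c : Fin 3 → ℚ) (D : ℚ) {z : Fin 3 → ℝ} (k : Fin 3)
    (hz : (D : ℝ) + 1 ≤ |z k - (c k : ℝ)|) : (σ.toMove c D).Outside z := by
  intro hzo
  have h1 : (((c k - D : ℚ)) : ℝ) - ((1 : ℚ) : ℝ) < z k ∧ z k < (((c k + D : ℚ)) : ℝ) + ((1 : ℚ) : ℝ) :=
    hzo k
  push_cast at h1
  have h2 : |z k - (c k : ℝ)| < (D : ℝ) + 1 := by
    rw [abs_lt]
    constructor <;> linarith [h1.1, h1.2]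
  linarith

end Shear

/-- The composition of a list of shears about `c` (head first). -/
noncomputable def mapList : List Shear → (Fin 3 → ℚ) → (Fin 3 → ℝ) → (Fin 3 → ℝ)
  | [], _, x => x
  | σ :: l, c, x => mapList l c (σ.map c x)

/-- A bound for the growth of a cube under a list of shears. -/
def growth : List Shear → ℚ
  | [] => 1
  | σ :: l => (1 + |σ.s|) * growth l

theorem one_le_growth (l : List Shear) : 1 ≤ growth l := by
  induction l with
  | nil => exact le_rfl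
  | cons σ l ih =>
    show 1 ≤ (1 + |σ.s|) * growth l
    nlinarith [abs_nonneg σ.s]

theorem mapList_append (l₁ l₂ : List Shear) (c : Fin 3 → ℚ) (x : Fin 3 → ℝ) :
    mapList (l₁ ++ l₂) c x = mapList l₂ c (mapList l₁ c x) := by
  induction l₁ generalizing x with
  | nil => rfl
  | cons σ l ih => exact ih (σ.map c x)

/-- A list of shear moves carries the points of a small cube as the composed shear map, provided the
inner cube is large enough. -/
theorem tracks_shears (l : List Shear) (c : Fin 3 → ℚ) (D : ℚ) (B : ℝ) (x : Fin 3 → ℝ)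
    (hx : Cube c B x) (hD : B * (growth l : ℝ) ≤ (D : ℝ)) :
    Tracks (l.map fun σ => σ.toMove c D) x (mapList l c x) := by
  induction l generalizing B x with
  | nil => exact Tracks.nil x
  | cons σ l ih =>
    have hB : 0 ≤ B := (abs_nonneg _).trans (hx 0)
    have hg : (1 : ℝ) ≤ (growth l : ℝ) := by exact_mod_cast one_le_growth l
    have hD' : B * (1 + |(σ.s : ℝ)|) * (growth l : ℝ) ≤ (D : ℝ) := by
      have e : (growth (σ :: l) : ℝ) = (1 + |(σ.s : ℝ)|) * (growth l : ℝ) := by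
        show (((1 + |σ.s|) * growth l : ℚ) : ℝ) = _
        push_cast
        rfl
      rw [e] at hD
      linarith
    have hs : B * (1 + |(σ.s : ℝ)|) ≤ (D : ℝ) := by
      have h0 : 0 ≤ B * (1 + |(σ.s : ℝ)|) := mul_nonneg hB (by positivity)
      nlinarith
    have hin := σ.inside c D hx hs
    rw [List.map_cons]
    refine Tracks.cons_inside hin ?_
    rw [Shear.toMove_vel]
    exact ih _ _ (σ.map_cube c hx) hD'

/-- A list of shear moves does not touch the points far away from the centre. -/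
theorem tracks_shears_fix (l : List Shear) (c : Fin 3 → ℚ) (D : ℚ) (z : Fin 3 → ℝ) (k : Fin 3)
    (hz : (D : ℝ) + 1 ≤ |z k - (c k : ℝ)|) : Tracks (l.map fun σ => σ.toMove c D) z z := by
  induction l with
  | nil => exact Tracks.nil z
  | cons σ l ih =>
    rw [List.map_cons]
    exact Tracks.cons_outside (σ.outside c D k hz) ih

/-- The planar squeeze `diag(ρ, 1/ρ)` in the coordinate plane `(p, q)` as four shears. -/
def squeeze (p q : Fin 3) (hpq : p ≠ q) (ρ : ℚ) : List Shear :=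
  [⟨q, p, hpq.symm, -ρ⟩, ⟨p, q, hpq, 1 / ρ - 1⟩, ⟨q, p, hpq.symm, 1⟩, ⟨p, q, hpq, ρ - 1⟩]

theorem mapList_squeeze (p q : Fin 3) (hpq : p ≠ q) (ρ : ℚ) (hρ : ρ ≠ 0) (c : Fin 3 → ℚ)
    (x : Fin 3 → ℝ) :
    (mapList (squeeze p q hpq ρ) c x p = (c p : ℝ) + (ρ : ℝ) * (x p - (c p : ℝ))) ∧
    (mapList (squeeze p q hpq ρ) c x q = (c q : ℝ) + (1 / (ρ : ℝ)) * (x q - (c q : ℝ))) ∧
    (∀ k : Fin 3, k ≠ p → k ≠ q → mapList (squeeze p q hpq ρ) c x k = x k) := by
  have hρ' : (ρ : ℝ) ≠ 0 := by exact_mod_cast hρ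
  have hqp : q ≠ p := hpq.symm
  refine ⟨?_, ?_, ?_⟩
  · show Shear.map ⟨p, q, hpq, ρ - 1⟩ c (Shear.map ⟨q, p, hpq.symm, 1⟩ c
      (Shear.map ⟨p, q, hpq, 1 / ρ - 1⟩ c (Shear.map ⟨q, p, hpq.symm, -ρ⟩ c x))) p = _
    simp only [Shear.map_mk_same, Shear.map_mk_of_ne _ _ _ _ _ _ hpq,
      Shear.map_mk_of_ne _ _ _ _ _ _ hqp]
    push_cast
    field_simp
    ring
  · show Shear.map ⟨p, q, hpq, ρ - 1⟩ c (Shear.map ⟨q, p, hpq.symm, 1⟩ c
      (Shear.map ⟨p, q, hpq, 1 / ρ - 1⟩ c (Shear.map ⟨q, p, hpq.symm, -ρ⟩ c x))) q = _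
    simp only [Shear.map_mk_same, Shear.map_mk_of_ne _ _ _ _ _ _ hpq,
      Shear.map_mk_of_ne _ _ _ _ _ _ hqp]
    push_cast
    field_simp
    ring
  · intro k hkp hkq
    show Shear.map ⟨p, q, hpq, ρ - 1⟩ c (Shear.map ⟨q, p, hpq.symm, 1⟩ c
      (Shear.map ⟨p, q, hpq, 1 / ρ - 1⟩ c (Shear.map ⟨q, p, hpq.symm, -ρ⟩ c x))) k = _
    simp only [Shear.map_mk_of_ne _ _ _ _ _ _ hkp, Shear.map_mk_of_ne _ _ _ _ _ _ hkq]

/-- Reshaping one box about its centre `c`: a plan depending on `c`, and a distance `D` (independent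
of `c`) beyond which, along axis `0`, nothing is touched. -/
theorem reshape_one (h k : Fin 3 → ℚ) (hh : ∀ j, 0 < h j) (hk : ∀ j, 0 < k j)
    (hvol : ∏ j : Fin 3, k j / h j = 1) :
    ∃ D : ℚ, ∀ c : Fin 3 → ℚ, ∃ ms : List Move,
      (∀ x ∈ box c h,
        Tracks ms x (fun j => (c j : ℝ) + ((k j / h j : ℚ) : ℝ) * (x j - (c j : ℝ)))) ∧
      (∀ z : Fin 3 → ℝ, (D : ℝ) ≤ |z 0 - (c 0 : ℝ)| → Tracks ms z z) := by
  obtain ⟨l0, hl0⟩ : ∃ l0 : ℚ, l0 = k 0 / h 0 := ⟨_, rfl⟩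
  obtain ⟨l1, hl1⟩ : ∃ l1 : ℚ, l1 = k 1 / h 1 := ⟨_, rfl⟩
  obtain ⟨l2, hl2⟩ : ∃ l2 : ℚ, l2 = k 2 / h 2 := ⟨_, rfl⟩
  have h0 : l0 ≠ 0 := by rw [hl0]; exact (div_pos (hk 0) (hh 0)).ne'
  have h1 : l1 ≠ 0 := by rw [hl1]; exact (div_pos (hk 1) (hh 1)).ne'
  have h01 : l0 * l1 ≠ 0 := mul_ne_zero h0 h1
  have hprod : l0 * l1 * l2 = 1 := by
    rw [Fin.prod_univ_three] at hvol
    rw [hl0, hl1, hl2]
    exact hvol
  have h01' : (0 : Fin 3) ≠ 1 := by decide
  have h12' : (1 : Fin 3) ≠ 2 := by decide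
  obtain ⟨specs, hspecs⟩ : ∃ specs : List Shear,
      specs = squeeze 0 1 h01' l0 ++ squeeze 1 2 h12' (l0 * l1) := ⟨_, rfl⟩
  obtain ⟨B, hB⟩ : ∃ B : ℚ, B = h 0 + h 1 + h 2 := ⟨_, rfl⟩
  refine ⟨B * growth specs + 1,
    fun c => ⟨specs.map fun σ => σ.toMove c (B * growth specs), ?_, ?_⟩⟩
  · intro x hx
    have hcube : Cube c (B : ℝ) x := by
      intro j
      have hj : h j ≤ B := by
        rw [hB]
        fin_cases j
        · show h 0 ≤ h 0 + h 1 + h 2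
          linarith [hh 0, hh 1, hh 2]
        · show h 1 ≤ h 0 + h 1 + h 2
          linarith [hh 0, hh 1, hh 2]
        · show h 2 ≤ h 0 + h 1 + h 2
          linarith [hh 0, hh 1, hh 2]
      have hj' : (h j : ℝ) ≤ (B : ℝ) := by exact_mod_cast hj
      exact le_trans (hx j) hj'
    have key := tracks_shears specs c (B * growth specs) (B : ℝ) x hcube
      (by push_cast; exact le_rfl)
    have hmap : mapList specs c x =
        fun j => (c j : ℝ) + ((k j / h j : ℚ) : ℝ) * (x j - (c j : ℝ)) := by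
      rw [hspecs, mapList_append]
      obtain ⟨a1, a2, a3⟩ := mapList_squeeze 0 1 h01' l0 h0 c x
      obtain ⟨b1, b2, b3⟩ := mapList_squeeze 1 2 h12' (l0 * l1) h01 c
        (mapList (squeeze 0 1 h01' l0) c x)
      have h0r : (l0 : ℝ) ≠ 0 := by exact_mod_cast h0
      funext j
      fin_cases j
      · show mapList (squeeze 1 2 h12' (l0 * l1)) c (mapList (squeeze 0 1 h01' l0) c x) 0 =
          (c 0 : ℝ) + ((k 0 / h 0 : ℚ) : ℝ) * (x 0 - (c 0 : ℝ))
        rw [b3 0 (by decide) (by decide), a1, hl0]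
      · show mapList (squeeze 1 2 h12' (l0 * l1)) c (mapList (squeeze 0 1 h01' l0) c x) 1 =
          (c 1 : ℝ) + ((k 1 / h 1 : ℚ) : ℝ) * (x 1 - (c 1 : ℝ))
        rw [b1, a2, ← hl1]
        push_cast
        field_simp
        ring
      · show mapList (squeeze 1 2 h12' (l0 * l1)) c (mapList (squeeze 0 1 h01' l0) c x) 2 =
          (c 2 : ℝ) + ((k 2 / h 2 : ℚ) : ℝ) * (x 2 - (c 2 : ℝ))
        have e2 : (1 / ((l0 * l1 : ℚ) : ℝ)) = (l2 : ℝ) := by
          have hm : ((l0 * l1 : ℚ) : ℝ) * (l2 : ℝ) = 1 := by exact_mod_cast hprod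
          exact (eq_one_div_of_mul_eq_one_right hm).symm
        rw [b2, a3 2 (by decide) (by decide), e2, hl2]
    rw [hmap] at key
    exact key
  · intro z hz
    refine tracks_shears_fix specs c (B * growth specs) z 0 ?_
    push_cast at hz ⊢
    exact hz

/-- Parked boxes can be rescaled in place when the lanes are far enough apart. -/
theorem exists_reshape (n : ℕ) (h k : Fin n → Fin 3 → ℚ) (hh : ∀ i j, 0 < h i j)
    (hk : ∀ i j, 0 < k i j) (hvol : ∀ i, ∏ j : Fin 3, k i j / h i j = 1) :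
    ∃ L : ℚ, ∀ X : Fin n → ℚ, (∀ i i', i ≠ i' → L ≤ |X i - X i'|) →
      ∃ ms : List Move, ∀ i : Fin n, ∀ x ∈ box (park (X i)) (h i),
        TrackOK ms x ∧ run ms x = fun j =>
          (park (X i) j : ℝ) + ((k i j / h i j : ℚ) : ℝ) * (x j - (park (X i) j : ℝ)) := by
  choose D hD using fun i => reshape_one (h i) (k i) (hh i) (hk i) (hvol i)
  obtain ⟨M, hM⟩ : ∃ M : ℚ, M = ∑ i, (h i 0 + k i 0) := ⟨_, rfl⟩
  refine ⟨∑ i, |D i| + M, fun X hX => ?_⟩
  choose ms hms using fun i => hD i (park (X i))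
  refine ⟨(List.finRange n).flatMap ms, fun i x hx => ?_⟩
  have hMi : ∀ i, h i 0 ≤ M ∧ k i 0 ≤ M := by
    intro i
    have h1 : h i 0 + k i 0 ≤ M := by
      rw [hM]
      exact Finset.single_le_sum (f := fun i => h i 0 + k i 0)
        (fun i _ => (add_pos (hh i 0) (hk i 0)).le) (Finset.mem_univ i)
    exact ⟨by linarith [hk i 0], by linarith [hh i 0]⟩
  have hDi : ∀ i, D i ≤ ∑ i, |D i| := fun i =>
    (le_abs_self _).trans (Finset.single_le_sum (f := fun i => |D i|)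
      (fun i _ => abs_nonneg _) (Finset.mem_univ i))
  refine tracks_flatMap ms (fun i => box (park (X i)) (h i))
    (fun i => {z | |z 0 - (X i : ℝ)| ≤ (M : ℝ)})
    (fun i x => fun j =>
      (park (X i) j : ℝ) + ((k i j / h i j : ℚ) : ℝ) * (x j - (park (X i) j : ℝ)))
    ?_ (fun i => (hms i).1) ?_ ?_ (List.finRange n) (List.nodup_finRange n) i
    (List.mem_finRange i) x hx
  · intro i i' hne z hz
    apply (hms i).2
    show (D i : ℝ) ≤ |z 0 - ((park (X i) 0 : ℚ) : ℝ)|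
    have h1 : ((∑ i, |D i| + M : ℚ) : ℝ) ≤ |(X i : ℝ) - X i'| := by exact_mod_cast hX i i' hne
    have h2 : |(X i : ℝ) - X i'| ≤ |(X i : ℝ) - z 0| + |z 0 - X i'| := abs_sub_le _ _ _
    have h3 : (D i : ℝ) ≤ ((∑ i, |D i| : ℚ) : ℝ) := by exact_mod_cast hDi i
    rw [abs_sub_comm (X i : ℝ) (z 0)] at h2
    have hz' : |z 0 - (X i' : ℝ)| ≤ (M : ℝ) := hz
    rw [park_zero]
    rw [Rat.cast_add] at h1
    linarith
  · intro i x hx
    have h1 : |x 0 - ((park (X i) 0 : ℚ) : ℝ)| ≤ (h i 0 : ℝ) := hx 0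
    have h2 : (h i 0 : ℝ) ≤ (M : ℝ) := by exact_mod_cast (hMi i).1
    rw [park_zero] at h1
    exact h1.trans h2
  · intro i x hx
    have h1 : |x 0 - ((park (X i) 0 : ℚ) : ℝ)| ≤ (h i 0 : ℝ) := hx 0
    rw [park_zero] at h1
    show |((park (X i) 0 : ℚ) : ℝ) + ((k i 0 / h i 0 : ℚ) : ℝ) *
      (x 0 - ((park (X i) 0 : ℚ) : ℝ)) - (X i : ℝ)| ≤ (M : ℝ)
    rw [park_zero, add_sub_cancel_left, abs_mul]
    have hpos : (0 : ℝ) < (h i 0 : ℝ) := by exact_mod_cast hh i 0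
    have hkpos : (0 : ℝ) < (k i 0 : ℝ) := by exact_mod_cast hk i 0
    have h2 : (k i 0 : ℝ) ≤ (M : ℝ) := by exact_mod_cast (hMi i).2
    have h3 : |((k i 0 / h i 0 : ℚ) : ℝ)| = (k i 0 : ℝ) / h i 0 := by
      push_cast
      exact abs_of_pos (div_pos hkpos hpos)
    rw [h3]
    calc (k i 0 : ℝ) / h i 0 * |x 0 - (X i : ℝ)|
        ≤ (k i 0 : ℝ) / h i 0 * h i 0 := mul_le_mul_of_nonneg_left h1 (div_pos hkpos hpos).le
      _ = k i 0 := by field_simp
      _ ≤ M := h2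

end Crest.Agent.Box
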