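import Crest.Agent.Box.PlanBase
import Crest.Agent.Box.Parking
import Crest.Agent.Box.Reshape

/-!
# Layer 5D for S0170: the plan (park the sources, reshape, un-park onto the targets)
-/

set_option autoImplicit false
open Crest.AnalysisR.BoxFlow

namespace Crest.Agent.Box

/-- Pairwise disjoint source boxes can be carried to pairwise disjoint target boxes by a plan. -/
theorem exists_plan (n : ℕ) (a b h k : Fin n → Fin 3 → ℚ)
    (hh : ∀ i j, 0 < h i j) (hk : ∀ i j, 0 < k i j)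
    (ha : Pairwise fun i i' => Disjoint (box (a i) (h i)) (box (a i') (h i')))
    (hb : Pairwise fun i i' => Disjoint (box (b i) (k i)) (box (b i') (k i')))
    (hvol : ∀ i, ∏ j : Fin 3, k i j / h i j = 1) :
    ∃ ms : List Move, ∀ i : Fin n, ∀ x ∈ box (a i) (h i),
      TrackOK ms x ∧
        run ms x = fun j => (b i j : ℝ) + ((k i j / h i j : ℚ) : ℝ) * (x j - (a i j : ℝ)) := by
  -- a radius containing all sources and targets
  obtain ⟨R, hR⟩ : ∃ R : ℚ, R = ∑ i, ∑ j, (|a i j| + h i j + |b i j| + k i j) := ⟨_, rfl⟩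
  have hterm : ∀ i j, 0 ≤ |a i j| + h i j + |b i j| + k i j := fun i j => by
    have h1 := abs_nonneg (a i j)
    have h2 := abs_nonneg (b i j)
    linarith [hh i j, hk i j]
  have hRij : ∀ i j, |a i j| + h i j + |b i j| + k i j ≤ R := by
    intro i j
    rw [hR]
    have h1 : |a i j| + h i j + |b i j| + k i j ≤ ∑ j, (|a i j| + h i j + |b i j| + k i j) :=
      Finset.single_le_sum (f := fun j => |a i j| + h i j + |b i j| + k i j)
        (fun j _ => hterm i j) (Finset.mem_univ j)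
    have h2 : ∑ j, (|a i j| + h i j + |b i j| + k i j) ≤
        ∑ i, ∑ j, (|a i j| + h i j + |b i j| + k i j) :=
      Finset.single_le_sum (f := fun i => ∑ j, (|a i j| + h i j + |b i j| + k i j))
        (fun i _ => Finset.sum_nonneg fun j _ => hterm i j) (Finset.mem_univ i)
    exact h1.trans h2
  have hR0 : 0 ≤ R := by
    rw [hR]
    exact Finset.sum_nonneg fun i _ => Finset.sum_nonneg fun j _ => hterm i j
  have hRa : ∀ i j, |a i j| + h i j ≤ R := fun i j => by
    have h1 := abs_nonneg (b i j)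
    linarith [hRij i j, hk i j]
  have hRb : ∀ i j, |b i j| + k i j ≤ R := fun i j => by
    have h1 := abs_nonneg (a i j)
    linarith [hRij i j, hh i j]
  -- the lanes
  obtain ⟨L, hL⟩ := exists_reshape n h k hh hk hvol
  obtain ⟨W, hW⟩ : ∃ W : ℚ, W = max L (2 * R + 2) := ⟨_, rfl⟩
  have hWL : L ≤ W := by rw [hW]; exact le_max_left _ _
  have hWR : 2 * R + 2 ≤ W := by rw [hW]; exact le_max_right _ _
  have hWpos : 0 < W := by linarith
  obtain ⟨X, hXdef⟩ : ∃ X : Fin n → ℚ, X = fun i : Fin n => (((i : ℕ) : ℚ) + 1) * W := ⟨_, rfl⟩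
  have hX : ∀ i, 2 * R + 2 ≤ X i := by
    intro i
    rw [hXdef]
    have h1 : (0 : ℚ) ≤ ((i : ℕ) : ℚ) := Nat.cast_nonneg _
    show 2 * R + 2 ≤ (((i : ℕ) : ℚ) + 1) * W
    nlinarith
  have hXX : ∀ i i', i ≠ i' → W ≤ |X i - X i'| := by
    intro i i' hne
    have hv : (i : ℕ) ≠ (i' : ℕ) := Fin.val_injective.ne hne
    have e : X i - X i' = (((i : ℕ) : ℚ) - ((i' : ℕ) : ℚ)) * W := by
      rw [hXdef]
      ring
    rw [e, abs_mul, abs_of_pos hWpos]
    have h1 : (1 : ℚ) ≤ |((i : ℕ) : ℚ) - ((i' : ℕ) : ℚ)| := by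
      rcases Nat.lt_or_gt_of_ne hv with hlt | hgt
      · have h2 : ((i : ℕ) : ℚ) + 1 ≤ ((i' : ℕ) : ℚ) := by exact_mod_cast hlt
        rw [abs_sub_comm, abs_of_nonneg (by linarith)]
        linarith
      · have h2 : ((i' : ℕ) : ℚ) + 1 ≤ ((i : ℕ) : ℚ) := by exact_mod_cast hgt
        rw [abs_of_nonneg (by linarith)]
        linarith
    nlinarith
  -- the three phases
  obtain ⟨ms₁, h₁⟩ := exists_parking n a h hh ha R hRa X hX
    (fun i i' hne => hWR.trans (hXX i i' hne))
  obtain ⟨ms₂, h₂⟩ := hL X (fun i i' hne => hWL.trans (hXX i i' hne))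
  obtain ⟨ms₃, h₃⟩ := exists_parking n b k hk hb R hRb X hX
    (fun i i' hne => hWR.trans (hXX i i' hne))
  refine ⟨ms₁ ++ (ms₂ ++ ms₃.reverse.map Move.rev), fun i x hx => ?_⟩
  -- phase 1: park the source box
  have t1 : Tracks ms₁ x (fun j => x j - (a i j : ℝ) + (park (X i) j : ℝ)) := h₁ i x hx
  have m1 : (fun j => x j - (a i j : ℝ) + (park (X i) j : ℝ)) ∈ box (park (X i)) (h i) := by
    intro j
    show |x j - (a i j : ℝ) + (park (X i) j : ℝ) - (park (X i) j : ℝ)| ≤ (h i j : ℝ)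
    rw [add_sub_cancel_right]
    exact hx j
  -- phase 2: reshape
  have t2 := h₂ i _ m1
  -- phase 3: un-park onto the target
  obtain ⟨z, hz⟩ : ∃ z : Fin 3 → ℝ,
      z = fun j => (b i j : ℝ) + ((k i j / h i j : ℚ) : ℝ) * (x j - (a i j : ℝ)) := ⟨_, rfl⟩
  have mz : z ∈ box (b i) (k i) := by
    intro j
    rw [hz]
    show |(b i j : ℝ) + ((k i j / h i j : ℚ) : ℝ) * (x j - (a i j : ℝ)) - (b i j : ℝ)| ≤
      (k i j : ℝ)
    rw [add_sub_cancel_left, abs_mul]
    have hpos : (0 : ℝ) < (h i j : ℝ) := by exact_mod_cast hh i j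
    have hkpos : (0 : ℝ) < (k i j : ℝ) := by exact_mod_cast hk i j
    have h3 : |((k i j / h i j : ℚ) : ℝ)| = (k i j : ℝ) / h i j := by
      push_cast
      exact abs_of_pos (div_pos hkpos hpos)
    rw [h3]
    have h1 : |x j - (a i j : ℝ)| ≤ (h i j : ℝ) := hx j
    calc (k i j : ℝ) / h i j * |x j - (a i j : ℝ)|
        ≤ (k i j : ℝ) / h i j * h i j := mul_le_mul_of_nonneg_left h1 (div_pos hkpos hpos).le
      _ = k i j := by field_simp
  have t3 : Tracks ms₃ z (fun j => z j - (b i j : ℝ) + (park (X i) j : ℝ)) := h₃ i z mz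
  have t3' := t3.reverse
  have e : (fun j => (park (X i) j : ℝ) + ((k i j / h i j : ℚ) : ℝ) *
      ((x j - (a i j : ℝ) + (park (X i) j : ℝ)) - (park (X i) j : ℝ))) =
      fun j => z j - (b i j : ℝ) + (park (X i) j : ℝ) := by
    funext j
    rw [hz]
    ring
  have t2' : Tracks ms₂ (fun j => x j - (a i j : ℝ) + (park (X i) j : ℝ))
      (fun j => z j - (b i j : ℝ) + (park (X i) j : ℝ)) := by
    rw [← e]
    exact t2
  have t := t1.append (t2'.append t3')
  rw [hz] at t
  exact t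

end Crest.Agent.Box
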