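import Crest.Agent.Box.MoveField

/-!
# Building blocks for the flow of a plan (S0170): one time window

* `planField_window`: during the `k`-th window only the `k`-th move is active;
* `window_traj_inside` / `window_traj_outside` / `window_traj`: the explicit integral curve of a
  move field through a carried (resp. untouched) point.
-/

set_option autoImplicit false
open scoped ContDiff
open Crest.AnalysisR.BoxFlow

namespace Crest.Agent.Box

variable {s : ℝ → ℝ}

/-- During the `k`-th window of a plan, its field is the field of the `k`-th move. -/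
theorem planField_window (hs : IsStep s) (τ : ℚ) (hτ : 0 < τ) (t₀ : ℚ) (ms : List Move) (k : ℕ)
    (hk : k < ms.length) (t : ℝ) (x : Fin 3 → ℝ)
    (h1 : ((t₀ + k * τ : ℚ) : ℝ) ≤ t) (h2 : t ≤ ((t₀ + (k + 1) * τ : ℚ) : ℝ)) :
    planField s τ t₀ ms (t, x) = moveField s ms[k] (t₀ + k * τ) τ (t, x) := by
  have hτ' : (0 : ℝ) < (τ : ℝ) := by exact_mod_cast hτ
  induction ms generalizing t₀ k with
  | nil => simp at hk
  | cons m ms ih =>
    show (moveField s m t₀ τ + planField s τ (t₀ + τ) ms) (t, x) = _
    rw [Pi.add_apply]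
    cases k with
    | zero =>
      have h0 : planField s τ (t₀ + τ) ms (t, x) = 0 := by
        apply planField_time_zero hs τ hτ (t₀ + τ) ms (t, x)
        left
        push_cast at h2 ⊢
        show t ≤ (t₀ : ℝ) + (τ : ℝ)
        linarith
      rw [h0, add_zero]
      have e : t₀ + ((0 : ℕ) : ℚ) * τ = t₀ := by push_cast; ring
      rw [e]
      rfl
    | succ k =>
      have hkτ : (0 : ℝ) ≤ (k : ℝ) * (τ : ℝ) := by positivity
      have h0 : moveField s m t₀ τ (t, x) = 0 := by
        apply moveField_time_zero hs m t₀ τ hτ (t, x)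
        right
        push_cast at h1 ⊢
        show (t₀ : ℝ) + (τ : ℝ) ≤ t
        nlinarith
      rw [h0, zero_add]
      have hk' : k < ms.length := by simpa using hk
      have h3 := ih (t₀ + τ) k hk' (by push_cast at h1 ⊢; linarith) (by push_cast at h2 ⊢; linarith)
      rw [h3]
      have e : t₀ + τ + (k : ℚ) * τ = t₀ + ((k + 1 : ℕ) : ℚ) * τ := by push_cast; ring
      rw [e]
      rfl

theorem Move.inner_subset_outer' (m : Move) {x : Fin 3 → ℝ} (hx : x ∈ m.inner) : x ∈ m.outer := by
  have hδ : (0 : ℝ) < (m.δ : ℝ) := by exact_mod_cast m.hδ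
  intro k
  exact ⟨by linarith [(hx k).1], by linarith [(hx k).2]⟩

/-- The velocity of a move does not change along its own direction. -/
theorem Move.vel_add_smul_vel (m : Move) (y : Fin 3 → ℝ) (θ : ℝ) :
    m.vel (y + θ • m.vel y) = m.vel y := by
  unfold Move.vel
  have : (y + θ • (Pi.single m.i ((m.α : ℝ) + (m.a : ℝ) * (y m.j - (m.c : ℝ))) : Fin 3 → ℝ)) m.j
      = y m.j := by
    simp [Pi.single_eq_of_ne (Ne.symm m.hij)]
  rw [this]

/-- The segment from a carried point to its image stays in the inner box. -/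
theorem Move.segment_mem_inner (m : Move) {y : Fin 3 → ℝ} (hin : m.Inside y) {θ : ℝ}
    (h0 : 0 ≤ θ) (h1 : θ ≤ 1) : y + θ • m.vel y ∈ m.inner := by
  intro k
  have ha := hin.1 k
  have hb := hin.2 k
  simp only [Pi.add_apply, Pi.smul_apply, smul_eq_mul] at hb ⊢
  constructor
  · nlinarith [ha.1, hb.1]
  · nlinarith [ha.2, hb.2]

/-- The integral curve of a move field through a carried point. -/
theorem window_traj_inside (hs : IsStep s) (m : Move) (t₀ τ : ℚ) (hτ : 0 < τ) (y : Fin 3 → ℝ)
    (hin : m.Inside y) (t : ℝ) :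
    HasDerivAt (fun t => y + timeStep s t₀ τ t • m.vel y)
      (moveField s m t₀ τ (t, y + timeStep s t₀ τ t • m.vel y)) t := by
  have hmem : y + timeStep s t₀ τ t • m.vel y ∈ m.inner :=
    m.segment_mem_inner hin (timeStep_mem01 hs t₀ τ t).1 (timeStep_mem01 hs t₀ τ t).2
  rw [moveField_inner hs m t₀ τ hτ t _ hmem, m.vel_add_smul_vel]
  exact ((timeStep_hasDerivAt hs t₀ τ t).smul_const (m.vel y)).const_add y

/-- An untouched point is a stationary point of the move field. -/
theorem window_traj_outside (hs : IsStep s) (m : Move) (t₀ τ : ℚ) (hτ : 0 < τ) (y : Fin 3 → ℝ)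
    (hout : m.Outside y) (t : ℝ) :
    HasDerivAt (fun _ : ℝ => y) (moveField s m t₀ τ (t, y)) t := by
  rw [moveField_outside hs m t₀ τ hτ t y hout]
  exact hasDerivAt_const t y

/-- The integral curve of a move field through a tracked point: it starts at the point, ends at
its image under the move, and solves the equation of the move field at all times. -/
theorem window_traj (hs : IsStep s) (m : Move) (t₀ τ : ℚ) (hτ : 0 < τ) (y : Fin 3 → ℝ)
    (h : m.Inside y ∨ m.Outside y) :
    ∃ γ : ℝ → Fin 3 → ℝ, γ (t₀ : ℝ) = y ∧ γ ((t₀ + τ : ℚ) : ℝ) = m.step y ∧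
      ∀ t : ℝ, HasDerivAt γ (moveField s m t₀ τ (t, γ t)) t := by
  by_cases hin : m.Inside y
  · refine ⟨fun t => y + timeStep s t₀ τ t • m.vel y, ?_, ?_, fun t => window_traj_inside hs m t₀ τ hτ y hin t⟩
    · show y + timeStep s t₀ τ (t₀ : ℝ) • m.vel y = y
      rw [timeStep_of_le hs t₀ τ hτ (t₀ : ℝ) le_rfl, zero_smul, add_zero]
    · show y + timeStep s t₀ τ ((t₀ + τ : ℚ) : ℝ) • m.vel y = m.step y
      rw [timeStep_of_ge hs t₀ τ hτ _ le_rfl, one_smul]
      unfold Move.step
      rw [if_pos hin]
  · have hout : m.Outside y := by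
      rcases h with h | h
      · exact absurd h hin
      · exact h
    refine ⟨fun _ => y, rfl, ?_, fun t => window_traj_outside hs m t₀ τ hτ y hout t⟩
    show y = m.step y
    unfold Move.step
    rw [if_neg hin]

end Crest.Agent.Box
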